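import Mathlib
import Vale.Agent.P189.Defs

set_option linter.all false

section

section

set_option autoImplicit false

open MeasureTheory
open scoped ENNReal

namespace Vale.Agent.P189

/-- One step along the labelled graph given by domains `D g`: from `x ∈ D g` to `g • x`. -/
def Step {Γ X : Type} [Group Γ] [MulAction Γ X] (D : Γ → Set X) (x y : X) : Prop :=
  ∃ g : Γ, x ∈ D g ∧ y = g • x

/-- Connectivity in the labelled graph. -/
def Conn {Γ X : Type} [Group Γ] [MulAction Γ X] (D : Γ → Set X) : X → X → Prop :=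
  Relation.EqvGen (Step D)

/-- The labelled graph generates the orbit relation almost everywhere. -/
def Gen {Γ X : Type} [Group Γ] [MulAction Γ X] [MeasurableSpace X] (μ : Measure X)
    (D : Γ → Set X) : Prop :=
  ∀ᵐ x ∂μ, ∀ g : Γ, Conn D x (g • x)

/-- Cost of the labelled graph. -/
noncomputable def dcost {Γ X : Type} [MeasurableSpace X] (μ : Measure X)
    (D : Γ → Set X) : ℝ≥0∞ :=
  ∑' g, μ (D g)

/-- One step of the abstract percolation on `Γ × I`, with set `P` of open positions. -/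
inductive LinkStep {Γ I : Type} [Group Γ] (K : I → Γ → I → Prop) (T : Finset Γ) (i0 : I)
    (P : Set Γ) : Γ × I → Γ × I → Prop
  | link (g h : Γ) (i j : I) : K i (h * g⁻¹) j → LinkStep K T i0 P (g, i) (h, j)
  | opened (g : Γ) (i j : I) : g ∈ P → LinkStep K T i0 P (g, i) (g, j)
  | edge (g t : Γ) : g ∈ P → t ∈ T → LinkStep K T i0 P (g, i0) (t * g, i0)

end Vale.Agent.P189
end
end

section

section

set_option autoImplicit false

open MeasureTheory
open scoped ENNReal Pointwise

namespace Vale.Agent.P189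

section Basic

variable {Γ X : Type} [Group Γ] [MulAction Γ X]

theorem Conn.refl (D : Γ → Set X) (x : X) : Conn D x x := Relation.EqvGen.refl x

theorem Conn.symm {D : Γ → Set X} {x y : X} (h : Conn D x y) : Conn D y x :=
  Relation.EqvGen.symm _ _ h

theorem Conn.trans {D : Γ → Set X} {x y z : X} (h : Conn D x y) (h' : Conn D y z) :
    Conn D x z :=
  Relation.EqvGen.trans _ _ _ h h'

theorem Conn.of_mem {D : Γ → Set X} {x : X} {g : Γ} (h : x ∈ D g) : Conn D x (g • x) :=
  Relation.EqvGen.rel _ _ ⟨g, h, rfl⟩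

theorem Conn.mono {D D' : Γ → Set X} (h : ∀ g, D g ⊆ D' g) {x y : X} (hc : Conn D x y) :
    Conn D' x y := by
  refine Relation.EqvGen.mono ?_ _ _ hc
  rintro a b ⟨g, ha, rfl⟩
  exact ⟨g, h g ha, rfl⟩

/-- If two points are connected then they are in the same orbit. -/
theorem Conn.exists_smul {D : Γ → Set X} {x y : X} (h : Conn D x y) :
    ∃ g : Γ, g • x = y := by
  induction h with
  | rel a b h => obtain ⟨g, _, rfl⟩ := h; exact ⟨g, rfl⟩
  | refl a => exact ⟨1, one_smul _ _⟩
  | symm a b _ ih => obtain ⟨g, rfl⟩ := ih; exact ⟨g⁻¹, by simp⟩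
  | trans a b c _ _ ih1 ih2 =>
    obtain ⟨g, rfl⟩ := ih1
    obtain ⟨h, rfl⟩ := ih2
    exact ⟨h * g, mul_smul _ _ _⟩

end Basic

section Convert

variable {Γ X : Type} [Group Γ] [MeasurableSpace X] [MulAction Γ X]
  [MeasurableConstSMul Γ X]

/-- The restriction of `x ↦ g • x` to a measurable set. -/
def PartialIso.ofSmul (μ : Measure X) [SMulInvariantMeasure Γ X μ] (g : Γ) (S : Set X)
    (hS : MeasurableSet S) : PartialIso X μ where
  toEquiv :=
    { toFun := fun x => g • x
      invFun := fun y => g⁻¹ • y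
      source := S
      target := g • S
      map_source' := fun x hx => Set.smul_mem_smul_set hx
      map_target' := fun y hy => by
        obtain ⟨x, hx, rfl⟩ := hy
        simpa using hx
      left_inv' := fun x _ => by simp
      right_inv' := fun x _ => by simp }
  measurableSet_source := hS
  measurableSet_target := hS.const_smul g
  measurable_forward := (measurable_const_smul g).comp measurable_subtype_coe
  measurable_backward := (measurable_const_smul g⁻¹).comp measurable_subtype_coe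
  preserves := fun s _ _ => measure_smul μ g s

theorem actionCost_le_dcost [Countable Γ] (μ : Measure X) [SMulInvariantMeasure Γ X μ]
    (D : Γ → Set X) (hD : ∀ g, MeasurableSet (D g)) (hgen : Gen μ D) :
    actionCost Γ X μ ≤ dcost μ D := by
  classical
  let _ : Encodable Γ := Encodable.ofCountable Γ
  let Φ : Graphing Γ X μ :=
    { map := fun n => match Encodable.decode₂ Γ n with
        | some g => PartialIso.ofSmul μ g (D g) (hD g)
        | none => PartialIso.ofSmul μ (1 : Γ) ∅ MeasurableSet.empty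
      mem_orbit := by
        intro n x hx
        cases h : Encodable.decode₂ Γ n with
        | some g => exact ⟨g, rfl⟩
        | none => exact ⟨1, rfl⟩ }
  have hmap : ∀ g : Γ, Φ.map (Encodable.encode g) = PartialIso.ofSmul μ g (D g) (hD g) := by
    intro g
    simp only [Φ, Encodable.encodek₂]
  have hcost : Φ.cost = dcost μ D := by
    unfold Graphing.cost dcost
    have h1 := (Encodable.encode_injective (α := Γ)).tsum_eq
      (f := fun n => μ (Φ.map n).toEquiv.source) (by
        intro n hn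
        cases h : Encodable.decode₂ Γ n with
        | some g =>
          exact ⟨g, by rw [← Encodable.decode₂_eq_some]; exact h⟩
        | none =>
          exfalso
          apply hn
          simp only [Φ, h]
          exact measure_empty)
    rw [← h1]
    refine tsum_congr fun g => ?_
    rw [hmap g]
    rfl
  have hg : Φ.Generates := by
    filter_upwards [hgen] with x hx
    rintro _ ⟨g, rfl⟩
    have := hx g
    have key : ∀ a b, Conn D a b → Φ.Reaches a b := by
      intro a b hab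
      have hsymm : ∀ a b, Φ.Reaches a b → Φ.Reaches b a := by
        intro a b hab
        unfold Graphing.Reaches at hab
        induction hab with
        | refl => exact Relation.ReflTransGen.refl
        | tail _ hstep ih =>
          refine Relation.ReflTransGen.head ?_ ih
          obtain ⟨i, h | h⟩ := hstep
          · refine ⟨i, Or.inr ?_⟩
            obtain ⟨h1, h2⟩ := h
            subst h2
            exact ⟨(Φ.map i).toEquiv.map_source h1, (Φ.map i).toEquiv.left_inv h1⟩
          · refine ⟨i, Or.inl ?_⟩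
            obtain ⟨h1, h2⟩ := h
            subst h2
            exact ⟨(Φ.map i).toEquiv.map_target h1, (Φ.map i).toEquiv.right_inv h1⟩
      induction hab with
      | rel a b h =>
        obtain ⟨g, ha, rfl⟩ := h
        refine Relation.ReflTransGen.single ⟨Encodable.encode g, Or.inl ?_⟩
        rw [hmap g]
        exact ⟨ha, rfl⟩
      | refl a => exact Relation.ReflTransGen.refl
      | symm a b _ ih => exact hsymm _ _ ih
      | trans a b c _ _ ih1 ih2 => exact ih1.trans ih2
    exact key _ _ this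
  rw [← hcost]
  exact iInf₂_le Φ hg

theorem exists_labelled [Countable Γ] [StandardBorelSpace X] (μ : Measure X)
    (Φ : Graphing Γ X μ) (hΦ : Φ.Generates) :
    ∃ D : Γ → Set X, (∀ g, MeasurableSet (D g)) ∧ Gen μ D ∧ dcost μ D ≤ Φ.cost := by
  classical
  let _ : Encodable Γ := Encodable.ofCountable Γ
  let Q : ℕ → Γ → Set X := fun i g =>
    {x | x ∈ (Φ.map i).toEquiv.source ∧ (Φ.map i).toEquiv x = g • x}
  have hQ : ∀ i g, MeasurableSet (Q i g) := by
    intro i g
    have h1 : MeasurableSet {x : (Φ.map i).toEquiv.source |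
        (Φ.map i).toEquiv (x : X) = g • (x : X)} :=
      measurableSet_eq_fun (Φ.map i).measurable_forward
        ((measurable_const_smul g).comp measurable_subtype_coe)
    have h2 := MeasurableSet.subtype_image (Φ.map i).measurableSet_source h1
    convert h2 using 1
    ext x
    simp only [Q, Set.mem_image, Set.mem_ofPred_eq]
    constructor
    · rintro ⟨hx, hx'⟩
      exact ⟨⟨x, hx⟩, hx', rfl⟩
    · rintro ⟨⟨y, hy⟩, hy', rfl⟩
      exact ⟨hy, hy'⟩
  let Q' : ℕ → Γ → Set X := fun i g =>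
    Q i g \ ⋃ (h : Γ) (_ : Encodable.encode h < Encodable.encode g), Q i h
  have hQ' : ∀ i g, MeasurableSet (Q' i g) := fun i g =>
    (hQ i g).diff (MeasurableSet.iUnion fun h => MeasurableSet.iUnion fun _ => hQ i h)
  have hdisj : ∀ i, Pairwise (Function.onFun Disjoint (Q' i)) := by
    intro i g h hgh
    have hne : Encodable.encode g ≠ Encodable.encode h :=
      fun e => hgh (Encodable.encode_injective e)
    rcases lt_or_gt_of_ne hne with hlt | hlt
    · refine Set.disjoint_left.2 fun x hx hx' => hx'.2 ?_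
      exact Set.mem_iUnion₂.2 ⟨g, hlt, hx.1⟩
    · refine Set.disjoint_left.2 fun x hx hx' => hx.2 ?_
      exact Set.mem_iUnion₂.2 ⟨h, hlt, hx'.1⟩
  have hcover : ∀ i x, x ∈ (Φ.map i).toEquiv.source → ∃ g, x ∈ Q' i g := by
    intro i x hx
    obtain ⟨g, hg⟩ := Φ.mem_orbit i x hx
    have hex : ∃ n : ℕ, ∃ g : Γ, Encodable.encode g = n ∧ x ∈ Q i g :=
      ⟨_, g, rfl, hx, hg.symm⟩
    obtain ⟨g', hg', hxg'⟩ := Nat.find_spec hex
    refine ⟨g', hxg', ?_⟩
    intro hmem
    obtain ⟨h, hlt, hxh⟩ := Set.mem_iUnion₂.1 hmem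
    rw [hg'] at hlt
    exact Nat.find_min hex hlt ⟨h, rfl, hxh⟩
  refine ⟨fun g => ⋃ i, Q' i g, fun g => MeasurableSet.iUnion fun i => hQ' i g, ?_, ?_⟩
  · filter_upwards [hΦ] with x hx g
    have key : ∀ a b, Φ.Reaches a b → Conn (fun g => ⋃ i, Q' i g) a b := by
      intro a b hab
      induction hab with
      | refl => exact Conn.refl _ _
      | tail _ hstep ih =>
        refine ih.trans ?_
        rename_i b c _
        obtain ⟨i, h | h⟩ := hstep
        · obtain ⟨h1, h2⟩ := h
          obtain ⟨g, hg⟩ := hcover i b h1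
          have : c = g • b := by rw [← h2]; exact hg.1.2
          rw [this]
          exact Conn.of_mem (Set.mem_iUnion.2 ⟨i, hg⟩)
        · obtain ⟨h1, h2⟩ := h
          have hc : c ∈ (Φ.map i).toEquiv.source := by
            rw [← h2]; exact (Φ.map i).toEquiv.map_target h1
          have hb : (Φ.map i).toEquiv c = b := by
            rw [← h2]; exact (Φ.map i).toEquiv.right_inv h1
          obtain ⟨g, hg⟩ := hcover i c hc
          have : b = g • c := by rw [← hb]; exact hg.1.2
          rw [this]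
          exact (Conn.of_mem (D := fun g => ⋃ i, Q' i g) (Set.mem_iUnion.2 ⟨i, hg⟩)).symm
    exact key _ _ (hx _ ⟨g, rfl⟩)
  · calc dcost μ (fun g => ⋃ i, Q' i g) = ∑' g, μ (⋃ i, Q' i g) := rfl
      _ ≤ ∑' g, ∑' i, μ (Q' i g) := ENNReal.tsum_le_tsum fun g => measure_iUnion_le _
      _ = ∑' i, ∑' g, μ (Q' i g) := ENNReal.tsum_comm
      _ = ∑' i, μ (⋃ g, Q' i g) := by
        refine tsum_congr fun i => ?_
        rw [measure_iUnion (hdisj i) (hQ' i)]
      _ ≤ ∑' i, μ (Φ.map i).toEquiv.source := by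
        refine ENNReal.tsum_le_tsum fun i => measure_mono ?_
        exact Set.iUnion_subset fun g x hx => hx.1.1
      _ = Φ.cost := rfl

/-- The cost of the action is the infimum of the costs of generating labelled graphs. -/
theorem exists_labelled_of_lt [Countable Γ] [StandardBorelSpace X] (μ : Measure X)
    {c : ℝ≥0∞} (h : actionCost Γ X μ < c) :
    ∃ D : Γ → Set X, (∀ g, MeasurableSet (D g)) ∧ Gen μ D ∧ dcost μ D < c := by
  unfold actionCost at h
  simp only [iInf_lt_iff] at h
  obtain ⟨Φ, hΦ, hc⟩ := h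
  obtain ⟨D, h1, h2, h3⟩ := exists_labelled μ Φ hΦ
  exact ⟨D, h1, h2, lt_of_le_of_lt h3 hc⟩

/-- Lower bounds for labelled graphs give lower bounds for the cost. -/
theorem le_actionCost_of_forall [Countable Γ] [StandardBorelSpace X] (μ : Measure X)
    {c : ℝ≥0∞} (h : ∀ D : Γ → Set X, (∀ g, MeasurableSet (D g)) → Gen μ D → c ≤ dcost μ D) :
    c ≤ actionCost Γ X μ := by
  refine le_iInf₂ fun Φ hΦ => ?_
  obtain ⟨D, h1, h2, h3⟩ := exists_labelled μ Φ hΦ
  exact (h D h1 h2).trans h3

end Convert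

end Vale.Agent.P189
end
end

section

section

set_option autoImplicit false

open MeasureTheory ProbabilityTheory
open scoped ENNReal Pointwise

namespace Vale.Agent.P189

/-- Coin measure on `Bool`. -/
noncomputable def coin (p : ℝ≥0∞) : Measure Bool :=
  p • Measure.dirac true + (1 - p) • Measure.dirac false

theorem coin_prob {p : ℝ≥0∞} (hp : p ≤ 1) : IsProbabilityMeasure (coin p) := by
  constructor
  simp [coin, hp]

theorem coin_true (p : ℝ≥0∞) : coin p {true} = p := by
  simp [coin]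

section Prob

variable {ι : Type} [Fintype ι]

theorem pi_all_true {p : ℝ≥0∞} (hp : p ≤ 1) (S : Finset ι) :
    (Measure.pi fun _ : ι => coin p) {c | ∀ i ∈ S, c i = true} = p ^ S.card := by
  classical
  have := coin_prob hp
  have h : {c : ι → Bool | ∀ i ∈ S, c i = true} =
      Set.pi Set.univ (fun i => if i ∈ S then {true} else Set.univ) := by
    ext c
    simp only [Set.mem_ofPred_eq, Set.mem_pi, Set.mem_univ, true_implies]
    refine forall_congr' fun i => ?_
    by_cases hi : i ∈ S <;> simp [hi]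
  rw [h, Measure.pi_pi]
  have : ∀ i, coin p (if i ∈ S then {true} else Set.univ) = if i ∈ S then p else 1 := by
    intro i
    by_cases hi : i ∈ S
    · simp [hi, coin_true]
    · simp only [hi, if_false]; exact measure_univ
  simp only [this]
  rw [Finset.prod_ite_mem]
  simp

theorem prob_bound {p : ℝ≥0∞} (hp : p ≤ 1) (l : ℕ) (N : ℕ) (S : ℕ → Finset ι)
    (hS : ∀ m < N, ∀ n < m, Disjoint (S m) (S n)) (hcard : ∀ n < N, (S n).card ≤ l) :
    (Measure.pi fun _ : ι => coin p) {c | ∀ n < N, ∃ i ∈ S n, c i = false} ≤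
      (1 - p ^ l) ^ N := by
  classical
  have := coin_prob hp
  induction N with
  | zero => simp
  | succ N ih =>
    have ih' := ih (fun m hm n hn => hS m (by omega) n hn) (fun n hn => hcard n (by omega))
    set P := (Measure.pi fun _ : ι => coin p) with hP
    let U : Finset ι := (Finset.range N).biUnion S
    have hdisj : Disjoint U (S N) := by
      rw [Finset.disjoint_biUnion_left]
      intro n hn
      exact (hS N (by omega) n (by simpa using hn)).symm
    have hind : iIndepFun (fun (i : ι) (c : ι → Bool) => c i) P :=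
      iIndepFun_pi (X := fun _ => id) (fun _ => aemeasurable_id)
    have hind2 := hind.indepFun_finset U (S N) hdisj (fun i => measurable_pi_apply i)
    have hA : {c : ι → Bool | ∀ n < N, ∃ i ∈ S n, c i = false} =
        (fun (c : ι → Bool) (i : U) => c i) ⁻¹'
          {d | ∀ n < N, ∃ i : U, (i : ι) ∈ S n ∧ d i = false} := by
      ext c
      simp only [Set.mem_ofPred_eq, Set.mem_preimage]
      refine forall₂_congr fun n hn => ?_
      constructor
      · rintro ⟨i, hi, hc⟩
        exact ⟨⟨i, Finset.mem_biUnion.2 ⟨n, by simpa using hn, hi⟩⟩, hi, hc⟩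
      · rintro ⟨i, hi, hc⟩
        exact ⟨i, hi, hc⟩
    have hB : {c : ι → Bool | ∃ i ∈ S N, c i = false} =
        (fun (c : ι → Bool) (i : S N) => c i) ⁻¹' {d | ∃ i : S N, d i = false} := by
      ext c
      simp
    have hsplit : {c : ι → Bool | ∀ n < N + 1, ∃ i ∈ S n, c i = false} =
        {c : ι → Bool | ∀ n < N, ∃ i ∈ S n, c i = false} ∩
          {c : ι → Bool | ∃ i ∈ S N, c i = false} := by
      ext c
      simp only [Set.mem_ofPred_eq, Set.mem_inter_iff]
      constructor
      · intro h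
        exact ⟨fun n hn => h n (by omega), h N (by omega)⟩
      · rintro ⟨h1, h2⟩ n hn
        rcases Nat.lt_succ_iff_lt_or_eq.1 hn with h | rfl
        · exact h1 n h
        · exact h2
    rw [hsplit, hA, hB]
    rw [hind2.measure_inter_preimage_eq_mul _ _ (Set.toFinite _).measurableSet
      (Set.toFinite _).measurableSet]
    rw [← hA, ← hB, pow_succ]
    refine mul_le_mul' ih' ?_
    have hcompl : {c : ι → Bool | ∃ i ∈ S N, c i = false} =
        {c : ι → Bool | ∀ i ∈ S N, c i = true}ᶜ := by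
      ext c
      simp
    rw [hcompl, prob_compl_eq_one_sub (Set.toFinite _).measurableSet, hP, pi_all_true hp]
    refine tsub_le_tsub_left ?_ _
    exact pow_le_pow_of_le_one zero_le hp (hcard N (by omega))

end Prob

section Rand

variable {Γ X : Type} [Group Γ] [Countable Γ] [MeasurableSpace X] [StandardBorelSpace X]
  (μ : Measure X) [IsProbabilityMeasure μ] [MulAction Γ X] [MeasurableConstSMul Γ X]
  [SMulInvariantMeasure Γ X μ]

/-- For a free action and a finite set `F` of group elements, some finite partition separates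
the points `g • x`, `g ∈ F`, for all `x` outside a set of small measure. -/
theorem exists_separating (hfree : EssentiallyFree Γ X μ) (F : Finset Γ) {ε : ℝ≥0∞}
    (hε : 0 < ε) :
    ∃ (m : ℕ) (π : X → (Fin m → Bool)), Measurable π ∧
      μ {x | ∃ g ∈ F, ∃ h ∈ F, g ≠ h ∧ π (g • x) = π (h • x)} ≤ ε := by
  classical
  let f : X → ℕ → Bool := MeasurableSpace.mapNatBool X
  have hf : Measurable f := MeasurableSpace.measurable_mapNatBool X
  have hinj : Function.Injective f := MeasurableSpace.injective_mapNatBool X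
  let π : (m : ℕ) → X → (Fin m → Bool) := fun m x i => f x i
  have hπ : ∀ m, Measurable (π m) := fun m =>
    measurable_pi_iff.2 fun i => (measurable_pi_apply (i : ℕ)).comp hf
  let s : ℕ → Set X := fun m => {x | ∃ g ∈ F, ∃ h ∈ F, g ≠ h ∧ π m (g • x) = π m (h • x)}
  have hs : ∀ m, MeasurableSet (s m) := by
    intro m
    have : s m = ⋃ g ∈ F, ⋃ h ∈ F, ⋃ (_ : g ≠ h), {x | π m (g • x) = π m (h • x)} := by
      ext x
      simp only [s, Set.mem_ofPred_eq, Set.mem_iUnion, exists_prop]
    rw [this]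
    refine F.measurableSet_biUnion fun g _ => F.measurableSet_biUnion fun h _ =>
      MeasurableSet.iUnion fun _ => ?_
    exact measurableSet_eq_fun ((hπ m).comp (measurable_const_smul g))
      ((hπ m).comp (measurable_const_smul h))
  have hanti : Antitone s := by
    intro m n hmn x hx
    obtain ⟨g, hg, h, hh, hne, heq⟩ := hx
    refine ⟨g, hg, h, hh, hne, ?_⟩
    funext i
    exact congrFun heq ⟨i, lt_of_lt_of_le i.2 hmn⟩
  have hinter : (⋂ m, s m) ⊆ ⋃ g ∈ F, ⋃ h ∈ F, ⋃ (_ : g ≠ h), {x | g • x = h • x} := by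
    intro x hx
    by_contra hcon
    simp only [Set.mem_iUnion, not_exists, Set.mem_ofPred_eq] at hcon
    -- for each pair choose a separating coordinate
    have hsep : ∀ g h : Γ, ∃ k : ℕ, g ∈ F → h ∈ F → g ≠ h → f (g • x) k ≠ f (h • x) k := by
      intro g h
      by_cases hg : g ∈ F
      · by_cases hh : h ∈ F
        · by_cases hne : g ≠ h
          · have h1 : f (g • x) ≠ f (h • x) := fun e => hcon g hg h hh hne (hinj e)
            obtain ⟨k, hk⟩ := Function.ne_iff.1 h1
            exact ⟨k, fun _ _ _ => hk⟩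
          · exact ⟨0, fun _ _ h => absurd h hne⟩
        · exact ⟨0, fun _ h => absurd h hh⟩
      · exact ⟨0, fun h => absurd h hg⟩
    choose k hk using hsep
    let M := (F ×ˢ F).sup (fun q => k q.1 q.2)
    have hxM := Set.mem_iInter.1 hx (M + 1)
    obtain ⟨g, hg, h, hh, hne, heq⟩ := hxM
    have hle : k g h ≤ M :=
      Finset.le_sup (f := fun q : Γ × Γ => k q.1 q.2) (Finset.mk_mem_product hg hh)
    exact hk g h hg hh hne (congrFun heq ⟨k g h, by omega⟩)
  have hnull : μ (⋂ m, s m) = 0 := by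
    refine measure_mono_null hinter ?_
    refine (measure_biUnion_null_iff F.countable_toSet).2 fun g _ => ?_
    refine (measure_biUnion_null_iff F.countable_toSet).2 fun h _ => ?_
    refine measure_iUnion_null fun hne => ?_
    have h1 : h⁻¹ * g ≠ 1 := fun e => hne (inv_mul_eq_one.1 e).symm
    refine measure_mono_null ?_ (hfree _ h1)
    intro x hx
    simp only [Set.mem_ofPred_eq] at hx ⊢
    rw [mul_smul, hx, inv_smul_smul]
  have htend : Filter.Tendsto (μ ∘ s) Filter.atTop (nhds (μ (⋂ m, s m))) :=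
    tendsto_measure_iInter_atTop (fun m => (hs m).nullMeasurableSet) hanti
      ⟨0, measure_ne_top _ _⟩
  rw [hnull] at htend
  obtain ⟨m, hm⟩ := (htend.eventually (gt_mem_nhds hε)).exists
  exact ⟨m, π m, hπ m, hm.le⟩

/-- **Random small sets.** For a free action and pairwise disjoint finite sets `P n ⊆ Γ` of
bounded size, there is a measurable set of small measure containing, for all `x` outside a set
of small measure, one of the translates `P n • x`. -/
theorem exists_small_set (hfree : EssentiallyFree Γ X μ) (l : ℕ) (P : ℕ → Finset Γ)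
    (hP : Pairwise (fun m n => Disjoint (P m) (P n))) (hcard : ∀ n, (P n).card ≤ l)
    {ε : ℝ≥0∞} (hε : 0 < ε) :
    ∃ (N : ℕ) (E : Set X), MeasurableSet E ∧ μ E ≤ ε ∧
      μ {x | ∀ n < N, ∃ g ∈ P n, g • x ∉ E} ≤ ε := by
  classical
  -- the parameter p
  obtain ⟨p, hp0, hp1, hpε⟩ : ∃ p : ℝ≥0∞, 0 < p ∧ p ≤ 1 ∧ p ≤ ε / 3 :=
    ⟨min 1 (ε / 3), lt_min one_pos (ENNReal.div_pos hε.ne' (by simp)), min_le_left _ _,
      min_le_right _ _⟩
  have hε3 : 0 < ε / 3 := ENNReal.div_pos hε.ne' (by simp)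
  have hlt : 1 - p ^ l < 1 := by
    refine ENNReal.sub_lt_self ENNReal.one_ne_top one_ne_zero ?_
    exact (ENNReal.pow_pos hp0 l).ne'
  obtain ⟨N, hN⟩ : ∃ N : ℕ, (1 - p ^ l) ^ N < ε / 3 := by
    have := ENNReal.tendsto_pow_atTop_nhds_zero_of_lt_one hlt
    exact (this.eventually (gt_mem_nhds hε3)).exists
  let F : Finset Γ := (Finset.range N).biUnion P
  obtain ⟨m, π, hπ, hsep⟩ := exists_separating μ hfree F hε3
  have := coin_prob hp1
  set Q := (Measure.pi fun _ : (Fin m → Bool) => coin p) with hQ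
  -- the two joint sets
  let W1 : Set ((((Fin m → Bool)) → Bool) × X) := {q | q.1 (π q.2) = true}
  let W2 : Set ((((Fin m → Bool)) → Bool) × X) :=
    {q | ∀ n < N, ∃ g ∈ P n, q.1 (π (g • q.2)) = false}
  have heval : ∀ g : Γ, Measurable (fun q : (((Fin m → Bool)) → Bool) × X =>
      q.1 (π (g • q.2))) := by
    intro g
    have h1 : Measurable (fun q : (((Fin m → Bool)) → Bool) × (Fin m → Bool) => q.1 q.2) :=
      measurable_of_countable _
    exact h1.comp (measurable_fst.prodMk ((hπ.comp (measurable_const_smul g)).comp measurable_snd))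
  have hW1 : MeasurableSet W1 := by
    have := heval 1
    simp only [one_smul] at this
    exact this (measurableSet_singleton true)
  have hW2 : MeasurableSet W2 := by
    have : W2 = ⋂ n, ⋂ (_ : n < N), ⋃ g ∈ P n, {q | q.1 (π (g • q.2)) = false} := by
      ext q
      simp [W2]
    rw [this]
    refine MeasurableSet.iInter fun n => MeasurableSet.iInter fun _ =>
      (P n).measurableSet_biUnion fun g _ => ?_
    exact heval g (measurableSet_singleton false)
  have hI1 : ∫⁻ c, μ (Prod.mk c ⁻¹' W1) ∂Q = p := by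
    rw [← Measure.prod_apply hW1, Measure.prod_apply_symm hW1]
    have : ∀ x, Q ((fun c => (c, x)) ⁻¹' W1) = p := by
      intro x
      have h := pi_all_true hp1 ({π x} : Finset (Fin m → Bool))
      simpa [W1] using h
    simp [this]
  have hI2 : ∫⁻ c, μ (Prod.mk c ⁻¹' W2) ∂Q ≤ (1 - p ^ l) ^ N + ε / 3 := by
    rw [← Measure.prod_apply hW2, Measure.prod_apply_symm hW2]
    set Bd := {x | ∃ g ∈ F, ∃ h ∈ F, g ≠ h ∧ π (g • x) = π (h • x)} with hBd
    have hpt : ∀ x, Q ((fun c => (c, x)) ⁻¹' W2) ≤ (1 - p ^ l) ^ N + Bd.indicator 1 x := by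
      intro x
      by_cases hx : x ∈ Bd
      · simp only [Set.indicator_of_mem hx, Pi.one_apply]
        exact le_add_left prob_le_one
      · simp only [Set.indicator_of_notMem hx, add_zero]
        have hinj : ∀ g ∈ F, ∀ h ∈ F, π (g • x) = π (h • x) → g = h := by
          intro g hg h hh heq
          by_contra hne
          exact hx ⟨g, hg, h, hh, hne, heq⟩
        have hF : ∀ n < N, ∀ g ∈ P n, g ∈ F := fun n hn g hg =>
          Finset.mem_biUnion.2 ⟨n, by simpa using hn, hg⟩
        have h := prob_bound hp1 l N (fun n => (P n).image fun g => π (g • x))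
          (by
            intro a ha b hb
            rw [Finset.disjoint_left]
            intro i hi hi'
            obtain ⟨g, hg, rfl⟩ := Finset.mem_image.1 hi
            obtain ⟨h, hh, heq⟩ := Finset.mem_image.1 hi'
            have : h = g := hinj h (hF b (by omega) h hh) g (hF a ha g hg) heq
            subst this
            exact Finset.disjoint_left.1 (hP (by omega : a ≠ b)) hg hh)
          (fun n _ => Finset.card_image_le.trans (hcard n))
        simpa [W2] using h
    calc ∫⁻ x, Q ((fun c => (c, x)) ⁻¹' W2) ∂μ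
        ≤ ∫⁻ x, ((1 - p ^ l) ^ N + Bd.indicator 1 x) ∂μ := lintegral_mono hpt
      _ = (1 - p ^ l) ^ N + ∫⁻ x, Bd.indicator 1 x ∂μ := by
        rw [lintegral_add_left measurable_const]
        simp
      _ ≤ (1 - p ^ l) ^ N + μ Bd := by
        gcongr
        exact lintegral_indicator_one_le Bd
      _ ≤ _ := by gcongr
  have hsum : ∫⁻ c, (μ (Prod.mk c ⁻¹' W1) + μ (Prod.mk c ⁻¹' W2)) ∂Q ≤ ε := by
    rw [lintegral_add_left (measurable_measure_prodMk_left hW1), hI1]
    calc p + ∫⁻ c, μ (Prod.mk c ⁻¹' W2) ∂Q ≤ ε / 3 + (ε / 3 + ε / 3) :=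
          add_le_add hpε (hI2.trans (add_le_add hN.le le_rfl))
      _ = ε := by rw [← add_assoc]; exact ENNReal.add_thirds ε
  obtain ⟨c, hc⟩ := exists_le_lintegral (μ := Q)
    (f := fun c => μ (Prod.mk c ⁻¹' W1) + μ (Prod.mk c ⁻¹' W2))
    ((measurable_measure_prodMk_left hW1).add
      (measurable_measure_prodMk_left hW2)).aemeasurable
  have hc' := hc.trans hsum
  refine ⟨N, {x | c (π x) = true}, ?_, ?_, ?_⟩
  · exact (measurable_of_countable c).comp hπ (measurableSet_singleton true)
  · exact (le_add_right le_rfl).trans hc'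
  · refine le_trans (measure_mono ?_) ((le_add_left le_rfl).trans hc')
    intro x hx n hn
    obtain ⟨g, hg, hgx⟩ := hx n hn
    refine ⟨g, hg, ?_⟩
    simpa using hgx

end Rand

end Vale.Agent.P189
end
end

section

section

set_option autoImplicit false

open MeasureTheory
open scoped ENNReal Pointwise

namespace Vale.Agent.P189

section Section

variable {Γ X : Type} [Group Γ] [Countable Γ] [MeasurableSpace X] [StandardBorelSpace X]
  (μ : Measure X) [IsProbabilityMeasure μ] [MulAction Γ X] [MeasurableConstSMul Γ X]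
  [SMulInvariantMeasure Γ X μ]

/-- A free action of an infinite group has complete sections of arbitrarily small measure. -/
theorem exists_small_section [Infinite Γ] (hfree : EssentiallyFree Γ X μ)
    {ε : ℝ≥0∞} (hε : 0 < ε) :
    ∃ E : Set X, MeasurableSet E ∧ μ E ≤ ε ∧ ∀ x, ∃ g : Γ, g • x ∈ E := by
  classical
  let e := Infinite.natEmbedding Γ
  obtain ⟨N, E, hE, hμE, hB⟩ := exists_small_set μ hfree 1 (fun n => {e n})
    (by
      intro m n hmn
      simpa using fun h => hmn h)
    (by intro n; simp) (ε := ε / 2) (ENNReal.half_pos hε.ne')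
  let B : Set X := {x | ∀ n < N, ∃ g ∈ ({e n} : Finset Γ), g • x ∉ E}
  have hBm : MeasurableSet B := by
    have : B = ⋂ n, ⋂ (_ : n < N), ((e n • ·) ⁻¹' E)ᶜ := by
      ext x
      simp [B]
    rw [this]
    exact MeasurableSet.iInter fun n => MeasurableSet.iInter fun _ =>
      (measurable_const_smul (e n) hE).compl
  refine ⟨E ∪ B, hE.union hBm, ?_, ?_⟩
  · calc μ (E ∪ B) ≤ μ E + μ B := measure_union_le _ _
      _ ≤ ε / 2 + ε / 2 := add_le_add hμE hB
      _ = ε := ENNReal.add_halves ε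
  · intro x
    by_cases hx : x ∈ B
    · exact ⟨1, by simpa using Or.inr hx⟩
    · simp only [B, Set.mem_ofPred_eq, not_forall, not_exists, not_and, not_not] at hx
      obtain ⟨n, hn, hx⟩ := hx
      exact ⟨e n, Or.inl (hx (e n) (by simp))⟩

end Section

section Levels

variable {Γ X : Type} [Group Γ] [MulAction Γ X]

/-- Points at distance at most `n` from `E` in the labelled graph `D`. -/
def lev (D : Γ → Set X) (E : Set X) : ℕ → Set X
  | 0 => E
  | n + 1 => lev D E n ∪ ⋃ g : Γ, ({x | x ∈ D g ∧ g • x ∈ lev D E n} ∪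
      {x | g⁻¹ • x ∈ D g ∧ g⁻¹ • x ∈ lev D E n})

theorem lev_subset_succ (D : Γ → Set X) (E : Set X) (n : ℕ) : lev D E n ⊆ lev D E (n + 1) :=
  fun _ hx => Or.inl hx

theorem lev_mono (D : Γ → Set X) (E : Set X) : Monotone (lev D E) :=
  monotone_nat_of_le_succ (lev_subset_succ D E)

theorem mem_lev_of_conn {D : Γ → Set X} {E : Set X} {x y : X} (h : Conn D x y) :
    (∃ n, x ∈ lev D E n) ↔ ∃ n, y ∈ lev D E n := by
  induction h with
  | rel a b h =>
    obtain ⟨g, ha, rfl⟩ := h
    constructor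
    · rintro ⟨n, hn⟩
      refine ⟨n + 1, Or.inr (Set.mem_iUnion.2 ⟨g, Or.inr ?_⟩)⟩
      simpa using ⟨ha, hn⟩
    · rintro ⟨n, hn⟩
      exact ⟨n + 1, Or.inr (Set.mem_iUnion.2 ⟨g, Or.inl ⟨ha, hn⟩⟩)⟩
  | refl a => exact Iff.rfl
  | symm a b _ ih => exact ih.symm
  | trans a b c _ _ ih1 ih2 => exact ih1.trans ih2

theorem measurableSet_lev [Countable Γ] [MeasurableSpace X] [MeasurableConstSMul Γ X]
    {D : Γ → Set X} (hD : ∀ g, MeasurableSet (D g)) {E : Set X} (hE : MeasurableSet E) (n : ℕ) :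
    MeasurableSet (lev D E n) := by
  induction n with
  | zero => exact hE
  | succ n ih =>
    refine ih.union (MeasurableSet.iUnion fun g => ?_)
    exact ((hD g).inter (measurable_const_smul g ih)).union
      ((measurable_const_smul g⁻¹ (hD g)).inter (measurable_const_smul g⁻¹ ih))

end Levels

section LowerBound

variable {Γ X : Type} [Group Γ] [Countable Γ] [MeasurableSpace X]
  (μ : Measure X) [IsProbabilityMeasure μ] [MulAction Γ X] [MeasurableConstSMul Γ X]
  [SMulInvariantMeasure Γ X μ]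

theorem measure_compl_le_dcost (D : Γ → Set X) (hD : ∀ g, MeasurableSet (D g))
    (hgen : Gen μ D) (E : Set X) (hE : MeasurableSet E) (hEc : ∀ᵐ x ∂μ, ∃ g : Γ, g • x ∈ E) :
    μ Eᶜ ≤ dcost μ D := by
  let L := lev D E
  have hL : ∀ n, MeasurableSet (L n) := measurableSet_lev hD hE
  let Pp : Γ → Set X := fun g => {x | x ∈ D g ∧ ∃ n, g • x ∈ L n ∧ x ∉ L n}
  let Pm : Γ → Set X := fun g => {x | x ∈ D g ∧ ∃ n, x ∈ L n ∧ g • x ∉ L n}
  have hPp : ∀ g, MeasurableSet (Pp g) := by
    intro g
    have : Pp g = D g ∩ ⋃ n, ((g • ·) ⁻¹' (L n)) ∩ (L n)ᶜ := by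
      ext x; simp [Pp]
    rw [this]
    exact (hD g).inter (MeasurableSet.iUnion fun n =>
      (measurable_const_smul g (hL n)).inter (hL n).compl)
  have hPm : ∀ g, MeasurableSet (Pm g) := by
    intro g
    have : Pm g = D g ∩ ⋃ n, (L n) ∩ ((g • ·) ⁻¹' (L n))ᶜ := by
      ext x; simp [Pm]
    rw [this]
    exact (hD g).inter (MeasurableSet.iUnion fun n =>
      (hL n).inter (measurable_const_smul g (hL n)).compl)
  have hdisj : ∀ g, Disjoint (Pp g) (Pm g) := by
    intro g
    refine Set.disjoint_left.2 ?_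
    rintro x ⟨_, n, h1, h2⟩ ⟨_, m, h3, h4⟩
    rcases le_total n m with h | h
    · exact h4 (lev_mono D E h h1)
    · exact h2 (lev_mono D E h h3)
  have hsub : ∀ g, Pp g ∪ Pm g ⊆ D g := by
    rintro g x (h | h)
    · exact h.1
    · exact h.1
  have hcover : ∀ᵐ x ∂μ, x ∈ Eᶜ → x ∈ ⋃ g, (Pp g ∪ g • Pm g) := by
    filter_upwards [hgen, hEc] with x hx hxE hxc
    obtain ⟨g, hg⟩ := hxE
    have h1 : ∃ n, x ∈ L n := (mem_lev_of_conn (hx g)).2 ⟨0, hg⟩
    classical
    have h2 := Nat.find_spec h1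
    have h3 := fun m hm => Nat.find_min h1 (m := m) hm
    rcases hn : Nat.find h1 with _ | n
    · rw [hn] at h2
      exact absurd h2 hxc
    · rw [hn] at h2 h3
      have h4 := h3 n (Nat.lt_succ_self n)
      rcases h2 with h2 | h2
      · exact absurd h2 h4
      · obtain ⟨g, h2 | h2⟩ := Set.mem_iUnion.1 h2
        · exact Set.mem_iUnion.2 ⟨g, Or.inl ⟨h2.1, n, h2.2, h4⟩⟩
        · refine Set.mem_iUnion.2 ⟨g, Or.inr ?_⟩
          rw [Set.mem_smul_set_iff_inv_smul_mem]
          exact ⟨h2.1, n, h2.2, by simpa using h4⟩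
  calc μ Eᶜ ≤ μ (⋃ g, (Pp g ∪ g • Pm g)) := measure_mono_ae hcover
    _ ≤ ∑' g, μ (Pp g ∪ g • Pm g) := measure_iUnion_le _
    _ ≤ ∑' g, (μ (Pp g) + μ (g • Pm g)) := ENNReal.tsum_le_tsum fun g => measure_union_le _ _
    _ = ∑' g, μ (Pp g ∪ Pm g) := by
      refine tsum_congr fun g => ?_
      rw [measure_smul, measure_union (hdisj g) (hPm g)]
    _ ≤ ∑' g, μ (D g) := ENNReal.tsum_le_tsum fun g => measure_mono (hsub g)

theorem one_le_dcost [StandardBorelSpace X] [Infinite Γ] (hfree : EssentiallyFree Γ X μ)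
    (D : Γ → Set X) (hD : ∀ g, MeasurableSet (D g)) (hgen : Gen μ D) : 1 ≤ dcost μ D := by
  refine ENNReal.le_of_forall_pos_le_add fun ε hε _ => ?_
  obtain ⟨E, hE, hμE, hEc⟩ := exists_small_section μ hfree (ε := (ε : ℝ≥0∞)) (by simpa using hε)
  have h := measure_compl_le_dcost μ D hD hgen E hE (Filter.Eventually.of_forall hEc)
  calc (1 : ℝ≥0∞) = μ (Eᶜ ∪ E) := by simp
    _ ≤ μ Eᶜ + μ E := measure_union_le _ _
    _ ≤ dcost μ D + ε := add_le_add h hμE

/-- Levitt: an essentially free p.m.p. action of an infinite countable group has cost at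
least one. -/
theorem one_le_actionCost [StandardBorelSpace X] [Infinite Γ] (hfree : EssentiallyFree Γ X μ) :
    1 ≤ actionCost Γ X μ :=
  le_actionCost_of_forall μ fun D hD hgen => one_le_dcost μ hfree D hD hgen

end LowerBound

end Vale.Agent.P189
end
end

section

section

set_option autoImplicit false

open MeasureTheory
open scoped ENNReal Pointwise

namespace Vale.Agent.P189

/-- Moves on `X × I`: the point `(x, i)` stands for the orbit of `x` under `A i`. Points of `E`
are open: they connect all types at `x`, and (for the base type) `x` to `t • x`, `t ∈ T`. -/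
inductive PStep {Γ X I : Type} [Group Γ] [MulAction Γ X] (A : I → Subgroup Γ) (T : Finset Γ)
    (i0 : I) (E : Set X) : X × I → X × I → Prop
  | move (x : X) (i : I) (a : Γ) : a ∈ A i → PStep A T i0 E (x, i) (a • x, i)
  | opened (x : X) (i j : I) : x ∈ E → PStep A T i0 E (x, i) (x, j)
  | edge (x : X) (t : Γ) : x ∈ E → t ∈ T → PStep A T i0 E (x, i0) (t • x, i0)

/-- Connectivity for the moves. -/
def PConn {Γ X I : Type} [Group Γ] [MulAction Γ X] (A : I → Subgroup Γ) (T : Finset Γ)
    (i0 : I) (E : Set X) : X × I → X × I → Prop :=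
  Relation.EqvGen (PStep A T i0 E)

theorem PConn.mono {Γ X I : Type} [Group Γ] [MulAction Γ X] {A : I → Subgroup Γ}
    {T : Finset Γ} {i0 : I} {E E' : Set X} (h : E ⊆ E') {u v : X × I}
    (huv : PConn A T i0 E u v) : PConn A T i0 E' u v := by
  refine Relation.EqvGen.mono ?_ _ _ huv
  intro a b hab
  cases hab with
  | move x i a ha => exact PStep.move x i a ha
  | opened x i j hx => exact PStep.opened x i j (h hx)
  | edge x t hx ht => exact PStep.edge x t (h hx) ht

/-- Zero relative cost connections. -/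
def KRel {Γ X I : Type} [Group Γ] [MulAction Γ X] [MeasurableSpace X] (μ : Measure X)
    (A : I → Subgroup Γ) (T : Finset Γ) (i0 : I) (i : I) (s : Γ) (j : I) : Prop :=
  ∀ ε : ℝ≥0∞, 0 < ε → ∃ E B : Set X, MeasurableSet E ∧ MeasurableSet B ∧ μ E ≤ ε ∧ μ B ≤ ε ∧
    ∀ x ∉ B, PConn A T i0 E (x, i) (s • x, j)

section K

variable {Γ X I : Type} [Group Γ] [Countable Γ] [MeasurableSpace X]
  (μ : Measure X) [IsProbabilityMeasure μ] [MulAction Γ X] [MeasurableConstSMul Γ X]
  [SMulInvariantMeasure Γ X μ] (A : I → Subgroup Γ) (T : Finset Γ) (i0 : I)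

theorem KRel.of_mem {i : I} {a : Γ} (ha : a ∈ A i) : KRel (X := X) μ A T i0 i a i := by
  intro ε hε
  exact ⟨∅, ∅, MeasurableSet.empty, MeasurableSet.empty, by simp, by simp, fun x _ =>
    Relation.EqvGen.rel _ _ (PStep.move x i a ha)⟩

theorem KRel.comp {i j k : I} {s s' : Γ} (h1 : KRel (X := X) μ A T i0 i s j)
    (h2 : KRel (X := X) μ A T i0 j s' k) : KRel (X := X) μ A T i0 i (s' * s) k := by
  intro ε hε
  obtain ⟨E1, B1, hE1, hB1, hμE1, hμB1, h1⟩ := h1 (ε / 2) (ENNReal.half_pos hε.ne')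
  obtain ⟨E2, B2, hE2, hB2, hμE2, hμB2, h2⟩ := h2 (ε / 2) (ENNReal.half_pos hε.ne')
  refine ⟨E1 ∪ E2, B1 ∪ (s • ·) ⁻¹' B2, hE1.union hE2,
    hB1.union (measurable_const_smul s hB2), ?_, ?_, ?_⟩
  · calc μ (E1 ∪ E2) ≤ μ E1 + μ E2 := measure_union_le _ _
      _ ≤ ε / 2 + ε / 2 := add_le_add hμE1 hμE2
      _ = ε := ENNReal.add_halves ε
  · calc μ (B1 ∪ (s • ·) ⁻¹' B2) ≤ μ B1 + μ ((s • ·) ⁻¹' B2) := measure_union_le _ _
      _ = μ B1 + μ B2 := by rw [measure_preimage_smul]
      _ ≤ ε / 2 + ε / 2 := add_le_add hμB1 hμB2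
      _ = ε := ENNReal.add_halves ε
  · intro x hx
    have hx1 : x ∉ B1 := fun h => hx (Or.inl h)
    have hx2 : s • x ∉ B2 := fun h => hx (Or.inr h)
    have e1 := (h1 x hx1).mono (E' := E1 ∪ E2) Set.subset_union_left
    have e2 := (h2 (s • x) hx2).mono (E' := E1 ∪ E2) Set.subset_union_right
    rw [mul_smul]
    exact Relation.EqvGen.trans _ _ _ e1 e2

theorem KRel.inv {i j : I} {s : Γ} (h1 : KRel (X := X) μ A T i0 i s j) :
    KRel (X := X) μ A T i0 j s⁻¹ i := by
  intro ε hε
  obtain ⟨E1, B1, hE1, hB1, hμE1, hμB1, h1⟩ := h1 ε hε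
  refine ⟨E1, (s⁻¹ • ·) ⁻¹' B1, hE1, measurable_const_smul s⁻¹ hB1, hμE1, ?_, ?_⟩
  · rw [measure_preimage_smul]; exact hμB1
  · intro x hx
    have := h1 (s⁻¹ • x) hx
    rw [smul_inv_smul] at this
    exact Relation.EqvGen.symm _ _ this

theorem link_approx (P : Set Γ) {u v : Γ × I}
    (h : Relation.EqvGen (LinkStep (KRel (X := X) μ A T i0) T i0 P) u v) :
    ∀ ε : ℝ≥0∞, 0 < ε → ∃ E' B' : Set X, MeasurableSet E' ∧ MeasurableSet B' ∧ μ E' ≤ ε ∧
      μ B' ≤ ε ∧ ∀ x ∉ B', ∀ E : Set X, E' ⊆ E → (∀ p ∈ P, p • x ∈ E) →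
        PConn A T i0 E (u.1 • x, u.2) (v.1 • x, v.2) := by
  induction h with
  | rel a b hab =>
    intro ε hε
    cases hab with
    | link g h i j hK =>
      obtain ⟨E, B, hE, hB, hμE, hμB, hx⟩ := hK ε hε
      refine ⟨E, (g • ·) ⁻¹' B, hE, measurable_const_smul g hB, hμE, ?_, ?_⟩
      · rw [measure_preimage_smul]; exact hμB
      · intro x hxB E' hE' _
        have := (hx (g • x) hxB).mono hE'
        rwa [mul_smul, inv_smul_smul] at this
    | opened g i j hg =>
      refine ⟨∅, ∅, MeasurableSet.empty, MeasurableSet.empty, by simp, by simp, ?_⟩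
      intro x _ E _ hP
      exact Relation.EqvGen.rel _ _ (PStep.opened _ _ _ (hP g hg))
    | edge g t hg ht =>
      refine ⟨∅, ∅, MeasurableSet.empty, MeasurableSet.empty, by simp, by simp, ?_⟩
      intro x _ E _ hP
      have h := Relation.EqvGen.rel _ _ (PStep.edge (A := A) (i0 := i0) (g • x) t (hP g hg) ht)
      rw [← mul_smul] at h
      exact h
  | refl a =>
    intro ε hε
    refine ⟨∅, ∅, MeasurableSet.empty, MeasurableSet.empty, by simp, by simp, ?_⟩
    intro x _ E _ hP
    exact Relation.EqvGen.refl _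
  | symm a b _ ih =>
    intro ε hε
    obtain ⟨E, B, hE, hB, hμE, hμB, hx⟩ := ih ε hε
    exact ⟨E, B, hE, hB, hμE, hμB, fun x hxB E' hE' hP =>
      Relation.EqvGen.symm _ _ (hx x hxB E' hE' hP)⟩
  | trans a b c _ _ ih1 ih2 =>
    intro ε hε
    obtain ⟨E1, B1, hE1, hB1, hμE1, hμB1, h1⟩ := ih1 (ε / 2) (ENNReal.half_pos hε.ne')
    obtain ⟨E2, B2, hE2, hB2, hμE2, hμB2, h2⟩ := ih2 (ε / 2) (ENNReal.half_pos hε.ne')
    refine ⟨E1 ∪ E2, B1 ∪ B2, hE1.union hE2, hB1.union hB2, ?_, ?_, ?_⟩
    · calc μ (E1 ∪ E2) ≤ μ E1 + μ E2 := measure_union_le _ _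
        _ ≤ ε / 2 + ε / 2 := add_le_add hμE1 hμE2
        _ = ε := ENNReal.add_halves ε
    · calc μ (B1 ∪ B2) ≤ μ B1 + μ B2 := measure_union_le _ _
        _ ≤ ε / 2 + ε / 2 := add_le_add hμB1 hμB2
        _ = ε := ENNReal.add_halves ε
    · intro x hxB E hE hP
      have hx1 : x ∉ B1 := fun h => hxB (Or.inl h)
      have hx2 : x ∉ B2 := fun h => hxB (Or.inr h)
      exact Relation.EqvGen.trans _ _ _
        (h1 x hx1 E (Set.subset_union_left.trans hE) hP)
        (h2 x hx2 E (Set.subset_union_right.trans hE) hP)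

theorem KRel.closure [StandardBorelSpace X] (hfree : EssentiallyFree Γ X μ) (i j : I) (s : Γ)
    (l : ℕ) (P : ℕ → Finset Γ)
    (hP : Pairwise (fun m n => Disjoint (P m) (P n))) (hcard : ∀ n, (P n).card ≤ l)
    (hlink : ∀ n, Relation.EqvGen (LinkStep (KRel (X := X) μ A T i0) T i0 (P n : Set Γ))
      (1, i) (s, j)) :
    KRel (X := X) μ A T i0 i s j := by
  classical
  intro ε hε
  have hε2 : 0 < ε / 2 := ENNReal.half_pos hε.ne'
  obtain ⟨N, E0, hE0, hμE0, hbad⟩ := exists_small_set μ hfree l P hP hcard hε2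
  have hδ : 0 < ε / 2 / (N + 1) :=
    ENNReal.div_pos hε2.ne' (by simp)
  choose E' B' hE' hB' hμE' hμB' hx using fun n => link_approx μ A T i0 (P n : Set Γ)
    (hlink n) (ε / 2 / (N + 1)) hδ
  let Bad : Set X := {x | ∀ n < N, ∃ g ∈ P n, g • x ∉ E0}
  have hBad : MeasurableSet Bad := by
    have : Bad = ⋂ n, ⋂ (_ : n < N), ⋃ g ∈ P n, ((g • ·) ⁻¹' E0)ᶜ := by
      ext x
      simp [Bad]
    rw [this]
    exact MeasurableSet.iInter fun n => MeasurableSet.iInter fun _ =>
      (P n).measurableSet_biUnion fun g _ => (measurable_const_smul g hE0).compl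
  have hsum : ∀ S : ℕ → Set X, (∀ n, μ (S n) ≤ ε / 2 / (N + 1)) →
      μ (⋃ n ∈ Finset.range N, S n) ≤ ε / 2 := by
    intro S hS
    calc μ (⋃ n ∈ Finset.range N, S n) ≤ ∑ n ∈ Finset.range N, μ (S n) :=
          measure_biUnion_finset_le _ _
      _ ≤ ∑ n ∈ Finset.range N, ε / 2 / (N + 1) := Finset.sum_le_sum fun n _ => hS n
      _ = N * (ε / 2 / (N + 1)) := by simp
      _ ≤ (N + 1) * (ε / 2 / (N + 1)) := by gcongr; exact le_self_add
      _ ≤ ε / 2 := ENNReal.mul_div_le
  refine ⟨E0 ∪ ⋃ n ∈ Finset.range N, E' n, Bad ∪ ⋃ n ∈ Finset.range N, B' n,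
    hE0.union ((Finset.range N).measurableSet_biUnion fun n _ => hE' n),
    hBad.union ((Finset.range N).measurableSet_biUnion fun n _ => hB' n), ?_, ?_, ?_⟩
  · calc _ ≤ μ E0 + μ (⋃ n ∈ Finset.range N, E' n) := measure_union_le _ _
      _ ≤ ε / 2 + ε / 2 := add_le_add hμE0 (hsum _ hμE')
      _ = ε := ENNReal.add_halves ε
  · calc _ ≤ μ Bad + μ (⋃ n ∈ Finset.range N, B' n) := measure_union_le _ _
      _ ≤ ε / 2 + ε / 2 := add_le_add hbad (hsum _ hμB')
      _ = ε := ENNReal.add_halves ε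
  · intro x hxB
    have hx1 : x ∉ Bad := fun h => hxB (Or.inl h)
    have hx2 : ∀ n < N, x ∉ B' n := fun n hn h =>
      hxB (Or.inr (Set.mem_biUnion (by simpa using hn) h))
    simp only [Bad, Set.mem_ofPred_eq, not_forall, not_exists, not_and, not_not] at hx1
    obtain ⟨n, hn, hg⟩ := hx1
    have := hx n x (hx2 n hn) (E0 ∪ ⋃ n ∈ Finset.range N, E' n)
      (fun y hy => Or.inr (Set.mem_biUnion (by simpa using hn) hy))
      (fun p hp => Or.inl (hg p hp))
    simpa using this

end K

end Vale.Agent.P189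
end
end

section

section

set_option autoImplicit false

open MeasureTheory
open scoped ENNReal

namespace Vale.Agent.P189

namespace CompressAux

variable {Γ X : Type} [Group Γ] [MulAction Γ X]

/-- Points at distance at most `n` from `E`. -/
def lvl (D : Γ → Set X) (E : Set X) : ℕ → Set X
  | 0 => E
  | n + 1 => lvl D E n ∪ ⋃ h : Γ, ((fun x => h • x) ⁻¹' lvl D E n) ∩
      (D h ∪ (fun x => h • x) ⁻¹' D h⁻¹)

/-- Points at finite distance from `E`. -/
def good (D : Γ → Set X) (E : Set X) : Set X := ⋃ n, lvl D E n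

/-- The edge `q` leads from `x` closer to `E`. -/
def cand (D : Γ → Set X) (E : Set X) (q : Γ × Bool) : Set X :=
  ⋃ n, ((lvl D E n)ᶜ ∩ (q.1 • ·) ⁻¹' lvl D E n) ∩
    (if q.2 then D q.1 else (q.1 • ·) ⁻¹' D q.1⁻¹)

/-- The edge `q` is the chosen one at `x`. -/
def sel (D : Γ → Set X) (E : Set X) (c : ℕ → Γ × Bool) (q : Γ × Bool) : Set X :=
  ⋃ k, {_x | c k = q} ∩ (cand D E (c k) ∩ ⋂ j, ⋂ (_ : j < k), (cand D E (c j))ᶜ)

variable {D : Γ → Set X} {E : Set X} {c : ℕ → Γ × Bool}

theorem lvl_mono {m n : ℕ} (h : m ≤ n) : lvl D E m ⊆ lvl D E n := by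
  induction h with
  | refl => exact subset_rfl
  | step _ ih => exact ih.trans (fun _ hx => Or.inl hx)

theorem subset_good : E ⊆ good D E := fun _ hx => Set.mem_iUnion.2 ⟨0, hx⟩

theorem mem_lvl_succ {n : ℕ} {x : X} {h : Γ} (h1 : h • x ∈ lvl D E n)
    (h2 : x ∈ D h ∨ h • x ∈ D h⁻¹) : x ∈ lvl D E (n + 1) := by
  refine Or.inr (Set.mem_iUnion.2 ⟨h, h1, ?_⟩)
  rcases h2 with h2 | h2
  · exact Or.inl h2
  · exact Or.inr h2

theorem mem_cand {q : Γ × Bool} {x : X} : x ∈ cand D E q ↔ ∃ n, x ∉ lvl D E n ∧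
    q.1 • x ∈ lvl D E n ∧ ((q.2 = true ∧ x ∈ D q.1) ∨ (q.2 = false ∧ q.1 • x ∈ D q.1⁻¹)) := by
  unfold cand
  simp only [Set.mem_iUnion]
  constructor
  · rintro ⟨n, ⟨h1, h2⟩, h3⟩
    refine ⟨n, h1, h2, ?_⟩
    cases hq : q.2
    · right
      rw [hq] at h3
      exact ⟨rfl, by simpa using h3⟩
    · left
      rw [hq] at h3
      exact ⟨rfl, by simpa using h3⟩
  · rintro ⟨n, h1, h2, h3⟩
    refine ⟨n, ⟨h1, h2⟩, ?_⟩
    rcases h3 with ⟨hq, h3⟩ | ⟨hq, h3⟩
    · rw [hq]; simpa using h3
    · rw [hq]; simpa using h3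

theorem mem_sel {q : Γ × Bool} {x : X} : x ∈ sel D E c q ↔ ∃ k, c k = q ∧
    x ∈ cand D E (c k) ∧ ∀ j < k, x ∉ cand D E (c j) := by
  unfold sel
  simp only [Set.mem_iUnion, Set.mem_inter_iff, Set.mem_ofPred_eq, Set.mem_iInter,
    Set.mem_compl_iff]

theorem sel_subset_cand {q : Γ × Bool} : sel D E c q ⊆ cand D E q := by
  intro x hx
  obtain ⟨k, rfl, h, -⟩ := mem_sel.1 hx
  exact h

theorem sel_unique {q q' : Γ × Bool} {x : X} (h : x ∈ sel D E c q) (h' : x ∈ sel D E c q') :
    q = q' := by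
  obtain ⟨k, rfl, h1, h2⟩ := mem_sel.1 h
  obtain ⟨k', rfl, h1', h2'⟩ := mem_sel.1 h'
  rcases lt_trichotomy k k' with hlt | heq | hlt
  · exact absurd h1 (h2' k hlt)
  · rw [heq]
  · exact absurd h1' (h2 k' hlt)

theorem cand_subset {q : Γ × Bool} : cand D E q ⊆ good D E \ E := by
  intro x hx
  obtain ⟨n, h1, h2, h3⟩ := mem_cand.1 hx
  refine ⟨Set.mem_iUnion.2 ⟨n + 1, mem_lvl_succ (h := q.1) h2 ?_⟩, fun hE => h1 ?_⟩
  · tauto
  · exact lvl_mono (Nat.zero_le n) hE

theorem exists_cand {x : X} (hx : x ∈ good D E) (hxE : x ∉ E) : ∃ q, x ∈ cand D E q := by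
  classical
  have hex : ∃ n, x ∈ lvl D E n := Set.mem_iUnion.1 hx
  obtain ⟨n, h1, h2⟩ : ∃ n, x ∈ lvl D E n ∧ ∀ m < n, x ∉ lvl D E m :=
    ⟨Nat.find hex, Nat.find_spec hex, fun m hm => Nat.find_min hex hm⟩
  cases n with
  | zero => exact absurd h1 hxE
  | succ n =>
    rcases h1 with h1 | h1
    · exact absurd h1 (h2 n (Nat.lt_succ_self n))
    · obtain ⟨h, h3, h4⟩ := Set.mem_iUnion.1 h1
      rcases h4 with h4 | h4
      · exact ⟨(h, true), mem_cand.2 ⟨n, h2 n (Nat.lt_succ_self n), h3, Or.inl ⟨rfl, h4⟩⟩⟩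
      · exact ⟨(h, false), mem_cand.2 ⟨n, h2 n (Nat.lt_succ_self n), h3, Or.inr ⟨rfl, h4⟩⟩⟩

theorem exists_sel (hc : Function.Surjective c) {x : X} (hx : x ∈ good D E) (hxE : x ∉ E) :
    ∃ q, x ∈ sel D E c q := by
  classical
  obtain ⟨q, hq⟩ := exists_cand hx hxE
  obtain ⟨k, rfl⟩ := hc q
  have hex : ∃ k, x ∈ cand D E (c k) := ⟨k, hq⟩
  exact ⟨c (Nat.find hex), mem_sel.2 ⟨Nat.find hex, rfl, Nat.find_spec hex,
    fun j hj => Nat.find_min hex hj⟩⟩

theorem iUnion_sel (hc : Function.Surjective c) : ⋃ q, sel D E c q = good D E \ E := by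
  ext x
  constructor
  · intro hx
    obtain ⟨q, hq⟩ := Set.mem_iUnion.1 hx
    exact cand_subset (sel_subset_cand hq)
  · intro hx
    exact Set.mem_iUnion.2 (exists_sel hc hx.1 hx.2)

theorem good_iff {x : X} {g : Γ} (hx : x ∈ D g) : x ∈ good D E ↔ g • x ∈ good D E := by
  constructor
  · intro h
    obtain ⟨n, hn⟩ := Set.mem_iUnion.1 h
    refine Set.mem_iUnion.2 ⟨n + 1, mem_lvl_succ (h := g⁻¹) ?_ ?_⟩
    · simpa using hn
    · right
      simpa using hx
  · intro h
    obtain ⟨n, hn⟩ := Set.mem_iUnion.1 h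
    exact Set.mem_iUnion.2 ⟨n + 1, mem_lvl_succ hn (Or.inl hx)⟩

theorem conn_good {x y : X} (h : Conn D x y) : x ∈ good D E ↔ y ∈ good D E := by
  induction h with
  | rel x y h =>
    obtain ⟨g, hg, rfl⟩ := h
    exact good_iff hg
  | refl x => exact Iff.rfl
  | symm x y _ ih => exact ih.symm
  | trans x y z _ _ ih1 ih2 => exact ih1.trans ih2

/-- The label leading from `x` to its parent (or `1`). -/
noncomputable def lab (D : Γ → Set X) (E : Set X) (c : ℕ → Γ × Bool) (x : X) : Γ := by
  classical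
  exact if h : ∃ q, x ∈ sel D E c q then (Classical.choose h).1 else 1

theorem lab_of_sel {q : Γ × Bool} {x : X} (h : x ∈ sel D E c q) : lab D E c x = q.1 := by
  have hex : ∃ q, x ∈ sel D E c q := ⟨q, h⟩
  unfold lab
  rw [dif_pos hex, sel_unique h (Classical.choose_spec hex)]

theorem lab_of_mem {x : X} (h : x ∈ E) : lab D E c x = 1 := by
  unfold lab
  rw [dif_neg]
  rintro ⟨q, hq⟩
  exact (cand_subset (sel_subset_cand hq)).2 h

/-- Iterated label. -/
noncomputable def rho (D : Γ → Set X) (E : Set X) (c : ℕ → Γ × Bool) : ℕ → X → Γ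
  | 0, _ => 1
  | n + 1, x => rho D E c n (lab D E c x • x) * lab D E c x

theorem lab_smul_mem (hc : Function.Surjective c) {n : ℕ} {x : X} (hx : x ∈ lvl D E (n + 1)) :
    lab D E c x • x ∈ lvl D E n := by
  by_cases hE : x ∈ E
  · rw [lab_of_mem hE, one_smul]
    exact lvl_mono (Nat.zero_le n) hE
  · obtain ⟨q, hq⟩ := exists_sel (c := c) hc (Set.mem_iUnion.2 ⟨_, hx⟩) hE
    rw [lab_of_sel hq]
    obtain ⟨m, h1, h2, -⟩ := mem_cand.1 (sel_subset_cand hq)
    have hm : m ≤ n := by
      by_contra hcon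
      exact h1 (lvl_mono (by omega) hx)
    exact lvl_mono hm h2

theorem rho_smul_mem (hc : Function.Surjective c) {n : ℕ} {x : X} (hx : x ∈ lvl D E n) :
    rho D E c n x • x ∈ E := by
  induction n generalizing x with
  | zero =>
    show (1 : Γ) • x ∈ E
    rw [one_smul]
    exact hx
  | succ n ih =>
    have := ih (lab_smul_mem hc hx)
    simpa [rho, mul_smul] using this

theorem rho_succ (hc : Function.Surjective c) {n : ℕ} {x : X} (hx : x ∈ lvl D E n) :
    rho D E c (n + 1) x = rho D E c n x := by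
  induction n generalizing x with
  | zero =>
    have hE : x ∈ E := hx
    simp [rho, lab_of_mem hE]
  | succ n ih =>
    have := ih (lab_smul_mem hc hx)
    show rho D E c (n + 1) (lab D E c x • x) * lab D E c x =
      rho D E c n (lab D E c x • x) * lab D E c x
    rw [this]

theorem rho_of_le (hc : Function.Surjective c) {m n : ℕ} (hmn : m ≤ n) {x : X}
    (hx : x ∈ lvl D E m) : rho D E c n x = rho D E c m x := by
  induction hmn with
  | refl => rfl
  | step h ih => rw [rho_succ hc (lvl_mono h hx), ih]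

/-- The total label, leading from a good point to `E`. -/
noncomputable def rhoF (D : Γ → Set X) (E : Set X) (c : ℕ → Γ × Bool) (x : X) : Γ := by
  classical
  exact if h : ∃ n, x ∈ lvl D E n then rho D E c (Nat.find h) x else 1

theorem rhoF_eq (hc : Function.Surjective c) {n : ℕ} {x : X} (hx : x ∈ lvl D E n) :
    rhoF D E c x = rho D E c n x := by
  classical
  have hex : ∃ n, x ∈ lvl D E n := ⟨n, hx⟩
  unfold rhoF
  rw [dif_pos hex]
  exact (rho_of_le hc (Nat.find_min' hex hx) (Nat.find_spec hex)).symm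

theorem rhoF_smul_mem (hc : Function.Surjective c) {x : X} (hx : x ∈ good D E) :
    rhoF D E c x • x ∈ E := by
  obtain ⟨n, hn⟩ := Set.mem_iUnion.1 hx
  rw [rhoF_eq hc hn]
  exact rho_smul_mem hc hn

theorem rhoF_of_mem (hc : Function.Surjective c) {x : X} (hx : x ∈ E) :
    rhoF D E c x = 1 := by
  have : x ∈ lvl D E 0 := hx
  rw [rhoF_eq hc this]
  rfl

theorem rhoF_of_sel (hc : Function.Surjective c) {q : Γ × Bool} {x : X}
    (hx : x ∈ sel D E c q) : rhoF D E c x = rhoF D E c (q.1 • x) * q.1 := by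
  obtain ⟨n, h1, h2, h3⟩ := mem_cand.1 (sel_subset_cand hx)
  have h4 : x ∈ lvl D E (n + 1) := mem_lvl_succ h2 (by tauto)
  rw [rhoF_eq hc h4, rhoF_eq hc h2, rho, lab_of_sel hx]

section Meas

variable [MeasurableSpace X] [MeasurableConstSMul Γ X] [Countable Γ]
  (hD : ∀ g, MeasurableSet (D g)) (hE : MeasurableSet E)

include hD hE in
theorem measurable_lvl (n : ℕ) : MeasurableSet (lvl D E n) := by
  induction n with
  | zero => exact hE
  | succ n ih =>
    refine ih.union (MeasurableSet.iUnion fun h => ?_)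
    exact (ih.preimage (measurable_const_smul h)).inter
      ((hD h).union ((hD h⁻¹).preimage (measurable_const_smul h)))

include hD hE in
theorem measurable_good : MeasurableSet (good D E) :=
  MeasurableSet.iUnion fun n => measurable_lvl hD hE n

include hD hE in
theorem measurable_cand (q : Γ × Bool) : MeasurableSet (cand D E q) := by
  refine MeasurableSet.iUnion fun n => ?_
  refine MeasurableSet.inter ?_ ?_
  · exact (measurable_lvl hD hE n).compl.inter
      ((measurable_lvl hD hE n).preimage (measurable_const_smul q.1))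
  · split_ifs
    · exact hD _
    · exact (hD _).preimage (measurable_const_smul q.1)

include hD hE in
theorem measurable_sel (q : Γ × Bool) : MeasurableSet (sel D E c q) := by
  refine MeasurableSet.iUnion fun k => ?_
  refine MeasurableSet.inter (by
    by_cases h : c k = q <;> simp [h]) ?_
  refine (measurable_cand hD hE _).inter ?_
  exact MeasurableSet.iInter fun j => MeasurableSet.iInter fun _ =>
    (measurable_cand hD hE _).compl

include hD hE in
theorem measurable_lab (hc : Function.Surjective c) (g : Γ) :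
    MeasurableSet {x | lab D E c x = g} := by
  have h1 : {x | lab D E c x = g} = ((⋃ b : Bool, sel D E c (g, b)) ∪
      ((good D E \ E)ᶜ ∩ {_x | g = 1})) := by
    ext x
    by_cases hx : x ∈ good D E \ E
    · obtain ⟨q, hq⟩ := exists_sel (c := c) hc hx.1 hx.2
      have h2 := lab_of_sel hq
      constructor
      · intro h
        left
        refine Set.mem_iUnion.2 ⟨q.2, ?_⟩
        have h3 : lab D E c x = g := h
        have : (g, q.2) = q := by
          rw [← h3, h2]
        rw [this]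
        exact hq
      · rintro (h | h)
        · obtain ⟨b, hb⟩ := Set.mem_iUnion.1 h
          exact lab_of_sel hb
        · exact absurd hx h.1
    · have h2 : lab D E c x = 1 := by
        unfold lab
        rw [dif_neg]
        rintro ⟨q, hq⟩
        exact hx (cand_subset (sel_subset_cand hq))
      constructor
      · intro h
        right
        have h3 : lab D E c x = g := h
        exact ⟨hx, by rw [← h3, h2]; rfl⟩
      · rintro (h | h)
        · obtain ⟨b, hb⟩ := Set.mem_iUnion.1 h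
          exact absurd (cand_subset (sel_subset_cand hb)) hx
        · have h4 : g = 1 := h.2
          show lab D E c x = g
          rw [h2, h4]
  rw [h1]
  refine MeasurableSet.union (MeasurableSet.iUnion fun b => measurable_sel hD hE _) ?_
  exact ((measurable_good hD hE).diff hE).compl.inter (MeasurableSet.const _)

include hD hE in
theorem measurable_rho (hc : Function.Surjective c) (n : ℕ) (g : Γ) :
    MeasurableSet {x | rho D E c n x = g} := by
  induction n generalizing g with
  | zero =>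
    show MeasurableSet {_x | (1 : Γ) = g}
    exact MeasurableSet.const _
  | succ n ih =>
    have h1 : {x | rho D E c (n + 1) x = g} = ⋃ a : Γ, ({x | lab D E c x = a} ∩
        (fun x => a • x) ⁻¹' {x | rho D E c n x = g * a⁻¹}) := by
      ext x
      simp only [Set.mem_iUnion, Set.mem_inter_iff, Set.mem_ofPred_eq, Set.mem_preimage]
      constructor
      · intro h
        refine ⟨lab D E c x, rfl, ?_⟩
        rw [← h, rho]
        simp
      · rintro ⟨a, ha, h⟩
        rw [rho, ha, h]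
        simp
    rw [h1]
    exact MeasurableSet.iUnion fun a => (measurable_lab hD hE hc a).inter
      ((ih _).preimage (measurable_const_smul a))

include hD hE in
theorem measurable_rhoF (hc : Function.Surjective c) (g : Γ) :
    MeasurableSet (good D E ∩ {x | rhoF D E c x = g}) := by
  have h1 : good D E ∩ {x | rhoF D E c x = g} =
      ⋃ n, (lvl D E n ∩ {x | rho D E c n x = g}) := by
    ext x
    simp only [Set.mem_iUnion, Set.mem_inter_iff, Set.mem_ofPred_eq]
    constructor
    · rintro ⟨h1, h2⟩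
      obtain ⟨n, hn⟩ := Set.mem_iUnion.1 h1
      exact ⟨n, hn, by rw [← rhoF_eq hc hn]; exact h2⟩
    · rintro ⟨n, h1, h2⟩
      exact ⟨Set.mem_iUnion.2 ⟨n, h1⟩, by rw [rhoF_eq hc h1]; exact h2⟩
  rw [h1]
  exact MeasurableSet.iUnion fun n => (measurable_lvl hD hE n).inter
    (measurable_rho hD hE hc n g)

end Meas

/-- The removed edges. -/
def rem (D : Γ → Set X) (E : Set X) (c : ℕ → Γ × Bool) (g : Γ) : Set X :=
  sel D E c (g, true) ∪ (g • ·) ⁻¹' sel D E c (g⁻¹, false)

theorem rem_subset (g : Γ) : rem D E c g ⊆ D g := by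
  rintro x (hx | hx)
  · obtain ⟨n, -, -, h⟩ := mem_cand.1 (sel_subset_cand hx)
    rcases h with ⟨-, h⟩ | ⟨h, -⟩
    · exact h
    · simp at h
  · obtain ⟨n, -, -, h⟩ := mem_cand.1 (sel_subset_cand hx)
    rcases h with ⟨h, -⟩ | ⟨-, h⟩
    · simp at h
    · simpa using h

theorem rem_disjoint (g : Γ) :
    Disjoint (sel D E c (g, true)) ((g • ·) ⁻¹' sel D E c (g⁻¹, false)) := by
  rw [Set.disjoint_left]
  intro x hx hx'
  obtain ⟨n, h1, h2, -⟩ := mem_cand.1 (sel_subset_cand hx)
  obtain ⟨m, h3, h4, -⟩ := mem_cand.1 (sel_subset_cand hx')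
  simp only [inv_smul_smul] at h4
  rcases le_total m n with h | h
  · exact h1 (lvl_mono h h4)
  · exact h3 (lvl_mono h h2)

theorem rem_retract (hc : Function.Surjective c) {g : Γ} {x : X} (hx : x ∈ rem D E c g) :
    rhoF D E c x • x = rhoF D E c (g • x) • g • x := by
  rcases hx with hx | hx
  · rw [rhoF_of_sel hc hx, mul_smul]
  · rw [rhoF_of_sel hc hx]
    simp [mul_smul]

/-- The remaining edges with label `t.1`, sorted according to the total labels of the ends. -/
def piece (D : Γ → Set X) (E : Set X) (c : ℕ → Γ × Bool) (t : Γ × Γ × Γ) : Set X :=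
  (D t.1 \ rem D E c t.1) ∩ ((good D E ∩ {x | rhoF D E c x = t.2.1}) ∩
    (t.1 • ·) ⁻¹' (good D E ∩ {x | rhoF D E c x = t.2.2}))

/-- The new labelled graph on `E`. -/
def newD (D : Γ → Set X) (E : Set X) (c : ℕ → Γ × Bool) (k : Γ) : Set X :=
  ⋃ t : Γ × Γ × Γ, {_x | t.2.2 * t.1 * t.2.1⁻¹ = k} ∩ (t.2.1⁻¹ • ·) ⁻¹' piece D E c t

theorem newD_mem (hc : Function.Surjective c) {k : Γ} {x : X} (hx : x ∈ newD D E c k) :
    x ∈ E ∧ k • x ∈ E := by
  obtain ⟨t, ht, hx⟩ := Set.mem_iUnion.1 hx
  obtain ⟨g, α, β⟩ := t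
  have ht' : β * g * α⁻¹ = k := ht
  obtain ⟨-, ⟨h1, h2⟩, h3, h4⟩ := hx
  have h2' : rhoF D E c (α⁻¹ • x) = α := h2
  have h4' : rhoF D E c (g • α⁻¹ • x) = β := h4
  have h5 := rhoF_smul_mem (c := c) hc h1
  have h6 := rhoF_smul_mem (c := c) hc h3
  constructor
  · have : rhoF D E c (α⁻¹ • x) • (α⁻¹ • x) = x := by
      rw [h2', smul_inv_smul]
    rw [← this]
    exact h5
  · have : rhoF D E c (g • α⁻¹ • x) • (g • α⁻¹ • x) = k • x := by
      rw [h4', ← ht', mul_smul, mul_smul]
    rw [← this]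
    exact h6

theorem newD_conn (hc : Function.Surjective c) {x y : X} (h : Conn D x y) :
    x ∈ good D E → Conn (newD D E c) (rhoF D E c x • x) (rhoF D E c y • y) := by
  induction h with
  | rel x y h =>
    intro hx
    obtain ⟨g, hg, rfl⟩ := h
    by_cases hr : x ∈ rem D E c g
    · rw [rem_retract hc hr]
      exact Relation.EqvGen.refl _
    · refine Relation.EqvGen.rel _ _ ⟨rhoF D E c (g • x) * g * (rhoF D E c x)⁻¹, ?_, ?_⟩
      · refine Set.mem_iUnion.2 ⟨(g, rhoF D E c x, rhoF D E c (g • x)), rfl, ?_⟩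
        have h1 : (rhoF D E c x)⁻¹ • rhoF D E c x • x = x := inv_smul_smul _ _
        have h2 : x ∈ piece D E c (g, rhoF D E c x, rhoF D E c (g • x)) :=
          ⟨⟨hg, hr⟩, ⟨hx, rfl⟩, (good_iff hg).1 hx, rfl⟩
        show (rhoF D E c x)⁻¹ • rhoF D E c x • x ∈
          piece D E c (g, rhoF D E c x, rhoF D E c (g • x))
        rw [h1]
        exact h2
      · rw [mul_smul, inv_smul_smul, mul_smul]
  | refl x => intro _; exact Relation.EqvGen.refl _
  | symm x y h ih =>
    intro hy
    exact Relation.EqvGen.symm _ _ (ih ((conn_good h).2 hy))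
  | trans x y z h1 h2 ih1 ih2 =>
    intro hx
    exact Relation.EqvGen.trans _ _ _ (ih1 hx) (ih2 ((conn_good h1).1 hx))

section Meas2

variable [MeasurableSpace X] [MeasurableConstSMul Γ X] [Countable Γ]
  (hD : ∀ g, MeasurableSet (D g)) (hE : MeasurableSet E)

include hD hE in
theorem measurable_rem (g : Γ) : MeasurableSet (rem D E c g) :=
  (measurable_sel hD hE _).union ((measurable_sel hD hE _).preimage (measurable_const_smul g))

include hD hE in
theorem measurable_piece (hc : Function.Surjective c) (t : Γ × Γ × Γ) :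
    MeasurableSet (piece D E c t) :=
  ((hD _).diff (measurable_rem hD hE _)).inter ((measurable_rhoF hD hE hc _).inter
    ((measurable_rhoF hD hE hc _).preimage (measurable_const_smul t.1)))

include hD hE in
theorem measurable_newD (hc : Function.Surjective c) (k : Γ) :
    MeasurableSet (newD D E c k) :=
  MeasurableSet.iUnion fun _ => (MeasurableSet.const _).inter
    ((measurable_piece hD hE hc _).preimage (measurable_const_smul _))

variable (μ : Measure X)

include hD hE in
theorem tsum_piece_le (hc : Function.Surjective c) (g : Γ) :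
    ∑' t : Γ × Γ, μ (piece D E c (g, t)) ≤ μ (D g \ rem D E c g) := by
  rw [← measure_iUnion]
  · refine measure_mono (Set.iUnion_subset fun t => ?_)
    exact Set.inter_subset_left
  · intro t t' htt'
    show Disjoint _ _
    rw [Set.disjoint_left]
    rintro x ⟨-, ⟨-, h1⟩, -, h2⟩ ⟨-, ⟨-, h3⟩, -, h4⟩
    apply htt'
    have h1' : rhoF D E c x = t.1 := h1
    have h2' : rhoF D E c (g • x) = t.2 := h2
    have h3' : rhoF D E c x = t'.1 := h3
    have h4' : rhoF D E c (g • x) = t'.2 := h4
    exact Prod.ext (h1'.symm.trans h3') (h2'.symm.trans h4')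
  · intro t
    exact measurable_piece hD hE hc _

variable [SMulInvariantMeasure Γ X μ]

include hD hE in
theorem dcost_newD_le (hc : Function.Surjective c) :
    dcost μ (newD D E c) ≤ ∑' g, μ (D g \ rem D E c g) := by
  classical
  calc dcost μ (newD D E c)
      ≤ ∑' k : Γ, ∑' t : Γ × Γ × Γ,
          (if t.2.2 * t.1 * t.2.1⁻¹ = k then μ (piece D E c t) else 0) := by
        refine ENNReal.tsum_le_tsum fun k => ?_
        refine (measure_iUnion_le _).trans (ENNReal.tsum_le_tsum fun t => ?_)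
        by_cases h : t.2.2 * t.1 * t.2.1⁻¹ = k
        · rw [if_pos h]
          refine (measure_mono Set.inter_subset_right).trans ?_
          rw [measure_preimage_smul]
        · rw [if_neg h]
          simp [h]
    _ = ∑' t : Γ × Γ × Γ, ∑' k : Γ,
          (if t.2.2 * t.1 * t.2.1⁻¹ = k then μ (piece D E c t) else 0) := ENNReal.tsum_comm
    _ = ∑' t : Γ × Γ × Γ, μ (piece D E c t) := by
        refine tsum_congr fun t => ?_
        exact tsum_ite_eq' _ _
    _ = ∑' g : Γ, ∑' t : Γ × Γ, μ (piece D E c (g, t)) := ENNReal.tsum_prod'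
    _ ≤ ∑' g, μ (D g \ rem D E c g) :=
        ENNReal.tsum_le_tsum fun g => tsum_piece_le hD hE μ hc g

include hD hE in
theorem tsum_rem (hc : Function.Surjective c) :
    ∑' g, μ (rem D E c g) = μ (good D E \ E) := by
  have h1 : ∀ g, μ (rem D E c g) = μ (sel D E c (g, true)) + μ (sel D E c (g⁻¹, false)) := by
    intro g
    unfold rem
    rw [measure_union (rem_disjoint g)
      ((measurable_sel hD hE _).preimage (measurable_const_smul g)), measure_preimage_smul]
  have h2 : ∑' g : Γ, μ (sel D E c (g⁻¹, false)) = ∑' g : Γ, μ (sel D E c (g, false)) :=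
    (Equiv.inv Γ).tsum_eq (fun g => μ (sel D E c (g, false)))
  rw [tsum_congr h1, ENNReal.tsum_add, h2, ← iUnion_sel hc, measure_iUnion]
  · rw [ENNReal.tsum_prod', ← ENNReal.tsum_add]
    refine tsum_congr fun g => ?_
    rw [tsum_bool, add_comm]
  · intro q q' hqq'
    show Disjoint _ _
    rw [Set.disjoint_left]
    intro x hx hx'
    exact hqq' (sel_unique hx hx')
  · exact fun q => measurable_sel hD hE q

end Meas2

end CompressAux

open CompressAux in
/-- Compression: a generating labelled graph can be pushed to a set meeting almost every orbit,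
with the expected loss of cost. -/
theorem compress {Γ X : Type} [Group Γ] [Countable Γ] [MeasurableSpace X]
    [StandardBorelSpace X] (μ : Measure X) [IsProbabilityMeasure μ] [MulAction Γ X]
    [MeasurableConstSMul Γ X] [SMulInvariantMeasure Γ X μ]
    (D : Γ → Set X) (hD : ∀ g, MeasurableSet (D g)) (hgen : Gen μ D)
    (E : Set X) (hE : MeasurableSet E) (hEc : ∀ᵐ x ∂μ, ∃ g : Γ, g • x ∈ E) :
    ∃ D' : Γ → Set X, (∀ g, MeasurableSet (D' g)) ∧
      (∀ g x, x ∈ D' g → x ∈ E ∧ g • x ∈ E) ∧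
      (∀ᵐ x ∂μ, x ∈ E → ∀ g : Γ, g • x ∈ E → Conn D' x (g • x)) ∧
      dcost μ D' + μ Eᶜ ≤ dcost μ D := by
  obtain ⟨c, hc⟩ := exists_surjective_nat (Γ × Bool)
  refine ⟨newD D E c, measurable_newD hD hE hc, fun g x hx => newD_mem hc hx, ?_, ?_⟩
  · filter_upwards [hgen] with x hx hxE g hgE
    have h1 := newD_conn (E := E) (c := c) hc (hx g) (subset_good hxE)
    rwa [rhoF_of_mem hc hxE, rhoF_of_mem hc hgE, one_smul, one_smul] at h1
  · have hgood : ∀ᵐ x ∂μ, x ∈ good D E := by
      filter_upwards [hgen, hEc] with x hx hx'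
      obtain ⟨g, hg⟩ := hx'
      exact (conn_good (hx g)).2 (subset_good hg)
    have h1 : μ Eᶜ = μ (good D E \ E) := by
      refine measure_congr ?_
      filter_upwards [hgood] with x hx
      apply propext
      exact ⟨fun h => ⟨hx, h⟩, fun h => h.2⟩
    rw [h1, ← tsum_rem hD hE μ hc]
    refine (add_le_add (dcost_newD_le hD hE μ hc) le_rfl).trans ?_
    rw [← ENNReal.tsum_add]
    refine ENNReal.tsum_le_tsum fun g => ?_
    rw [measure_sdiff (rem_subset g) (measurable_rem hD hE g).nullMeasurableSet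
      (measure_ne_top _ _)]
    rw [tsub_add_cancel_of_le (measure_mono (rem_subset g))]

end Vale.Agent.P189
end
end

section

section

set_option autoImplicit false

open MeasureTheory
open scoped ENNReal Pointwise

namespace Vale.Agent.P189

section Ext

variable {Γ X : Type} [Group Γ] [MeasurableSpace X] [MulAction Γ X]

/-- Extend a labelled graph of a subgroup to the whole group. -/
def extend (H : Subgroup Γ) (D : H → Set X) (g : Γ) : Set X :=
  {x | ∃ hg : g ∈ H, x ∈ D ⟨g, hg⟩}

theorem extend_coe (H : Subgroup Γ) (D : H → Set X) (a : H) : extend H D (a : Γ) = D a := by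
  ext x
  simp [extend]

theorem extend_of_notMem (H : Subgroup Γ) (D : H → Set X) {g : Γ} (hg : g ∉ H) :
    extend H D g = ∅ := by
  ext x
  simp [extend, hg]

theorem measurableSet_extend (H : Subgroup Γ) (D : H → Set X) (hD : ∀ a, MeasurableSet (D a))
    (g : Γ) : MeasurableSet (extend H D g) := by
  by_cases hg : g ∈ H
  · have := extend_coe H D ⟨g, hg⟩
    simp only at this
    rw [this]
    exact hD _
  · rw [extend_of_notMem H D hg]
    exact MeasurableSet.empty

theorem dcost_extend (μ : Measure X) (H : Subgroup Γ) (D : H → Set X) :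
    dcost μ (extend H D) = dcost μ D := by
  have h1 : ∀ g : Γ, μ (extend H D g) =
      (H : Set Γ).indicator (fun g => μ (extend H D g)) g := by
    intro g
    by_cases hg : g ∈ H
    · rw [Set.indicator_of_mem (by exact hg)]
    · rw [Set.indicator_of_notMem (by exact hg), extend_of_notMem H D hg]
      simp
  unfold dcost
  rw [tsum_congr h1, ← tsum_subtype (H : Set Γ) (fun g => μ (extend H D g))]
  refine tsum_congr fun a => ?_
  exact congrArg μ (extend_coe H D a)

theorem conn_extend {H : Subgroup Γ} {D : H → Set X} {D' : Γ → Set X}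
    (h : ∀ g, extend H D g ⊆ D' g) {x y : X} (hc : Conn D x y) : Conn D' x y := by
  induction hc with
  | rel a b hab =>
    obtain ⟨g, ha, rfl⟩ := hab
    exact Conn.of_mem (h (g : Γ) (by rw [extend_coe]; exact ha))
  | refl a => exact Conn.refl _ _
  | symm a b _ ih => exact ih.symm
  | trans a b c _ _ ih1 ih2 => exact ih1.trans ih2

end Ext

section Det

variable {Γ X I : Type} [Group Γ] [MulAction Γ X] {A : I → Subgroup Γ} {T : Finset Γ} {i0 : I}
  {E : Set X} {D : Γ → Set X}

theorem pconn_conn (Y : Set X) (hYinv : ∀ y ∈ Y, ∀ g : Γ, g • y ∈ Y)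
    (hsec : ∀ y ∈ Y, ∀ i, ∃ a ∈ A i, a • y ∈ E)
    (hfull : ∀ y ∈ Y, ∀ a ∈ A i0, Conn D y (a • y))
    (hE : ∀ y ∈ Y, ∀ i, y ∈ E → ∀ a ∈ A i, a • y ∈ E → Conn D y (a • y))
    (hT : ∀ t ∈ T, E ⊆ D t) {u v : X × I} (h : PConn A T i0 E u v) :
    (u.1 ∈ Y ↔ v.1 ∈ Y) ∧ (u.1 ∈ Y → ∀ a ∈ A u.2, ∀ b ∈ A v.2, a • u.1 ∈ E → b • v.1 ∈ E →
      Conn D (a • u.1) (b • v.1)) := by
  have same : ∀ y ∈ Y, ∀ i, ∀ a ∈ A i, ∀ b ∈ A i, a • y ∈ E → b • y ∈ E →
      Conn D (a • y) (b • y) := by
    intro y hy i a ha b hb hay hby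
    have h1 := hE (a • y) (hYinv y hy a) i hay (b * a⁻¹) ((A i).mul_mem hb ((A i).inv_mem ha))
    rw [mul_smul, inv_smul_smul] at h1
    exact h1 hby
  induction h with
  | rel u v huv =>
    cases huv with
    | move y i a ha =>
      refine ⟨⟨fun hy => hYinv y hy a, fun hy => ?_⟩, ?_⟩
      · have := hYinv _ hy a⁻¹
        simpa using this
      · intro hy a' ha' b' hb' h1 h2
        simp only at *
        rw [← mul_smul] at h2 ⊢
        exact same y hy i a' ha' (b' * a) ((A i).mul_mem hb' ha) h1 h2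
    | opened y i j hy =>
      refine ⟨Iff.rfl, ?_⟩
      intro hyY a' ha' b' hb' h1 h2
      simp only at *
      exact (hE y hyY i hy a' ha' h1).symm.trans (hE y hyY j hy b' hb' h2)
    | edge y t hy ht =>
      refine ⟨⟨fun hy => hYinv y hy t, fun hy => ?_⟩, ?_⟩
      · have := hYinv _ hy t⁻¹
        simpa using this
      · intro hyY a' ha' b' hb' h1 h2
        simp only at *
        exact ((hfull y hyY a' ha').symm.trans (Conn.of_mem (hT t ht hy))).trans
          (hfull (t • y) (hYinv y hyY t) b' hb')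
  | refl u =>
    refine ⟨Iff.rfl, ?_⟩
    intro hy a ha b hb h1 h2
    exact same _ hy _ a ha b hb h1 h2
  | symm u v _ ih =>
    refine ⟨ih.1.symm, ?_⟩
    intro hy a ha b hb h1 h2
    exact (ih.2 (ih.1.2 hy) b hb a ha h2 h1).symm
  | trans u v w _ _ ih1 ih2 =>
    refine ⟨ih1.1.trans ih2.1, ?_⟩
    intro hy a ha b hb h1 h2
    obtain ⟨c, hc, hcE⟩ := hsec v.1 (ih1.1.1 hy) v.2
    exact (ih1.2 hy a ha c hc h1 hcE).trans (ih2.2 (ih1.1.1 hy) c hc b hb hcE h2)

end Det

section Main

variable {Γ X I : Type} [Group Γ] [Countable Γ] [MeasurableSpace X] [StandardBorelSpace X]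
  (μ : Measure X) [IsProbabilityMeasure μ] [MulAction Γ X] [MeasurableConstSMul Γ X]
  [SMulInvariantMeasure Γ X μ] [Fintype I] (A : I → Subgroup Γ) (T : Finset Γ) (i0 : I)

theorem EssentiallyFree.subgroup {μ : Measure X} (hfree : EssentiallyFree Γ X μ)
    (H : Subgroup Γ) : EssentiallyFree H X μ := by
  intro a ha
  exact hfree (a : Γ) (fun h => ha (Subtype.ext h))

theorem cost_bound (hfree : EssentiallyFree Γ X μ) (hA : ∀ i, Infinite (A i))
    (hK : ∀ s : Γ, KRel (X := X) μ A T i0 i0 s i0) :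
    actionCost Γ X μ + Fintype.card I ≤ ∑ i, actionCost (A i) X μ + 1 := by
  classical
  refine ENNReal.le_of_forall_pos_le_add fun ε hε hfin => ?_
  have hfin' : ∀ i, actionCost (A i) X μ ≠ ∞ := by
    intro i hi
    have h1 : ∑ i, actionCost (A i) X μ = ∞ :=
      ENNReal.sum_eq_top.2 ⟨i, Finset.mem_univ _, hi⟩
    rw [h1] at hfin
    simp at hfin
  set k : ℕ := Fintype.card I with hk
  set t : ℕ := T.card with ht
  set C : ℕ := k * (k + 2) + t * (k + 1) + 1 with hC
  let δ : ℝ≥0∞ := ε / C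
  have hδ : 0 < δ := ENNReal.div_pos (by simpa using hε.ne') (by simp)
  have hCδ : (C : ℝ≥0∞) * δ ≤ ε := ENNReal.mul_div_le
  -- near optimal graphs of the subgroups
  have hDex : ∀ i, ∃ D : A i → Set X, (∀ g, MeasurableSet (D g)) ∧ Gen μ D ∧
      dcost μ D < actionCost (A i) X μ + δ := fun i =>
    exists_labelled_of_lt μ (ENNReal.lt_add_right (hfin' i) hδ.ne')
  choose D0 hD0 hD0gen hD0cost using hDex
  -- sections
  have hsec : ∀ i, ∃ E : Set X, MeasurableSet E ∧ μ E ≤ δ ∧ ∀ x, ∃ g : A i, g • x ∈ E :=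
    fun i => haveI := hA i; exists_small_section μ (hfree.subgroup (A i)) hδ
  choose Es hEs hμEs hEsx using hsec
  obtain ⟨ε', hε'pos, hε'sum⟩ := ENNReal.exists_pos_sum_of_countable' hδ.ne' Γ
  choose Eg Bg hEg hBg hμEg hμBg hEB using fun g => hK g (ε' g) (hε'pos g)
  let E : Set X := (⋃ i, Es i) ∪ ⋃ g, Eg g
  have hE : MeasurableSet E :=
    (MeasurableSet.iUnion fun i => hEs i).union (MeasurableSet.iUnion fun g => hEg g)
  have hμE : μ E ≤ (k + 1) * δ := by
    calc μ E ≤ μ (⋃ i, Es i) + μ (⋃ g, Eg g) := measure_union_le _ _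
      _ ≤ ∑ i, μ (Es i) + ∑' g, μ (Eg g) :=
        add_le_add (measure_iUnion_fintype_le _ _) (measure_iUnion_le _)
      _ ≤ ∑ _i : I, δ + ∑' g, ε' g :=
        add_le_add (Finset.sum_le_sum fun i _ => hμEs i) (ENNReal.tsum_le_tsum hμEg)
      _ ≤ k * δ + δ := by
        refine add_le_add ?_ hε'sum.le
        simp [hk]
      _ = (k + 1) * δ := by ring
  -- compressed graphs
  have hcomp : ∀ i, ∃ D' : A i → Set X, (∀ g, MeasurableSet (D' g)) ∧
      (∀ g x, x ∈ D' g → x ∈ E ∧ g • x ∈ E) ∧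
      (∀ᵐ x ∂μ, x ∈ E → ∀ g : A i, g • x ∈ E → Conn D' x (g • x)) ∧
      dcost μ D' + μ Eᶜ ≤ dcost μ (D0 i) := fun i =>
    compress μ (D0 i) (hD0 i) (hD0gen i) E hE
      (Filter.Eventually.of_forall fun x => by
        obtain ⟨g, hg⟩ := hEsx i x
        exact ⟨g, Or.inl (Set.mem_iUnion.2 ⟨i, hg⟩)⟩)
  choose D1 hD1 _ hD1gen hD1cost using hcomp
  let D2 : (i : I) → A i → Set X := fun i => if i = i0 then D0 i else D1 i
  have hD2 : ∀ i g, MeasurableSet (D2 i g) := by
    intro i g
    by_cases hi : i = i0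
    · simp only [D2, hi, if_true]; exact hD0 _ _
    · simp only [D2, hi, if_false]; exact hD1 _ _
  have hone : ∀ i, dcost μ (D2 i) + 1 ≤
      actionCost (A i) X μ + (k + 2) * δ + (if i = i0 then 1 else 0) := by
    intro i
    by_cases hi : i = i0
    · subst hi
      simp only [D2, if_true]
      refine add_le_add ((hD0cost i).le.trans ?_) le_rfl
      refine add_le_add le_rfl ?_
      calc δ = 1 * δ := (one_mul δ).symm
        _ ≤ (k + 2) * δ := by
          gcongr
          exact le_add_left (by norm_num)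
    · simp only [D2, hi, if_false, add_zero]
      have h1 : (1 : ℝ≥0∞) ≤ μ Eᶜ + μ E := by
        calc (1 : ℝ≥0∞) = μ (Eᶜ ∪ E) := by simp
          _ ≤ _ := measure_union_le _ _
      calc dcost μ (D1 i) + 1 ≤ dcost μ (D1 i) + (μ Eᶜ + μ E) := by gcongr
        _ = (dcost μ (D1 i) + μ Eᶜ) + μ E := by ring
        _ ≤ (actionCost (A i) X μ + δ) + (k + 1) * δ :=
          add_le_add ((hD1cost i).trans (hD0cost i).le) hμE
        _ = actionCost (A i) X μ + (k + 2) * δ := by ring
  have hsum : ∑ i, dcost μ (D2 i) + k ≤ ∑ i, actionCost (A i) X μ + k * (k + 2) * δ + 1 := by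
    calc ∑ i, dcost μ (D2 i) + k = ∑ i, (dcost μ (D2 i) + 1) := by
          rw [Finset.sum_add_distrib]; simp [hk]
      _ ≤ ∑ i, (actionCost (A i) X μ + (k + 2) * δ + (if i = i0 then 1 else 0)) :=
          Finset.sum_le_sum fun i _ => hone i
      _ = ∑ i, actionCost (A i) X μ + k * (k + 2) * δ + 1 := by
          rw [Finset.sum_add_distrib, Finset.sum_add_distrib]
          simp [hk, mul_assoc]
  let D : Γ → Set X := fun g => (⋃ i, extend (A i) (D2 i) g) ∪ ((if g ∈ T then E else ∅) ∪ Bg g)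
  have hD : ∀ g, MeasurableSet (D g) := by
    intro g
    refine (MeasurableSet.iUnion fun i => measurableSet_extend _ _ (hD2 i) g).union ?_
    refine MeasurableSet.union ?_ (hBg g)
    split_ifs
    · exact hE
    · exact MeasurableSet.empty
  have hdc : dcost μ D ≤ ∑ i, dcost μ (D2 i) + (t * ((k + 1) * δ) + δ) := by
    calc dcost μ D ≤ ∑' g, (∑ i, μ (extend (A i) (D2 i) g) +
          (μ (if g ∈ T then E else ∅) + μ (Bg g))) := by
          refine ENNReal.tsum_le_tsum fun g => ?_
          refine (measure_union_le _ _).trans ?_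
          exact add_le_add (measure_iUnion_fintype_le _ _) (measure_union_le _ _)
      _ = ∑' g, ∑ i, μ (extend (A i) (D2 i) g) +
          (∑' g, μ (if g ∈ T then E else ∅) + ∑' g, μ (Bg g)) := by
          rw [ENNReal.tsum_add, ENNReal.tsum_add]
      _ ≤ ∑ i, dcost μ (D2 i) + (t * ((k + 1) * δ) + δ) := by
          refine add_le_add ?_ (add_le_add ?_ ?_)
          · rw [Summable.tsum_finsetSum fun i _ => ENNReal.summable]
            refine Finset.sum_le_sum fun i _ => ?_
            exact (dcost_extend μ (A i) (D2 i)).le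
          · rw [tsum_eq_sum (s := T) (fun g hg => by simp [hg])]
            calc ∑ g ∈ T, μ (if g ∈ T then E else ∅) = ∑ g ∈ T, μ E :=
                  Finset.sum_congr rfl fun g hg => by simp [hg]
              _ = t * μ E := by simp [ht]
              _ ≤ t * ((k + 1) * δ) := by gcongr
          · exact (ENNReal.tsum_le_tsum hμBg).trans hε'sum.le
  have hgen : Gen μ D := by
    have hsub : ∀ i g, extend (A i) (D2 i) g ⊆ D g := fun i g x hx =>
      Or.inl (Set.mem_iUnion.2 ⟨i, hx⟩)
    have h1 : ∀ᵐ x ∂μ, ∀ a : A i0, Conn D x (a • x) := by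
      filter_upwards [hD0gen i0] with x hx a
      refine conn_extend (H := A i0) (D := D2 i0) (hsub i0) ?_
      simp only [D2, if_true]
      exact hx a
    have h2 : ∀ i, ∀ᵐ x ∂μ, x ∈ E → ∀ a : A i, a • x ∈ E → Conn D x (a • x) := by
      intro i
      by_cases hi : i = i0
      · subst hi
        filter_upwards [h1] with x hx _ a _
        exact hx a
      · filter_upwards [hD1gen i] with x hx hxE a haE
        refine conn_extend (H := A i) (D := D2 i) (hsub i) ?_
        simp only [D2, hi, if_false]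
        exact hx hxE a haE
    have h3 : ∀ᵐ x ∂μ, (∀ a : A i0, Conn D x (a • x)) ∧
        ∀ i, x ∈ E → ∀ a : A i, a • x ∈ E → Conn D x (a • x) :=
      h1.and (ae_all_iff.2 h2)
    have h4 : ∀ᵐ x ∂μ, ∀ g : Γ, (∀ a : A i0, Conn D (g • x) (a • g • x)) ∧
        ∀ i, g • x ∈ E → ∀ a : A i, a • g • x ∈ E → Conn D (g • x) (a • g • x) := by
      refine ae_all_iff.2 fun g => ?_
      exact (measurePreserving_smul g μ).quasiMeasurePreserving.ae h3
    filter_upwards [h4] with x hx s
    by_cases hs : x ∈ Bg s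
    · exact Conn.of_mem (Or.inr (Or.inr hs))
    · have hp := (hEB s x hs).mono (E' := E)
        (fun y hy => Or.inr (Set.mem_iUnion.2 ⟨s, hy⟩))
      have hYinv : ∀ y ∈ MulAction.orbit Γ x, ∀ g : Γ, g • y ∈ MulAction.orbit Γ x := by
        rintro _ ⟨g, rfl⟩ h
        exact ⟨h * g, mul_smul _ _ _⟩
      have hsec' : ∀ y ∈ MulAction.orbit Γ x, ∀ i, ∃ a ∈ A i, a • y ∈ E := by
        rintro y _ i
        obtain ⟨a, ha⟩ := hEsx i y
        exact ⟨a, a.2, Or.inl (Set.mem_iUnion.2 ⟨i, ha⟩)⟩
      have hfull : ∀ y ∈ MulAction.orbit Γ x, ∀ a ∈ A i0, Conn D y (a • y) := by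
        rintro _ ⟨g, rfl⟩ a ha
        exact (hx g).1 ⟨a, ha⟩
      have hpair : ∀ y ∈ MulAction.orbit Γ x, ∀ i, y ∈ E → ∀ a ∈ A i, a • y ∈ E →
          Conn D y (a • y) := by
        rintro _ ⟨g, rfl⟩ i hy a ha hay
        exact (hx g).2 i hy ⟨a, ha⟩ hay
      have hT : ∀ t ∈ T, E ⊆ D t := by
        intro t ht y hy
        refine Or.inr (Or.inl ?_)
        simpa [ht] using hy
      have key := (pconn_conn (MulAction.orbit Γ x) hYinv hsec' hfull hpair hT hp).2
        (MulAction.mem_orbit_self x)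
      obtain ⟨a, ha, haE⟩ := hsec' x (MulAction.mem_orbit_self x) i0
      obtain ⟨b, hb, hbE⟩ := hsec' (s • x) ⟨s, rfl⟩ i0
      have h5 := key a ha b hb haE hbE
      exact ((hfull x (MulAction.mem_orbit_self x) a ha).trans h5).trans
        (hfull (s • x) ⟨s, rfl⟩ b hb).symm
  calc actionCost Γ X μ + k ≤ dcost μ D + k := by
        gcongr; exact actionCost_le_dcost μ D hD hgen
    _ ≤ (∑ i, dcost μ (D2 i) + (t * ((k + 1) * δ) + δ)) + k := by gcongr
    _ = (∑ i, dcost μ (D2 i) + k) + (t * ((k + 1) * δ) + δ) := by ring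
    _ ≤ (∑ i, actionCost (A i) X μ + k * (k + 2) * δ + 1) + (t * ((k + 1) * δ) + δ) := by
        gcongr
    _ = ∑ i, actionCost (A i) X μ + 1 + C * δ := by
        rw [hC]; push_cast; ring
    _ ≤ ∑ i, actionCost (A i) X μ + 1 + ε := by gcongr

end Main

end Vale.Agent.P189
end
end

section

section

set_option autoImplicit false

namespace Vale.Agent.P189

namespace CombAux

variable {Γ I : Type} [Group Γ]

/-- Two labelled positions are equivalent when they are `K`-linked. -/
def Eq' (K : I → Γ → I → Prop) (b w : Γ × I) : Prop := K b.2 (w.1 * b.1⁻¹) w.2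

/-- The labelled positions that are attached to the position `q`. -/
def Inc (K : I → Γ → I → Prop) (T : Finset Γ) (i0 : I) (q : Γ) (b : Γ × I) : Prop :=
  (∃ j : I, Eq' K b (q, j)) ∨ ∃ t ∈ T, Eq' K b (t * q, i0)

/-- Walks through positions, all of whose vertices satisfy `ok`. -/
def Wk (K : I → Γ → I → Prop) (T : Finset Γ) (i0 : I) (ok : Γ × I → Prop) :
    List Γ → Γ × I → Γ × I → Prop
  | [], b, w => ok b ∧ Eq' K b w
  | q :: Q, b, w => ok b ∧ Inc K T i0 q b ∧ ∃ u, Inc K T i0 q u ∧ Wk K T i0 ok Q u w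

/-- Right translation. -/
def tr (s : Γ) (b : Γ × I) : Γ × I := (b.1 * s, b.2)

section

variable {K : I → Γ → I → Prop} {T : Finset Γ} {i0 : I}
  (R : ∀ i, K i 1 i)
  (K2 : ∀ i j k s s', K i s j → K j s' k → K i (s' * s) k)
  (K3 : ∀ i j s, K i s j → K j s⁻¹ i)

include R in
theorem Eq'.refl (b : Γ × I) : Eq' K b b := by
  unfold Eq'
  simpa using R b.2

include K3 in
theorem Eq'.symm {b w : Γ × I} (h : Eq' K b w) : Eq' K w b := by
  unfold Eq' at *
  have := K3 _ _ _ h
  simpa using this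

include K2 in
theorem Eq'.trans {b w u : Γ × I} (h : Eq' K b w) (h' : Eq' K w u) : Eq' K b u := by
  unfold Eq' at *
  have := K2 _ _ _ _ _ h h'
  simpa [mul_assoc] using this

theorem Eq'.tr {b w : Γ × I} (h : Eq' K b w) (s : Γ) : Eq' K (tr s b) (tr s w) := by
  unfold Eq' CombAux.tr at *
  simpa [mul_assoc] using h

theorem tr_tr (s t : Γ) (b : Γ × I) : tr t (tr s b) = tr (s * t) b := by
  simp [tr, mul_assoc]

theorem tr_one (b : Γ × I) : tr 1 b = b := by
  simp [tr]

theorem Inc.tr {q : Γ} {b : Γ × I} (h : Inc K T i0 q b) (s : Γ) :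
    Inc K T i0 (q * s) (tr s b) := by
  rcases h with ⟨j, h⟩ | ⟨t, ht, h⟩
  · left
    exact ⟨j, h.tr s⟩
  · right
    refine ⟨t, ht, ?_⟩
    have := h.tr s
    simpa [CombAux.tr, mul_assoc] using this

include K2 K3 in
theorem Inc.congr {q : Γ} {b b' : Γ × I} (h : Inc K T i0 q b) (hb : Eq' K b b') :
    Inc K T i0 q b' := by
  rcases h with ⟨j, h⟩ | ⟨t, ht, h⟩
  · left
    exact ⟨j, Eq'.trans K2 (Eq'.symm K3 hb) h⟩
  · right
    exact ⟨t, ht, Eq'.trans K2 (Eq'.symm K3 hb) h⟩

variable {ok : Γ × I → Prop} (hok : ∀ b b', Eq' K b b' → ok b → ok b')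

include K2 K3 hok in
theorem Wk.congr_left {Q : List Γ} {b b' w : Γ × I} (h : Wk K T i0 ok Q b w)
    (hb : Eq' K b b') : Wk K T i0 ok Q b' w := by
  cases Q with
  | nil => exact ⟨hok _ _ hb h.1, Eq'.trans K2 (Eq'.symm K3 hb) h.2⟩
  | cons q Q => exact ⟨hok _ _ hb h.1, Inc.congr K2 K3 h.2.1 hb, h.2.2⟩

include K2 in
theorem Wk.congr_right {Q : List Γ} {b w w' : Γ × I} (h : Wk K T i0 ok Q b w)
    (hw : Eq' K w w') : Wk K T i0 ok Q b w' := by
  induction Q generalizing b with
  | nil => exact ⟨h.1, Eq'.trans K2 h.2 hw⟩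
  | cons q Q ih =>
    obtain ⟨h1, h2, u, h3, h4⟩ := h
    exact ⟨h1, h2, u, h3, ih h4⟩

include K2 K3 hok in
theorem Wk.append {Q Q' : List Γ} {b c w : Γ × I} (h : Wk K T i0 ok Q b c)
    (h' : Wk K T i0 ok Q' c w) : Wk K T i0 ok (Q ++ Q') b w := by
  induction Q generalizing b with
  | nil => exact Wk.congr_left K2 K3 hok h' (Eq'.symm K3 h.2)
  | cons q Q ih =>
    obtain ⟨h1, h2, u, h3, h4⟩ := h
    exact ⟨h1, h2, u, h3, ih h4⟩

include R in
theorem Wk.split {Q Q' : List Γ} {b w : Γ × I} (h : Wk K T i0 ok (Q ++ Q') b w) :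
    ∃ c, Wk K T i0 ok Q b c ∧ Wk K T i0 ok Q' c w := by
  induction Q generalizing b with
  | nil =>
    refine ⟨b, ⟨?_, Eq'.refl R b⟩, h⟩
    cases Q' with
    | nil => exact h.1
    | cons q Q' => exact h.1
  | cons q Q ih =>
    obtain ⟨h1, h2, u, h3, h4⟩ := h
    obtain ⟨c, h5, h6⟩ := ih h4
    exact ⟨c, ⟨h1, h2, u, h3, h5⟩, h6⟩

theorem Wk.ok_left {Q : List Γ} {b w : Γ × I} (h : Wk K T i0 ok Q b w) : ok b := by
  cases Q with
  | nil => exact h.1
  | cons q Q => exact h.1

include hok in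
theorem Wk.ok_right {Q : List Γ} {b w : Γ × I} (h : Wk K T i0 ok Q b w) : ok w := by
  induction Q generalizing b with
  | nil => exact hok _ _ h.2 h.1
  | cons q Q ih =>
    obtain ⟨h1, h2, u, h3, h4⟩ := h
    exact ih h4

theorem Wk.mono {ok' : Γ × I → Prop} (hh : ∀ b, ok b → ok' b) {Q : List Γ} {b w : Γ × I}
    (h : Wk K T i0 ok Q b w) : Wk K T i0 ok' Q b w := by
  induction Q generalizing b with
  | nil => exact ⟨hh _ h.1, h.2⟩
  | cons q Q ih =>
    obtain ⟨h1, h2, u, h3, h4⟩ := h
    exact ⟨hh _ h1, h2, u, h3, ih h4⟩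

theorem Wk.tr {ok' : Γ × I → Prop} {s : Γ} (hh : ∀ b, ok b → ok' (tr s b)) {Q : List Γ}
    {b w : Γ × I} (h : Wk K T i0 ok Q b w) :
    Wk K T i0 ok' (Q.map (· * s)) (tr s b) (tr s w) := by
  induction Q generalizing b with
  | nil => exact ⟨hh _ h.1, h.2.tr s⟩
  | cons q Q ih =>
    obtain ⟨h1, h2, u, h3, h4⟩ := h
    exact ⟨hh _ h1, h2.tr s, CombAux.tr s u, h3.tr s, ih h4⟩

include K2 K3 in
/-- A walk either avoids the class of `v` or passes through it. -/
theorem Wk.avoid_or {Q : List Γ} {b w v : Γ × I} (h : Wk K T i0 (fun _ => True) Q b w) :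
    Wk K T i0 (fun c => ¬ Eq' K c v) Q b w ∨
      ∃ Q1 Q2, Q = Q1 ++ Q2 ∧ Wk K T i0 (fun _ => True) Q1 b v ∧
        Wk K T i0 (fun _ => True) Q2 v w := by
  induction Q generalizing b with
  | nil =>
    by_cases hb : Eq' K b v
    · right
      refine ⟨[], [], rfl, ⟨trivial, hb⟩, ⟨trivial, ?_⟩⟩
      exact Eq'.trans K2 (Eq'.symm K3 hb) h.2
    · left
      exact ⟨hb, h.2⟩
  | cons q Q ih =>
    by_cases hb : Eq' K b v
    · right
      refine ⟨[], q :: Q, rfl, ⟨trivial, hb⟩, ?_⟩
      exact Wk.congr_left K2 K3 (fun _ _ _ _ => trivial) h hb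
    · obtain ⟨h1, h2, u, h3, h4⟩ := h
      rcases ih h4 with h5 | ⟨Q1, Q2, hQ, h5, h6⟩
      · left
        exact ⟨hb, h2, u, h3, h5⟩
      · right
        refine ⟨q :: Q1, Q2, by simp [hQ], ⟨trivial, h2, u, h3, h5⟩, h6⟩

/-- The finite set of representatives of the classes attached to a position. -/
noncomputable def ends (T : Finset Γ) (i0 : I) [Fintype I] (q : Γ) : Finset (Γ × I) := by
  classical
  exact (Finset.univ.image fun j : I => (q, j)) ∪ T.image fun t => (t * q, i0)

include K2 K3 hok in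
theorem Wk.from_position [Fintype I] {Q : List Γ} {b w : Γ × I} (h : Wk K T i0 ok Q b w)
    {q : Γ} (hq : q ∈ Q) :
    ∃ x ∈ ends T i0 q, ∃ Q' : List Γ, Q'.length < Q.length ∧ Wk K T i0 ok Q' x w := by
  classical
  induction Q generalizing b with
  | nil => simp at hq
  | cons p Q ih =>
    obtain ⟨h1, h2, u, h3, h4⟩ := h
    rcases List.mem_cons.1 hq with rfl | hq
    · rcases h3 with ⟨j, h3⟩ | ⟨t, ht, h3⟩
      · refine ⟨(q, j), ?_, Q, by simp, Wk.congr_left K2 K3 hok h4 h3⟩
        simp [ends]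
      · refine ⟨(t * q, i0), ?_, Q, by simp, Wk.congr_left K2 K3 hok h4 h3⟩
        simp only [ends, Finset.mem_union, Finset.mem_image]
        right
        exact ⟨t, ht, rfl⟩
    · obtain ⟨x, hx, Q', hQ', h5⟩ := ih h4 hq
      exact ⟨x, hx, Q', by simp; omega, h5⟩

theorem Eq'.link {P : Set Γ} {b w : Γ × I} (h : Eq' K b w) :
    Relation.EqvGen (LinkStep K T i0 P) b w := by
  obtain ⟨g, i⟩ := b
  obtain ⟨g', i'⟩ := w
  exact Relation.EqvGen.rel _ _ (LinkStep.link _ _ _ _ h)

theorem Inc.link {P : Set Γ} {q : Γ} (hq : q ∈ P) {b : Γ × I} (h : Inc K T i0 q b) :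
    Relation.EqvGen (LinkStep K T i0 P) b (q, i0) := by
  rcases h with ⟨j, h⟩ | ⟨t, ht, h⟩
  · exact (h.link).trans _ _ _ (Relation.EqvGen.rel _ _ (LinkStep.opened _ _ _ hq))
  · exact (h.link).trans _ _ _
      (Relation.EqvGen.symm _ _ (Relation.EqvGen.rel _ _ (LinkStep.edge _ _ hq ht)))

theorem Wk.link {P : Set Γ} {Q : List Γ} {b w : Γ × I} (h : Wk K T i0 ok Q b w)
    (hQ : ∀ q ∈ Q, q ∈ P) : Relation.EqvGen (LinkStep K T i0 P) b w := by
  induction Q generalizing b with
  | nil => exact h.2.link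
  | cons q Q ih =>
    obtain ⟨h1, h2, u, h3, h4⟩ := h
    have hq : q ∈ P := hQ q (by simp)
    exact ((h2.link hq).trans _ _ _ ((h3.link hq).symm _ _)).trans _ _ _
      (ih h4 (fun q' hq' => hQ q' (by simp [hq'])))

/-- Hypothesis `K4`, in the form used below. -/
def ClosedUnder (K : I → Γ → I → Prop) (T : Finset Γ) (i0 : I) : Prop :=
  ∀ (i j : I) (s : Γ) (l : ℕ) (P : ℕ → Finset Γ),
      Pairwise (fun m n => Disjoint (P m) (P n)) → (∀ n, (P n).card ≤ l) →
      (∀ n, Relation.EqvGen (LinkStep K T i0 (P n : Set Γ)) (1, i) (s, j)) → K i s j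

/-- No two inequivalent vertices are joined by infinitely many disjoint bounded walks. -/
theorem no_disjoint_family (K4 : ClosedUnder K T i0) {b v : Γ × I} (l : ℕ)
    (Q : ℕ → List Γ) (hQl : ∀ n, (Q n).length ≤ l)
    (hdisj : Pairwise fun m n => List.Disjoint (Q m) (Q n))
    (hw : ∀ n, Wk K T i0 (fun _ => True) (Q n) b v) : Eq' K b v := by
  classical
  obtain ⟨g, i⟩ := b
  obtain ⟨h, j⟩ := v
  have key := K4 i j (h * g⁻¹) l (fun n => ((Q n).map (· * g⁻¹)).toFinset) ?_ ?_ ?_
  · exact key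
  · intro m n hmn
    have := hdisj hmn
    show Disjoint _ _
    rw [Finset.disjoint_left]
    intro a ha hb
    simp only [List.mem_toFinset, List.mem_map] at ha hb
    obtain ⟨x, hx, rfl⟩ := ha
    obtain ⟨y, hy, hxy⟩ := hb
    have : y = x := mul_right_cancel hxy
    subst this
    exact (hdisj hmn) hx hy
  · intro n
    refine (List.toFinset_card_le _).trans ?_
    simpa using hQl n
  · intro n
    have h1 := (hw n).tr (ok' := fun _ => True) (s := g⁻¹) (fun _ _ => trivial)
    have h2 := h1.link (P := ((((Q n).map (· * g⁻¹)).toFinset : Finset Γ) : Set Γ)) (by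
      intro q hq
      simpa using hq)
    simpa [CombAux.tr] using h2

include R K2 K3 in
/-- Only finitely many positions attached to `v` can be reached from `b` by a walk of bounded
length avoiding `v`. -/
theorem finite_positions [Fintype I] (K4 : ClosedUnder K T i0) (v : Γ × I) (l : ℕ) :
    ∀ b : Γ × I, ¬ Eq' K b v →
      {p : Γ | ∃ w, ∃ Q : List Γ, Q.length ≤ l ∧ Wk K T i0 (fun c => ¬ Eq' K c v) Q b w ∧
        Inc K T i0 p w ∧ Inc K T i0 p v}.Finite := by
  classical
  have hok : ∀ b b' : Γ × I, Eq' K b b' → ¬ Eq' K b v → ¬ Eq' K b' v := fun b b' h h1 h2 =>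
    h1 (Eq'.trans K2 h h2)
  induction l using Nat.strong_induction_on with
  | _ l ih =>
  intro b hb
  by_contra hinf
  set S : Set Γ := {p : Γ | ∃ w, ∃ Q : List Γ, Q.length ≤ l ∧
    Wk K T i0 (fun c => ¬ Eq' K c v) Q b w ∧ Inc K T i0 p w ∧ Inc K T i0 p v} with hS
  have hSinf : S.Infinite := hinf
  have h1 : ∀ p, p ∈ S → ∃ w, ∃ Q : List Γ, Q.length ≤ l ∧
    Wk K T i0 (fun c => ¬ Eq' K c v) Q b w ∧ Inc K T i0 p w ∧ Inc K T i0 p v := fun p hp => hp
  have : Nonempty (Γ × I) := ⟨b⟩
  choose! w Q hQl hwk hinc hincv using h1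
  let Rp : Γ → Finset Γ := fun p => insert p (Q p).toFinset
  have hq : ∃ q, {p | p ∈ S ∧ q ∈ Rp p}.Infinite := by
    by_contra hcon
    push Not at hcon
    have hcon' : ∀ q, {p | p ∈ S ∧ q ∈ Rp p}.Finite := hcon
    obtain ⟨f, hf1, hf2⟩ := exists_seq_of_forall_finset_exists' (fun p : Γ => p ∈ S)
      (fun x y => Disjoint (Rp x) (Rp y)) (by
        intro s hs
        have hfin : (⋃ q ∈ s.biUnion Rp, {p | p ∈ S ∧ q ∈ Rp p}).Finite :=
          Set.Finite.biUnion (Finset.finite_toSet _) (fun q _ => hcon' q)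
        obtain ⟨y, hy, hy'⟩ := hSinf.exists_notMem_finite hfin
        refine ⟨y, hy, fun x hx => ?_⟩
        rw [Finset.disjoint_left]
        intro a ha ha'
        apply hy'
        simp only [Set.mem_iUnion]
        exact ⟨a, Finset.mem_biUnion.2 ⟨x, hx, ha⟩, hy, ha'⟩)
    apply hb
    refine no_disjoint_family K4 (l + 1) (fun n => Q (f n) ++ [f n]) ?_ ?_ ?_
    · intro n
      have := hQl (f n) (hf1 n)
      simpa using this
    · intro m n hmn
      have := hf2 hmn
      intro a ha ha'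
      have h3 : a ∈ Rp (f m) := by
        simp only [List.mem_append, List.mem_singleton] at ha
        simp only [Rp, Finset.mem_insert, List.mem_toFinset]
        tauto
      have h4 : a ∈ Rp (f n) := by
        simp only [List.mem_append, List.mem_singleton] at ha'
        simp only [Rp, Finset.mem_insert, List.mem_toFinset]
        tauto
      exact Finset.disjoint_left.1 this h3 h4
    · intro n
      have h3 := (hwk (f n) (hf1 n)).mono (ok' := fun _ => True) (fun _ _ => trivial)
      refine Wk.append K2 K3 (fun _ _ _ _ => trivial) h3 ?_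
      exact ⟨trivial, hinc _ (hf1 n), v, hincv _ (hf1 n), trivial, Eq'.refl R v⟩
  obtain ⟨q, hq⟩ := hq
  have hq2 : {p | p ∈ S ∧ q ∈ Q p}.Infinite := by
    intro hfin
    apply hq
    refine (hfin.union (Set.finite_singleton q)).subset ?_
    intro p hp
    obtain ⟨hp1, hp2⟩ := hp
    simp only [Rp, Finset.mem_insert, List.mem_toFinset] at hp2
    rcases hp2 with rfl | hp2
    · right; rfl
    · left; exact ⟨hp1, hp2⟩
  have hpos : 0 < l := by
    obtain ⟨p, hp1, hp2⟩ := hq2.nonempty
    have h3 := hQl p hp1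
    have h4 := List.length_pos_of_mem hp2
    omega
  have hsub : {p | p ∈ S ∧ q ∈ Q p} ⊆ ⋃ x ∈ {x | x ∈ ends T i0 q ∧ ¬ Eq' K x v},
      {p : Γ | ∃ w, ∃ Q : List Γ, Q.length ≤ l - 1 ∧
        Wk K T i0 (fun c => ¬ Eq' K c v) Q x w ∧ Inc K T i0 p w ∧ Inc K T i0 p v} := by
    rintro p ⟨hp1, hp2⟩
    obtain ⟨x, hx, Q', hQ', h5⟩ := Wk.from_position K2 K3 hok (hwk p hp1) hp2
    simp only [Set.mem_iUnion]
    refine ⟨x, ⟨hx, h5.ok_left⟩, w p, Q', ?_, h5, hinc p hp1, hincv p hp1⟩
    have := hQl p hp1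
    omega
  refine hq2 (Set.Finite.subset ?_ hsub)
  refine Set.Finite.biUnion ((Finset.finite_toSet (ends T i0 q)).subset (fun x hx => hx.1)) ?_
  intro x hx
  exact ih (l - 1) (by omega) x hx.2

include K2 K3 in
theorem reach_list (A : I → Subgroup Γ) (K1 : ∀ i, ∀ a ∈ A i, K i a i) (R' : ∀ i, K i 1 i)
    (w : List Γ) (hw : ∀ x ∈ w, (∃ i, x ∈ A i) ∨ x ∈ T) (g : Γ) (i : I) :
    ∃ i', ∃ Q : List Γ, Q.length = w.length ∧
      Wk K T i0 (fun _ => True) Q (g, i) (w.prod * g, i') := by
  induction w with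
  | nil => exact ⟨i, [], rfl, trivial, by simpa using Eq'.refl R' (g, i)⟩
  | cons x w ih =>
    obtain ⟨i', Q, hQ, hwk⟩ := ih (fun y hy => hw y (by simp [hy]))
    rcases hw x (by simp) with ⟨k, hk⟩ | hx
    · refine ⟨k, Q ++ [w.prod * g], by simp [hQ], ?_⟩
      refine Wk.append K2 K3 (fun _ _ _ _ => trivial) hwk ?_
      refine ⟨trivial, Or.inl ⟨i', Eq'.refl R' _⟩, (w.prod * g, k),
        Or.inl ⟨k, Eq'.refl R' _⟩, trivial, ?_⟩
      have := K1 k x hk
      simpa [Eq', mul_assoc] using this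
    · refine ⟨i0, Q ++ [w.prod * g], by simp [hQ], ?_⟩
      refine Wk.append K2 K3 (fun _ _ _ _ => trivial) hwk ?_
      refine ⟨trivial, Or.inl ⟨i', Eq'.refl R' _⟩, (x * (w.prod * g), i0),
        Or.inr ⟨x, hx, Eq'.refl R' _⟩, trivial, ?_⟩
      simpa [mul_assoc] using Eq'.refl R' (x * (w.prod * g), i0)

include K2 K3 in
theorem reach_all (A : I → Subgroup Γ) (K1 : ∀ i, ∀ a ∈ A i, K i a i) (R' : ∀ i, K i 1 i)
    (m : ℕ) (hm : ∀ g : Γ, ∃ w : List Γ, w.length ≤ m ∧
      (∀ x ∈ w, (∃ i, x ∈ A i) ∨ x ∈ T) ∧ w.prod = g) (b w : Γ × I) :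
    ∃ Q : List Γ, Q.length ≤ m + 1 ∧ Wk K T i0 (fun _ => True) Q b w := by
  obtain ⟨g, i⟩ := b
  obtain ⟨h, j⟩ := w
  obtain ⟨u, hu1, hu2, hu3⟩ := hm (h * g⁻¹)
  obtain ⟨i', Q, hQ, hwk⟩ := reach_list K2 K3 (i0 := i0) A K1 R' u hu2 g i
  refine ⟨Q ++ [h], by simp; omega, ?_⟩
  refine Wk.append K2 K3 (fun _ _ _ _ => trivial) hwk ?_
  have hh : u.prod * g = h := by rw [hu3]; group
  rw [hh]
  exact ⟨trivial, Or.inl ⟨i', Eq'.refl R' _⟩, (h, j), Or.inl ⟨j, Eq'.refl R' _⟩, trivial,
    Eq'.refl R' _⟩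

end

end CombAux

open CombAux in
/-- The combinatorial core: a composable, invertible family of links that is closed under
infinitely many disjoint bounded connections is everything as soon as the group is boundedly
generated by the infinite subgroups `A i` and a finite set. -/
theorem comb {Γ I : Type} [Group Γ] [Fintype I] (A : I → Subgroup Γ)
    (hA : ∀ i, Infinite (A i)) (T : Finset Γ) (i0 : I) (K : I → Γ → I → Prop)
    (K1 : ∀ i, ∀ a ∈ A i, K i a i)
    (K2 : ∀ i j k s s', K i s j → K j s' k → K i (s' * s) k)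
    (K3 : ∀ i j s, K i s j → K j s⁻¹ i)
    (K4 : ∀ (i j : I) (s : Γ) (l : ℕ) (P : ℕ → Finset Γ),
      Pairwise (fun m n => Disjoint (P m) (P n)) → (∀ n, (P n).card ≤ l) →
      (∀ n, Relation.EqvGen (LinkStep K T i0 (P n : Set Γ)) (1, i) (s, j)) → K i s j)
    (m : ℕ)
    (hm : ∀ g : Γ, ∃ w : List Γ, w.length ≤ m ∧
      (∀ x ∈ w, (∃ i, x ∈ A i) ∨ x ∈ T) ∧ w.prod = g) :
    ∀ i s j, K i s j := by
  classical
  have R' : ∀ i, K i 1 i := fun i => K1 i 1 (one_mem _)
  -- it suffices that all labelled positions are equivalent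
  suffices hall : ∀ b w : Γ × I, Eq' K b w by
    intro i s j
    have := hall (1, i) (s, j)
    simpa [Eq'] using this
  by_contra hcon
  push Not at hcon
  -- the least uniform bound for the length of walks
  have hex : ∃ M : ℕ, ∀ b w : Γ × I, ∃ Q : List Γ, Q.length ≤ M ∧
      Wk K T i0 (fun _ => True) Q b w := ⟨m + 1, reach_all K2 K3 A K1 R' m hm⟩
  let M := Nat.find hex
  have hM : ∀ b w : Γ × I, ∃ Q : List Γ, Q.length ≤ M ∧
      Wk K T i0 (fun _ => True) Q b w := Nat.find_spec hex
  have hMpos : 0 < M := by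
    rcases Nat.eq_zero_or_pos M with h0 | h0
    · exfalso
      obtain ⟨b, w, hbw⟩ := hcon
      obtain ⟨Q, hQ, hwk⟩ := hM b w
      rw [h0] at hQ
      have : Q = [] := List.eq_nil_of_length_eq_zero (by omega)
      subst this
      exact hbw hwk.2
    · exact h0
  have hmin : ¬ ∀ b w : Γ × I, ∃ Q : List Γ, Q.length ≤ M - 1 ∧
      Wk K T i0 (fun _ => True) Q b w := Nat.find_min hex (by
        show M - 1 < M
        omega)
  push Not at hmin
  obtain ⟨v, u, hvu⟩ := hmin
  -- a walk of minimal length from `v` to `u`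
  obtain ⟨Q, hQM, hwk⟩ := hM v u
  have hQlen : Q.length = M := by
    by_contra hne
    exact hvu Q (by omega) hwk
  obtain ⟨Q', p, rfl⟩ : ∃ Q' p, Q = Q' ++ [p] := by
    rcases List.eq_nil_or_concat Q with h | ⟨Q', p, h⟩
    · subst h; simp at hQlen; omega
    · exact ⟨Q', p, by simpa using h⟩
  have hQ'len : Q'.length = M - 1 := by
    simp at hQlen; omega
  obtain ⟨c, hvc, -, hpc, u', hpu', -, hu'u⟩ := Wk.split R' hwk
  have hpu : Inc K T i0 p u := Inc.congr K2 K3 hpu' hu'u
  have hvc' : Wk K T i0 (fun b => ¬ Eq' K b u) Q' v c := by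
    rcases Wk.avoid_or K2 K3 (v := u) hvc with h | ⟨Q1, Q2, hQ12, h1, h2⟩
    · exact h
    · exfalso
      refine hvu Q1 ?_ h1
      have := congrArg List.length hQ12
      simp at this
      omega
  have hvu0 : ¬ Eq' K v u := fun h => hvu [] (by simp) ⟨trivial, h⟩
  -- the stabilizer of the class of `u`
  obtain ⟨g, i⟩ := u
  have hstab : ∀ a ∈ A i, Eq' K (tr (g⁻¹ * a * g) (g, i)) (g, i) := by
    intro a ha
    have := K1 i a⁻¹ (inv_mem ha)
    simpa [Eq', tr, mul_assoc] using this
  have hfin := finite_positions R' K2 K3 K4 (g, i) (M + (M - 1)) v hvu0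
  have hmaps : ∀ a : A i, p * (g⁻¹ * a * g) ∈ {p : Γ | ∃ w, ∃ Q : List Γ,
      Q.length ≤ M + (M - 1) ∧ Wk K T i0 (fun c => ¬ Eq' K c (g, i)) Q v w ∧
        Inc K T i0 p w ∧ Inc K T i0 p (g, i)} := by
    intro a
    set s : Γ := g⁻¹ * a * g with hs
    have hstab' : Eq' K (tr s (g, i)) (g, i) := hstab a a.2
    obtain ⟨Q1, hQ1, hwk1⟩ := hM v (tr s v)
    -- the walk from `v` to its translate avoids the class of `u`
    have havoid : Wk K T i0 (fun c => ¬ Eq' K c (g, i)) Q1 v (tr s v) := by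
      rcases Wk.avoid_or K2 K3 (v := (g, i)) hwk1 with h | ⟨Q2, Q3, hQ23, h2, h3⟩
      · exact h
      · exfalso
        have hlen := congrArg List.length hQ23
        rw [List.length_append] at hlen
        have h4 : ¬ Q2.length ≤ M - 1 := fun h => hvu Q2 h h2
        have h5 : Q3 = [] := List.eq_nil_of_length_eq_zero (by omega)
        subst h5
        have h6 : Eq' K (g, i) (tr s v) := h3.2
        have h7 := Eq'.trans K2 hstab' h6
        have h8 := h7.tr s⁻¹
        rw [tr_tr, tr_tr, mul_inv_cancel, tr_one, tr_one] at h8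
        exact hvu0 (Eq'.symm K3 h8)
    have htr : Wk K T i0 (fun c => ¬ Eq' K c (g, i)) (Q'.map (· * s)) (tr s v) (tr s c) := by
      refine hvc'.tr ?_
      intro b hb hb'
      apply hb
      have h7 := Eq'.trans K2 hb' (Eq'.symm K3 hstab')
      have h8 := h7.tr s⁻¹
      rwa [tr_tr, tr_tr, mul_inv_cancel, tr_one, tr_one] at h8
    have hokc : ∀ b b' : Γ × I, Eq' K b b' → ¬ Eq' K b (g, i) → ¬ Eq' K b' (g, i) :=
      fun b b' h h1 h2 => h1 (Eq'.trans K2 h h2)
    refine ⟨tr s c, Q1 ++ Q'.map (· * s), ?_, Wk.append K2 K3 hokc havoid htr, hpc.tr s, ?_⟩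
    · simp; omega
    · exact Inc.congr K2 K3 (hpu.tr s) hstab'
  have hinj : Function.Injective fun a : A i => p * (g⁻¹ * a * g) := by
    intro a b hab
    simpa using hab
  have hinf : (Set.range fun a : A i => p * (g⁻¹ * (a : Γ) * g)).Infinite := by
    have := hA i
    exact Set.infinite_range_of_injective hinj
  exact hinf (hfin.subset (by
    rintro _ ⟨a, rfl⟩
    exact hmaps a))

end Vale.Agent.P189
end
end

section

section

set_option autoImplicit false

open MeasureTheory
open scoped ENNReal Pointwise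

namespace Vale.Agent.P189

/-- **Cost inequality.** If `Γ` is generated in bounded length by finitely many infinite
subgroups `A i` and a finite set `T`, then for every essentially free p.m.p. action
`cost Γ - 1 ≤ ∑ i, (cost (A i) - 1)`. -/
theorem cost_inequality {Γ X I : Type} [Group Γ] [Countable Γ] [MeasurableSpace X]
    [StandardBorelSpace X] (μ : Measure X) [IsProbabilityMeasure μ] [MulAction Γ X]
    [MeasurableConstSMul Γ X] [SMulInvariantMeasure Γ X μ] [Fintype I] [Nonempty I]
    (A : I → Subgroup Γ) (T : Finset Γ) (hA : ∀ i, Infinite (A i)) (m : ℕ)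
    (hm : ∀ g : Γ, ∃ w : List Γ, w.length ≤ m ∧ (∀ x ∈ w, (∃ i, x ∈ A i) ∨ x ∈ T) ∧
      w.prod = g)
    (hfree : EssentiallyFree Γ X μ) :
    actionCost Γ X μ + Fintype.card I ≤ ∑ i, actionCost (A i) X μ + 1 := by
  obtain ⟨i0⟩ := ‹Nonempty I›
  refine cost_bound μ A T i0 hfree hA fun s => ?_
  exact comb A hA T i0 (KRel (X := X) μ A T i0)
    (fun i a ha => KRel.of_mem μ A T i0 ha)
    (fun i j k s s' h1 h2 => KRel.comp μ A T i0 h1 h2)
    (fun i j s h => KRel.inv μ A T i0 h)
    (fun i j s l P hP hcard hlink => KRel.closure μ A T i0 hfree i j s l P hP hcard hlink)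
    m hm i0 s i0

/-- If `Γ` is infinite and generated in bounded length by finitely many infinite subgroups of
fixed price one and a finite set, then `Γ` has fixed price one. -/
theorem fixedPrice_one_of_bounded {Γ I : Type} [Group Γ] [Countable Γ] [Fintype I] [Nonempty I]
    (A : I → Subgroup Γ) (T : Finset Γ) (hA : ∀ i, Infinite (A i))
    (hA1 : ∀ i, HasFixedPrice (A i) 1) (m : ℕ)
    (hm : ∀ g : Γ, ∃ w : List Γ, w.length ≤ m ∧ (∀ x ∈ w, (∃ i, x ∈ A i) ∨ x ∈ T) ∧
      w.prod = g) : HasFixedPrice Γ 1 := by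
  intro X _ _ μ _ _ _ _ hfree
  obtain ⟨i0⟩ := ‹Nonempty I›
  haveI : Infinite Γ := by
    haveI := hA i0
    exact Infinite.of_injective (fun a : A i0 => (a : Γ)) Subtype.val_injective
  refine le_antisymm ?_ (one_le_actionCost μ hfree)
  haveI : Nonempty I := ⟨i0⟩
  have h := cost_inequality μ A T hA m hm hfree
  have h1 : ∀ i, actionCost (A i) X μ = 1 := fun i => hA1 i X μ (hfree.subgroup (A i))
  simp only [h1, Finset.sum_const, Finset.card_univ, nsmul_eq_mul, mul_one] at h
  rw [add_comm (Fintype.card I : ℝ≥0∞) 1] at h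
  exact (ENNReal.add_le_add_iff_right (ENNReal.natCast_ne_top _)).1 h

/-- The cost of an action of a cyclic group is at most one. -/
theorem actionCost_le_one_of_generator {Γ X : Type} [Group Γ] [Countable Γ]
    [MeasurableSpace X] (μ : Measure X) [IsProbabilityMeasure μ] [MulAction Γ X]
    [MeasurableConstSMul Γ X] [SMulInvariantMeasure Γ X μ] (a : Γ)
    (ha : ∀ g : Γ, g ∈ Subgroup.zpowers a) : actionCost Γ X μ ≤ 1 := by
  classical
  let D : Γ → Set X := fun g => if g = a then Set.univ else ∅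
  have hD : ∀ g, MeasurableSet (D g) := by
    intro g
    by_cases h : g = a <;> simp [D, h]
  have hstep : ∀ x : X, Conn D x (a • x) := fun x => Conn.of_mem (by simp [D])
  have hpow : ∀ (n : ℕ) (x : X), Conn D x (a ^ n • x) := by
    intro n
    induction n with
    | zero => intro x; simpa using Conn.refl D x
    | succ n ih =>
      intro x
      rw [pow_succ', mul_smul]
      exact (ih x).trans (hstep _)
  have hgen : Gen μ D := by
    refine Filter.Eventually.of_forall fun x g => ?_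
    obtain ⟨k, rfl⟩ := ha g
    obtain ⟨n, rfl | rfl⟩ := k.eq_nat_or_neg
    · simpa using hpow n x
    · have := hpow n ((a ^ n)⁻¹ • x)
      rw [smul_inv_smul] at this
      simpa using this.symm
  refine (actionCost_le_dcost μ D hD hgen).trans ?_
  have : dcost μ D = 1 := by
    unfold dcost
    rw [tsum_eq_single a]
    · simp [D]
    · intro g hg
      simp [D, hg]
  exact this.le

theorem fixedPrice_one_zpowers {Γ : Type} [Group Γ] [Countable Γ] (a : Γ)
    [Infinite (Subgroup.zpowers a)] : HasFixedPrice (Subgroup.zpowers a) 1 := by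
  intro X _ _ μ _ _ _ _ hfree
  refine le_antisymm ?_ (one_le_actionCost μ hfree)
  refine actionCost_le_one_of_generator μ (⟨a, Subgroup.mem_zpowers a⟩ : Subgroup.zpowers a) ?_
  rintro ⟨g, hg⟩
  obtain ⟨k, rfl⟩ := hg
  exact ⟨k, by ext; simp⟩

/-- A countable group that is a product of finitely many subgroups, each finite or of fixed
price one, is finite or of fixed price one. -/
theorem fixedPrice_one_of_product {Γ : Type} [Group Γ] [Countable Γ] [Infinite Γ] (n : ℕ)
    (A : Fin n → Subgroup Γ) (hA : ∀ i, Finite (A i) ∨ HasFixedPrice (A i) 1)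
    (hprod : ∀ g : Γ, ∃ a : Fin n → Γ, (∀ i, a i ∈ A i) ∧ (List.ofFn a).prod = g) :
    HasFixedPrice Γ 1 := by
  classical
  let I := {i : Fin n // Infinite (A i)}
  have hfin : ∀ i : Fin n, ¬ Infinite (A i) → Finite (A i) := fun i h =>
    not_infinite_iff_finite.1 h
  have hI : Nonempty I := by
    by_contra hcon
    rw [not_nonempty_iff] at hcon
    have hall : ∀ i, Finite (A i) := fun i => hfin i fun h => hcon.false ⟨i, h⟩
    let f : (∀ i, A i) → Γ := fun a => (List.ofFn fun i => (a i : Γ)).prod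
    have hf : Function.Surjective f := by
      intro g
      obtain ⟨a, ha, hg⟩ := hprod g
      exact ⟨fun i => ⟨a i, ha i⟩, hg⟩
    have : Finite Γ := Finite.of_surjective f hf
    exact not_finite Γ
  haveI : Fintype I := Fintype.ofFinite I
  have hTf : (⋃ i ∈ {i : Fin n | ¬ Infinite (A i)}, (A i : Set Γ)).Finite := by
    refine Set.Finite.biUnion (Set.toFinite _) fun i hi => ?_
    haveI := hfin i hi
    exact Set.toFinite (A i : Set Γ)
  refine fixedPrice_one_of_bounded (I := I) (fun i => A i.1) hTf.toFinset (fun i => i.2)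
    (fun i => ?_) n ?_
  · rcases hA i.1 with h | h
    · exact absurd i.2 (not_infinite_iff_finite.2 h)
    · exact h
  · intro g
    obtain ⟨a, ha, hg⟩ := hprod g
    refine ⟨List.ofFn a, by simp, ?_, hg⟩
    intro x hx
    obtain ⟨i, rfl⟩ := (List.mem_ofFn' _ _).1 hx
    by_cases hi : Infinite (A i)
    · exact Or.inl ⟨⟨i, hi⟩, ha i⟩
    · right
      rw [Set.Finite.mem_toFinset]
      exact Set.mem_biUnion (x := i) hi (ha i)

/-- Infinite boundedly generated groups have fixed price one. -/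
theorem fixedPrice_one_of_boundedly_generated {Γ : Type} [Group Γ] [Infinite Γ] (n : ℕ)
    (a : Fin n → Γ)
    (hprod : ∀ g : Γ, ∃ k : Fin n → ℤ, (List.ofFn fun i => a i ^ k i).prod = g) :
    HasFixedPrice Γ 1 := by
  haveI : Countable Γ := by
    refine Function.Surjective.countable
      (f := fun k : Fin n → ℤ => (List.ofFn fun i => a i ^ k i).prod) ?_
    exact hprod
  refine fixedPrice_one_of_product n (fun i => Subgroup.zpowers (a i)) (fun i => ?_) ?_
  · rcases finite_or_infinite (Subgroup.zpowers (a i)) with h | h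
    · exact Or.inl h
    · exact Or.inr (fixedPrice_one_zpowers (a i))
  · intro g
    obtain ⟨k, hk⟩ := hprod g
    exact ⟨fun i => a i ^ k i, fun i => ⟨k i, rfl⟩, hk⟩

end Vale.Agent.P189
end
end

section

section

set_option autoImplicit false

open MeasureTheory
open scoped ENNReal Pointwise

namespace Vale.Agent.P189

/-- All edges with label in `H`. -/
def full {Γ : Type} (Y : Type) [Group Γ] (H : Subgroup Γ) (h : Γ) : Set Y := {_y | h ∈ H}

/-- All edges with label in `H` and both ends in `E`. -/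
def restr {Γ Y : Type} [Group Γ] [MulAction Γ Y] (H : Subgroup Γ) (E : Set Y) (h : Γ) : Set Y :=
  {y | h ∈ H ∧ y ∈ E ∧ h • y ∈ E}

/-- `Alt A B s n g`: `g` is a product of `n ≥ 1` factors taken alternately from `A \ B` and
`B \ A`; the leftmost factor is in `A` iff `s = true`. -/
inductive Alt {Γ : Type} [Group Γ] (A B : Subgroup Γ) : Bool → ℕ → Γ → Prop
  | a (x : Γ) : x ∈ A → x ∉ B → Alt A B true 1 x
  | b (x : Γ) : x ∈ B → x ∉ A → Alt A B false 1 x
  | ca (x y : Γ) (n : ℕ) : x ∈ A → x ∉ B → Alt A B false n y → Alt A B true (n + 1) (x * y)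
  | cb (x y : Γ) (n : ℕ) : x ∈ B → x ∉ A → Alt A B true n y → Alt A B false (n + 1) (x * y)

/-- Normal form property: `⟨A, B⟩` is the amalgam of `A` and `B` over `A ⊓ B`. -/
def NormalForm {Γ : Type} [Group Γ] (A B : Subgroup Γ) : Prop :=
  ∀ s n g, 2 ≤ n → Alt A B s n g → g ∉ A ∧ g ∉ B

/-- Exactly two of the three points `g, p g, p² g` are in `S`, for all `g`. -/
def TwoOfThree {T G : Type} [Group G] [MulAction G T] (p : G) (S : Set T) : Prop :=
  ∀ g : T, (g ∉ S ∧ p • g ∈ S ∧ p • p • g ∈ S) ∨ (g ∈ S ∧ p • g ∉ S ∧ p • p • g ∈ S) ∨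
    (g ∈ S ∧ p • g ∈ S ∧ p • p • g ∉ S)

/-- Everything needed about the group. -/
structure GroupData (G : Type) [Group G] (p q t : G) : Prop where
  countable : Countable G
  p3 : p ^ 3 = 1
  q3 : q ^ 3 = 1
  p1 : p ≠ 1
  q1 : q ≠ 1
  tp : t * p = p * t
  tr : t * (q * p * q⁻¹) = (q * p * q⁻¹) * t
  tinf : ∀ n : ℕ, t ^ n = 1 → n = 0
  gen : Subgroup.closure {p, q, t} = ⊤
  nf : NormalForm (Subgroup.closure {p, q}) (Subgroup.closure {p, q * p * q⁻¹, t})
  inf : Subgroup.closure {p, q} ⊓ Subgroup.closure {p, q * p * q⁻¹, t} =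
    Subgroup.closure {p, q * p * q⁻¹}
  nf0 : NormalForm (Subgroup.zpowers p) (Subgroup.zpowers q)
  inf0 : Subgroup.zpowers p ⊓ Subgroup.zpowers q = ⊥
  lift : ∀ (V : Type) (α β : Equiv.Perm V), α ^ 3 = 1 → β ^ 3 = 1 →
    ∃ φ : G →* Equiv.Perm V, φ p = α ∧ φ q = β ∧ φ t = 1
  color : ∃ TP TN : Set G, Disjoint TP TN ∧ TwoOfThree p TP ∧ TwoOfThree q TN

/-- The Bernoulli space `{0,1}^(G × ℕ)`. -/
def Bern (G : Type) : Type := G × ℕ → Bool

instance (G : Type) : MeasurableSpace (Bern G) :=
  inferInstanceAs (MeasurableSpace (G × ℕ → Bool))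

instance (G : Type) [Countable G] : StandardBorelSpace (Bern G) :=
  inferInstanceAs (StandardBorelSpace (G × ℕ → Bool))

instance (G : Type) [Group G] : MulAction G (Bern G) where
  smul g x := fun z => x (g⁻¹ * z.1, z.2)
  one_smul x := by
    funext z
    show x ((1 : G)⁻¹ * z.1, z.2) = x z
    simp
  mul_smul g h x := by
    funext z
    show x ((g * h)⁻¹ * z.1, z.2) = x (h⁻¹ * (g⁻¹ * z.1), z.2)
    simp [mul_assoc]

theorem Bern.smul_apply {G : Type} [Group G] (g : G) (x : Bern G) (z : G × ℕ) :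
    (g • x) z = x (g⁻¹ * z.1, z.2) := rfl

/-- The fair coin measure on `Bool`. -/
noncomputable def fair : Measure Bool :=
  (2⁻¹ : ℝ≥0∞) • Measure.dirac true + (2⁻¹ : ℝ≥0∞) • Measure.dirac false

instance : IsProbabilityMeasure fair := by
  constructor
  simp [fair, ENNReal.inv_two_add_inv_two]

/-- The Bernoulli measure. -/
noncomputable def bernMeasure (G : Type) : Measure (Bern G) :=
  Measure.infinitePi (fun _ : G × ℕ => fair)

end Vale.Agent.P189
end
end

section

section

set_option autoImplicit false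

open MeasureTheory
open scoped ENNReal Pointwise

namespace Vale.Agent.P189

instance bern_prob (G : Type) : IsProbabilityMeasure (bernMeasure G) :=
  inferInstanceAs (IsProbabilityMeasure (Measure.infinitePi (fun _ : G × ℕ => fair)))

instance bern_meas (G : Type) [Group G] : MeasurableConstSMul G (Bern G) where
  measurable_const_smul g := by
    refine measurable_pi_iff.2 fun z => ?_
    exact measurable_pi_apply (X := fun _ : G × ℕ => Bool) (g⁻¹ * z.1, z.2)

theorem fair_singleton (b : Bool) : fair {b} = 2⁻¹ := by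
  cases b <;> simp [fair]

/-- Measure of a cylinder set. -/
theorem bern_cylinder {G : Type} (s : Finset (G × ℕ)) (a : G × ℕ → Bool) :
    bernMeasure G {x | ∀ z ∈ s, x z = a z} = (2⁻¹ : ℝ≥0∞) ^ s.card := by
  have h := Measure.infinitePi_pi (fun _ : G × ℕ => fair) (s := s) (t := fun z => {a z})
    (fun z _ => measurableSet_singleton (a z))
  simp only [fair_singleton, Finset.prod_const] at h
  rw [← h]
  rfl

theorem bern_map_inj {G : Type} (f : G × ℕ → G × ℕ) (hf : Function.Injective f) :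
    (bernMeasure G).map (fun (x : Bern G) z => x (f z)) = bernMeasure G :=
  Measure.map_infinitePi_infinitePi_of_inj (P := fun _ : G × ℕ => fair) hf

instance bern_inv (G : Type) [Group G] [Countable G] :
    SMulInvariantMeasure G (Bern G) (bernMeasure G) where
  measure_preimage_smul g s hs := by
    have h : (bernMeasure G).map (fun x : Bern G => g • x) = bernMeasure G :=
      bern_map_inj (G := G) (fun z => (g⁻¹ * z.1, z.2)) (by
        rintro ⟨a, n⟩ ⟨b, m⟩ hab
        simp only [Prod.mk.injEq, mul_right_inj] at hab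
        exact Prod.ext hab.1 hab.2)
    have h2 := Measure.map_apply (μ := bernMeasure G) (measurable_const_smul g) hs
    rw [h] at h2
    exact h2.symm

theorem bern_free (G : Type) [Group G] [Countable G] :
    EssentiallyFree G (Bern G) (bernMeasure G) := by
  classical
  intro g hg
  have hg' : g⁻¹ ≠ 1 := fun h => hg (inv_eq_one.1 h)
  have key : ∀ N : ℕ, bernMeasure G {x : Bern G | g • x = x} ≤ (2⁻¹ : ℝ≥0∞) ^ N := by
    intro N
    let s : Finset (G × ℕ) := (({g⁻¹, 1} : Finset G) ×ˢ Finset.range N)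
    have hs : s.card = 2 * N := by
      simp only [s, Finset.card_product, Finset.card_range, Finset.card_pair hg']
    let c : (Fin N → Bool) → (G × ℕ → Bool) := fun a z =>
      if h : z.2 < N then a ⟨z.2, h⟩ else true
    have hsub : {x : Bern G | g • x = x} ⊆
        ⋃ a : Fin N → Bool, {x : Bern G | ∀ z ∈ s, x z = c a z} := by
      intro x hx
      have hx' : g • x = x := hx
      refine Set.mem_iUnion.2 ⟨fun n => x (1, n), ?_⟩
      intro z hz
      simp only [s, Finset.mem_product, Finset.mem_insert, Finset.mem_singleton,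
        Finset.mem_range] at hz
      obtain ⟨h1, h2⟩ := hz
      have h3 : c (fun n => x (1, (n : ℕ))) z = x (1, z.2) := by
        simp only [c, h2, dif_pos]
      rw [h3]
      rcases h1 with h1 | h1
      · have h4 := congrFun hx' (1, z.2)
        rw [Bern.smul_apply] at h4
        rw [← h4]
        congr 1
        exact Prod.ext (by simp [h1]) rfl
      · congr 1
        exact Prod.ext (by simp [h1]) rfl
    calc bernMeasure G {x : Bern G | g • x = x}
        ≤ bernMeasure G (⋃ a : Fin N → Bool, {x : Bern G | ∀ z ∈ s, x z = c a z}) :=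
          measure_mono hsub
      _ ≤ ∑' a : Fin N → Bool, bernMeasure G {x : Bern G | ∀ z ∈ s, x z = c a z} :=
          measure_iUnion_le _
      _ = ∑' _a : Fin N → Bool, (2⁻¹ : ℝ≥0∞) ^ (2 * N) := by
          refine tsum_congr fun a => ?_
          rw [bern_cylinder, hs]
      _ = (2 : ℝ≥0∞) ^ N * (2⁻¹ : ℝ≥0∞) ^ (2 * N) := by
          rw [tsum_fintype, Finset.sum_const, Finset.card_univ, Fintype.card_fun,
            Fintype.card_fin, Fintype.card_bool, nsmul_eq_mul]
          push_cast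
          rfl
      _ = (2⁻¹ : ℝ≥0∞) ^ N := by
          rw [two_mul, pow_add, ← mul_assoc, ← mul_pow, ENNReal.mul_inv_cancel (by simp) (by simp),
            one_pow, one_mul]
  refine le_antisymm ?_ bot_le
  have ht : Filter.Tendsto (fun N : ℕ => (2⁻¹ : ℝ≥0∞) ^ N) Filter.atTop (nhds 0) :=
    ENNReal.tendsto_pow_atTop_nhds_zero_of_lt_one (by simp)
  exact ge_of_tendsto' ht key

/-- Finite partitions into small pieces. -/
theorem bern_small (G : Type) [Group G] (N : ℕ) :
    ∃ (m : ℕ) (A : Fin m → Set (Bern G)), (∀ i, MeasurableSet (A i)) ∧ (⋃ i, A i = Set.univ) ∧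
      ∀ i, (bernMeasure G).real (A i) ≤ 1 / (N + 1) := by
  classical
  let e : Fin (Fintype.card (Fin N → Bool)) ≃ (Fin N → Bool) := (Fintype.equivFin _).symm
  let s : Finset (G × ℕ) := (({1} : Finset G) ×ˢ Finset.range N)
  have hs : s.card = N := by
    simp [s]
  let c : (Fin N → Bool) → (G × ℕ → Bool) := fun a z =>
    if h : z.2 < N then a ⟨z.2, h⟩ else true
  refine ⟨_, fun i => {x : Bern G | ∀ z ∈ s, x z = c (e i) z}, ?_, ?_, ?_⟩
  · intro i
    have : {x : Bern G | ∀ z ∈ s, x z = c (e i) z} =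
        ⋂ z ∈ s, (fun x : Bern G => x z) ⁻¹' {c (e i) z} := by
      ext x
      simp
    have h3 : MeasurableSet (⋂ z ∈ s, (fun x : Bern G => x z) ⁻¹' {c (e i) z}) :=
      Finset.measurableSet_biInter s fun z _ =>
        (measurable_pi_apply (X := fun _ : G × ℕ => Bool) z) (measurableSet_singleton _)
    rw [← this] at h3
    exact h3
  · refine Set.eq_univ_of_forall fun x => ?_
    refine Set.mem_iUnion.2 ⟨e.symm (fun n => x (1, n)), ?_⟩
    intro z hz
    simp only [s, Finset.mem_product, Finset.mem_singleton, Finset.mem_range] at hz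
    obtain ⟨h1, h2⟩ := hz
    simp only [Equiv.apply_symm_apply, c, h2, dif_pos]
    congr 1
    exact Prod.ext (by simp [h1]) rfl
  · intro i
    show ((bernMeasure G) {x : Bern G | ∀ z ∈ s, x z = c (e i) z}).toReal ≤ 1 / (N + 1)
    rw [bern_cylinder, hs, ENNReal.toReal_pow, ENNReal.toReal_inv]
    have h2 : ((N : ℝ) + 1) ≤ 2 ^ N := by
      have := Nat.lt_two_pow_self (n := N)
      exact_mod_cast this
    have h3 : ((2 : ℝ≥0∞).toReal)⁻¹ ^ N = 1 / 2 ^ N := by
      simp
    rw [h3]
    exact one_div_le_one_div_of_le (by positivity) h2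

end Vale.Agent.P189
end
end

section

section

set_option autoImplicit false

open MeasureTheory
open scoped ENNReal Pointwise

namespace Vale.Agent.P189

namespace RelCostAux

section Paths

variable {Γ X : Type} [Group Γ] [MulAction Γ X]

/-- `x` is joined to `g • x` by a path of length at most `n` whose labels multiply to `g`. -/
def pth (D : Γ → Set X) : ℕ → Γ → Set X
  | 0, g => {_x | g = 1}
  | n + 1, g => pth D n g ∪ ⋃ h : Γ, (pth D n h ∩
      ({x | h • x ∈ D (g * h⁻¹)} ∪ {x | g • x ∈ D (h * g⁻¹)}))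

theorem pth_mono (D : Γ → Set X) (g : Γ) {m n : ℕ} (h : m ≤ n) : pth D m g ⊆ pth D n g := by
  induction h with
  | refl => exact subset_rfl
  | step _ ih => exact ih.trans fun _ hx => Or.inl hx

theorem conn_of_pth {D : Γ → Set X} {n : ℕ} {g : Γ} {x : X} (hx : x ∈ pth D n g) :
    Conn D x (g • x) := by
  induction n generalizing g with
  | zero =>
    have : g = 1 := hx
    rw [this, one_smul]
    exact Conn.refl _ _
  | succ n ih =>
    rcases hx with hx | hx
    · exact ih hx
    · obtain ⟨h, hx1, hx2⟩ := Set.mem_iUnion.1 hx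
      refine (ih hx1).trans ?_
      rcases hx2 with hx2 | hx2
      · have h3 : h • x ∈ D (g * h⁻¹) := hx2
        have h4 := Conn.of_mem h3
        rwa [← mul_smul, inv_mul_cancel_right] at h4
      · have h3 : g • x ∈ D (h * g⁻¹) := hx2
        have h4 := Conn.of_mem h3
        rw [← mul_smul, inv_mul_cancel_right] at h4
        exact h4.symm

theorem pth_step {D : Γ → Set X} {n : ℕ} {g k : Γ} {x : X} (hx : x ∈ pth D n g)
    (h : g • x ∈ D k ∨ k • g • x ∈ D k⁻¹) : x ∈ pth D (n + 1) (k * g) := by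
  refine Or.inr (Set.mem_iUnion.2 ⟨g, hx, ?_⟩)
  rcases h with h | h
  · left
    show g • x ∈ D (k * g * g⁻¹)
    rwa [mul_inv_cancel_right]
  · right
    show (k * g) • x ∈ D (g * (k * g)⁻¹)
    rw [mul_smul, mul_inv_rev, mul_inv_cancel_left]
    exact h

theorem exists_pth {D : Γ → Set X} {x y : X} (h : Conn D x y) :
    (∀ g : Γ, ∀ z : X, (∃ n, z ∈ pth D n g) → g • z = x →
      ∃ n k, z ∈ pth D n k ∧ k • z = y) ∧
    (∀ g : Γ, ∀ z : X, (∃ n, z ∈ pth D n g) → g • z = y →
      ∃ n k, z ∈ pth D n k ∧ k • z = x) := by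
  induction h with
  | rel x y h =>
    obtain ⟨k, hk, rfl⟩ := h
    constructor
    · rintro g z ⟨n, hn⟩ rfl
      exact ⟨n + 1, k * g, pth_step hn (Or.inl hk), mul_smul _ _ _⟩
    · rintro g z ⟨n, hn⟩ hg
      refine ⟨n + 1, k⁻¹ * g, pth_step hn (Or.inr ?_), ?_⟩
      · rw [hg, inv_smul_smul, inv_inv]
        exact hk
      · rw [mul_smul, hg, inv_smul_smul]
  | refl x =>
    constructor
    · rintro g z ⟨n, hn⟩ hg
      exact ⟨n, g, hn, hg⟩
    · rintro g z ⟨n, hn⟩ hg
      exact ⟨n, g, hn, hg⟩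
  | symm x y _ ih => exact ⟨ih.2, ih.1⟩
  | trans x y z _ _ ih1 ih2 =>
    constructor
    · rintro g w hn hg
      obtain ⟨n, k, h1, h2⟩ := ih1.1 g w hn hg
      exact ih2.1 k w ⟨n, h1⟩ h2
    · rintro g w hn hg
      obtain ⟨n, k, h1, h2⟩ := ih2.2 g w hn hg
      exact ih1.2 k w ⟨n, h1⟩ h2

theorem conn_iff_pth (hfree : ∀ (g : Γ) (x : X), g • x = x → g = 1) (D : Γ → Set X)
    (x : X) (g : Γ) : Conn D x (g • x) ↔ ∃ n, x ∈ pth D n g := by
  constructor
  · intro h
    obtain ⟨n, k, h1, h2⟩ := (exists_pth h).1 1 x ⟨0, rfl⟩ (one_smul _ _)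
    have h3 : (g⁻¹ * k) • x = x := by rw [mul_smul, h2, inv_smul_smul]
    have h4 := hfree _ _ h3
    have h5 : g = k := (inv_mul_eq_one.1 h4)
    rw [h5]
    exact ⟨n, h1⟩
  · rintro ⟨n, hn⟩
    exact conn_of_pth hn

theorem measurableSet_pth [Countable Γ] [MeasurableSpace X] [MeasurableConstSMul Γ X]
    {D : Γ → Set X} (hD : ∀ g, MeasurableSet (D g)) (n : ℕ) (g : Γ) :
    MeasurableSet (pth D n g) := by
  induction n generalizing g with
  | zero => exact MeasurableSet.const _
  | succ n ih =>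
    refine (ih g).union (MeasurableSet.iUnion fun h => (ih h).inter ?_)
    exact ((hD _).preimage (measurable_const_smul h)).union
      ((hD _).preimage (measurable_const_smul g))

theorem measurableSet_conn [Countable Γ] [MeasurableSpace X] [MeasurableConstSMul Γ X]
    (hfree : ∀ (g : Γ) (x : X), g • x = x → g = 1)
    {D : Γ → Set X} (hD : ∀ g, MeasurableSet (D g)) (g : Γ) :
    MeasurableSet {x : X | Conn D x (g • x)} := by
  have : {x : X | Conn D x (g • x)} = ⋃ n, pth D n g := by
    ext x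
    simp only [Set.mem_ofPred_eq, Set.mem_iUnion]
    exact conn_iff_pth hfree D x g
  rw [this]
  exact MeasurableSet.iUnion fun n => measurableSet_pth hD n g

/-- Connectivity for an increasing union. -/
theorem conn_iUnion {D : ℕ → Γ → Set X} (hmono : ∀ m n, m ≤ n → ∀ g, D m g ⊆ D n g)
    {x y : X} (h : Conn (fun g => ⋃ n, D n g) x y) : ∃ n, Conn (D n) x y := by
  induction h with
  | rel x y h =>
    obtain ⟨g, hg, rfl⟩ := h
    obtain ⟨n, hn⟩ := Set.mem_iUnion.1 hg
    exact ⟨n, Conn.of_mem hn⟩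
  | refl x => exact ⟨0, Conn.refl _ _⟩
  | symm x y _ ih =>
    obtain ⟨n, hn⟩ := ih
    exact ⟨n, hn.symm⟩
  | trans x y z _ _ ih1 ih2 =>
    obtain ⟨n, hn⟩ := ih1
    obtain ⟨m, hm⟩ := ih2
    exact ⟨max n m, (Conn.mono (hmono n _ (le_max_left _ _)) hn).trans
      (Conn.mono (hmono m _ (le_max_right _ _)) hm)⟩

/-- If neighbouring points are connected then connected points are. -/
theorem conn_of_forall {D D' : Γ → Set X} (h : ∀ g x, x ∈ D g → Conn D' x (g • x)) {x y : X}
    (hc : Conn D x y) : Conn D' x y := by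
  induction hc with
  | rel x y hxy =>
    obtain ⟨g, hg, rfl⟩ := hxy
    exact h g x hg
  | refl x => exact Conn.refl _ _
  | symm x y _ ih => exact ih.symm
  | trans x y z _ _ ih1 ih2 => exact ih1.trans ih2

/-- If every generator is realised everywhere then the whole orbit relation is. -/
theorem conn_closure (D : Γ → Set X) (S : Set Γ) (h : ∀ s ∈ S, ∀ x : X, Conn D x (s • x))
    {g : Γ} (hg : g ∈ Subgroup.closure S) (x : X) : Conn D x (g • x) := by
  induction hg using Subgroup.closure_induction generalizing x with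
  | mem s hs => exact h s hs x
  | one => rw [one_smul]; exact Conn.refl _ _
  | mul a b _ _ iha ihb =>
    rw [mul_smul]
    exact (ihb x).trans (iha _)
  | inv a _ iha =>
    have := iha (a⁻¹ • x)
    rw [smul_inv_smul] at this
    exact this.symm

end Paths

end RelCostAux

open RelCostAux CompressAux

/-- Pointwise compression. -/
theorem compress_pointwise {Γ X : Type} [Group Γ] [Countable Γ] [MeasurableSpace X]
    (μ : Measure X) [IsFiniteMeasure μ] [MulAction Γ X]
    [MeasurableConstSMul Γ X] [SMulInvariantMeasure Γ X μ]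
    (D : Γ → Set X) (hD : ∀ g, MeasurableSet (D g))
    (E : Set X) (hE : MeasurableSet E) (hEc : ∀ x, ∃ e ∈ E, Conn D x e) :
    ∃ D' : Γ → Set X, (∀ g, MeasurableSet (D' g)) ∧
      (∀ g x, x ∈ D' g → x ∈ E ∧ g • x ∈ E) ∧
      (∀ x ∈ E, ∀ y ∈ E, Conn D x y → Conn D' x y) ∧
      dcost μ D' + μ Eᶜ ≤ dcost μ D := by
  obtain ⟨c, hc⟩ := exists_surjective_nat (Γ × Bool)
  refine ⟨newD D E c, measurable_newD hD hE hc, fun g x hx => newD_mem hc hx, ?_, ?_⟩
  · intro x hx y hy hxy
    have h1 := newD_conn (E := E) (c := c) hc hxy (subset_good hx)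
    rwa [rhoF_of_mem hc hx, rhoF_of_mem hc hy, one_smul, one_smul] at h1
  · have hgood : ∀ x, x ∈ good D E := by
      intro x
      obtain ⟨e, he, hxe⟩ := hEc x
      exact (conn_good hxe).2 (subset_good he)
    have h1 : Eᶜ = good D E \ E := by
      ext x
      exact ⟨fun h => ⟨hgood x, h⟩, fun h => h.2⟩
    rw [h1, ← tsum_rem hD hE μ hc]
    refine (add_le_add (dcost_newD_le hD hE μ hc) le_rfl).trans ?_
    rw [← ENNReal.tsum_add]
    refine ENNReal.tsum_le_tsum fun g => ?_
    rw [measure_sdiff (rem_subset g) (measurable_rem hD hE g).nullMeasurableSet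
      (measure_ne_top _ _)]
    rw [tsub_add_cancel_of_le (measure_mono (rem_subset g))]

/-- Keep finitely many labels. -/
theorem truncate {G X : Type} [Group G] [Countable G] [MeasurableSpace X]
    (μ : Measure X) [IsFiniteMeasure μ] [MulAction G X]
    [MeasurableConstSMul G X] [SMulInvariantMeasure G X μ]
    (hfree : ∀ (g : G) (x : X), g • x = x → g = 1)
    (C : Subgroup G) (q : G) (D : G → Set X) (hD : ∀ g, MeasurableSet (D g))
    (hgen : ∀ x : X, Conn (fun h => full X C h ∪ D h) x (q • x)) (η : ℝ≥0∞) (hη : 0 < η) :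
    ∃ D' : G → Set X, (∀ g, MeasurableSet (D' g)) ∧ {g | (D' g).Nonempty}.Finite ∧
      (∀ g, (D' g).Nonempty → (D g).Nonempty ∨ g = q) ∧
      (∀ x : X, Conn (fun h => full X C h ∪ D' h) x (q • x)) ∧
      dcost μ D' ≤ dcost μ D + η := by
  classical
  let _ : Encodable G := Encodable.ofCountable G
  let Dn : ℕ → G → Set X := fun n g => {x | Encodable.encode g < n ∧ x ∈ D g}
  have hDn : ∀ n g, MeasurableSet (Dn n g) := fun n g =>
    (MeasurableSet.const _).inter (hD g)
  let Fn : ℕ → G → Set X := fun n h => full X C h ∪ Dn n h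
  have hFn : ∀ n g, MeasurableSet (Fn n g) := fun n g =>
    (MeasurableSet.const _).union (hDn n g)
  have hmono : ∀ m n, m ≤ n → ∀ g, Fn m g ⊆ Fn n g := by
    intro m n hmn g
    refine Set.union_subset_union_right _ ?_
    rintro x ⟨h1, h2⟩
    exact ⟨lt_of_lt_of_le h1 hmn, h2⟩
  let bad : ℕ → Set X := fun n => {x | Conn (Fn n) x (q • x)}ᶜ
  have hbad : ∀ n, MeasurableSet (bad n) := fun n =>
    (measurableSet_conn hfree (hFn n) q).compl
  have hanti : Antitone bad := by
    intro m n hmn x hx hc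
    exact hx (Conn.mono (hmono m n hmn) hc)
  have hinter : ⋂ n, bad n = ∅ := by
    refine Set.eq_empty_of_forall_notMem fun x hx => ?_
    have h1 : Conn (fun g => ⋃ n, Fn n g) x (q • x) := by
      refine Conn.mono (fun g => ?_) (hgen x)
      rintro y (hy | hy)
      · exact Set.mem_iUnion.2 ⟨0, Or.inl hy⟩
      · exact Set.mem_iUnion.2 ⟨Encodable.encode g + 1, Or.inr ⟨Nat.lt_succ_self _, hy⟩⟩
    obtain ⟨n, hn⟩ := conn_iUnion hmono h1
    exact Set.mem_iInter.1 hx n hn
  have htend : Filter.Tendsto (μ ∘ bad) Filter.atTop (nhds (μ (⋂ n, bad n))) :=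
    tendsto_measure_iInter_atTop (fun n => (hbad n).nullMeasurableSet) hanti
      ⟨0, measure_ne_top _ _⟩
  rw [hinter, measure_empty] at htend
  obtain ⟨n, hn⟩ := (htend.eventually (gt_mem_nhds hη)).exists
  have hn' : μ (bad n) < η := hn
  refine ⟨fun g => Dn n g ∪ {x | g = q ∧ x ∈ bad n}, ?_, ?_, ?_, ?_, ?_⟩
  · intro g
    exact (hDn n g).union ((MeasurableSet.const _).inter (hbad n))
  · have h1 : ({g : G | Encodable.encode g < n} ∪ {q}).Finite := by
      refine Set.Finite.union ?_ (Set.finite_singleton q)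
      exact Set.Finite.preimage (fun a _ b _ h => Encodable.encode_injective h)
        (Set.finite_lt_nat n)
    refine h1.subset ?_
    rintro g ⟨x, hx | hx⟩
    · exact Or.inl hx.1
    · exact Or.inr hx.1
  · rintro g ⟨x, hx | hx⟩
    · exact Or.inl ⟨x, hx.2⟩
    · exact Or.inr hx.1
  · intro x
    by_cases hx : x ∈ bad n
    · exact Conn.of_mem (D := fun h => full X C h ∪ (Dn n h ∪ {x | h = q ∧ x ∈ bad n}))
        (Or.inr (Or.inr ⟨rfl, hx⟩))
    · have h1 : Conn (Fn n) x (q • x) := by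
        by_contra h
        exact hx h
      refine Conn.mono (fun g => ?_) h1
      rintro y (hy | hy)
      · exact Or.inl hy
      · exact Or.inr (Or.inl hy)
  · calc dcost μ (fun g => Dn n g ∪ {x | g = q ∧ x ∈ bad n})
        ≤ ∑' g, (μ (D g) + if g = q then μ (bad n) else 0) := by
          refine ENNReal.tsum_le_tsum fun g => ?_
          refine (measure_union_le _ _).trans (add_le_add ?_ ?_)
          · exact measure_mono fun x hx => hx.2
          · by_cases hg : g = q
            · simp [hg]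
            · simp [hg]
      _ = dcost μ D + μ (bad n) := by
          rw [ENNReal.tsum_add, tsum_ite_eq]
          rfl
      _ ≤ dcost μ D + η := by gcongr

/-- C(R_G) ≥ 1 + rc(R_G : R_B). -/
theorem relcost_add_one_le {G X : Type} [Group G] [Countable G] [MeasurableSpace X]
    [StandardBorelSpace X] (μ : Measure X) [IsProbabilityMeasure μ] [MulAction G X]
    [MeasurableConstSMul G X] [SMulInvariantMeasure G X μ]
    (hfree : ∀ (g : G) (x : X), g • x = x → g = 1)
    (B : Subgroup G) [Infinite B] (q : G) (hBq : B ⊔ Subgroup.zpowers q = ⊤)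
    (D : G → Set X) (hD : ∀ g, MeasurableSet (D g))
    (hgen : ∀ (x : X) (g : G), Conn D x (g • x)) (η : ℝ≥0∞) (hη : 0 < η) :
    ∃ D' : G → Set X, (∀ g, MeasurableSet (D' g)) ∧ {g | (D' g).Nonempty}.Finite ∧
      (∀ (x : X) (g : G), Conn (fun h => full X B h ∪ D' h) x (g • x)) ∧
      dcost μ D' + 1 ≤ dcost μ D + η := by
  classical
  have hη2 : 0 < η / 2 := ENNReal.half_pos hη.ne'
  have hfreeB : EssentiallyFree B X μ := by
    intro b hb
    have : {x : X | b • x = x} = ∅ := by
      refine Set.eq_empty_of_forall_notMem fun x hx => hb ?_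
      have h1 : (b : G) • x = x := hx
      exact Subtype.ext (hfree _ _ h1)
    rw [this, measure_empty]
  obtain ⟨E, hE, hμE, hEsec⟩ := exists_small_section (Γ := B) μ hfreeB hη2
  obtain ⟨D1, hD1, hD1E, hD1c, hD1cost⟩ := compress_pointwise μ D hD E hE (by
    intro x
    obtain ⟨b, hb⟩ := hEsec x
    exact ⟨b • x, hb, hgen x (b : G)⟩)
  have hB : ∀ (b : B) (x : X), Conn (fun h => full X B h ∪ D1 h) x ((b : G) • x) := fun b x =>
    Conn.of_mem (D := fun h => full X B h ∪ D1 h) (Or.inl b.2)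
  have hall : ∀ (x : X) (g : G), Conn (fun h => full X B h ∪ D1 h) x (g • x) := by
    intro x g
    obtain ⟨b, hb⟩ := hEsec x
    obtain ⟨b', hb'⟩ := hEsec (g • x)
    have h1 : Conn D ((b : G) • x) ((b' : G) • g • x) :=
      (hgen x b).symm.trans ((hgen x g).trans (hgen (g • x) b'))
    have h2 := hD1c _ hb _ hb' h1
    exact (hB b x).trans ((Conn.mono (fun g y hy => Or.inr hy) h2).trans (hB b' (g • x)).symm)
  obtain ⟨D2, hD2, hD2f, -, hD2c, hD2cost⟩ := truncate μ hfree B q D1 hD1
    (fun x => hall x q) (η / 2) hη2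
  refine ⟨D2, hD2, hD2f, ?_, ?_⟩
  · intro x g
    have hg : g ∈ Subgroup.closure ((B : Set G) ∪ {q}) := by
      have h1 : Subgroup.closure ((B : Set G) ∪ {q}) = ⊤ := by
        rw [Subgroup.closure_union, Subgroup.closure_eq, ← Subgroup.zpowers_eq_closure, hBq]
      rw [h1]
      trivial
    refine conn_closure _ _ ?_ hg x
    rintro s (hs | hs) y
    · exact Conn.of_mem (D := fun h => full X B h ∪ D2 h) (Or.inl hs)
    · have : s = q := hs
      rw [this]
      exact hD2c y
  · have h1 : (1 : ℝ≥0∞) ≤ μ Eᶜ + η / 2 := by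
      calc (1 : ℝ≥0∞) = μ (Eᶜ ∪ E) := by simp
        _ ≤ μ Eᶜ + μ E := measure_union_le _ _
        _ ≤ μ Eᶜ + η / 2 := by gcongr
    calc dcost μ D2 + 1 ≤ (dcost μ D1 + η / 2) + (μ Eᶜ + η / 2) := add_le_add hD2cost h1
      _ = (dcost μ D1 + μ Eᶜ) + (η / 2 + η / 2) := by ring
      _ ≤ dcost μ D + η := by
        rw [ENNReal.add_halves]
        gcongr

end Vale.Agent.P189
end
end

section

section

/-! Walsh functions on `T → Bool` with the fair coin measure: Parseval. -/

set_option autoImplicit false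

open MeasureTheory
open scoped ENNReal

namespace Vale.Agent.P189

namespace Walsh

variable {T : Type}

/-- The sign of a bit. -/
def sg (b : Bool) : ℝ := if b then -1 else 1

theorem sg_sq (b : Bool) : sg b * sg b = 1 := by cases b <;> simp [sg]

theorem sg_not (b : Bool) : sg (!b) = - sg b := by cases b <;> simp [sg]

theorem abs_sg (b : Bool) : |sg b| = 1 := by cases b <;> simp [sg]

/-- Walsh function. -/
noncomputable def chi (E : Finset T) (x : T → Bool) : ℝ := ∏ z ∈ E, sg (x z)

theorem measurable_sg : Measurable sg := measurable_of_countable _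

@[fun_prop]
theorem measurable_chi (E : Finset T) : Measurable (chi E) := by
  unfold chi
  exact Finset.measurable_prod _ (fun z _ => measurable_sg.comp (measurable_pi_apply z))

theorem abs_chi (E : Finset T) (x : T → Bool) : |chi E x| = 1 := by
  unfold chi
  rw [Finset.abs_prod]
  exact Finset.prod_eq_one (fun z _ => abs_sg _)

theorem chi_empty (x : T → Bool) : chi (∅ : Finset T) x = 1 := by simp [chi]

open Classical in
theorem chi_insert {E : Finset T} {z : T} (hz : z ∉ E) (x : T → Bool) :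
    chi (insert z E) x = sg (x z) * chi E x := by
  unfold chi
  rw [Finset.prod_insert hz]

open Classical in
/-- multiplication by one more sign -/
theorem sg_mul_chi (E : Finset T) (z : T) (x : T → Bool) :
    sg (x z) * chi E x = chi (if z ∈ E then E.erase z else insert z E) x := by
  split_ifs with h
  · conv_lhs => rw [← Finset.insert_erase h]
    rw [chi_insert (Finset.notMem_erase z E), ← mul_assoc, sg_sq, one_mul]
  · rw [chi_insert h]

open Classical in
theorem chi_mul_chi (E F : Finset T) (x : T → Bool) :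
    chi E x * chi F x = chi (symmDiff E F) x := by
  induction E using Finset.induction_on generalizing F with
  | empty => rw [chi_empty, one_mul, ← Finset.bot_eq_empty, bot_symmDiff]
  | insert z E hz ih =>
    rw [chi_insert hz, mul_assoc, ih, sg_mul_chi]
    congr 1
    ext w
    by_cases hw : w = z
    · subst hw
      split_ifs with h
      · simp only [Finset.mem_symmDiff, Finset.mem_erase, Finset.mem_insert] at h ⊢
        tauto
      · simp only [Finset.mem_symmDiff, Finset.mem_insert] at h ⊢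
        tauto
    · split_ifs with h
      · simp only [Finset.mem_symmDiff, Finset.mem_erase, Finset.mem_insert]
        tauto
      · simp only [Finset.mem_symmDiff, Finset.mem_insert]
        tauto

/-- The coin tossing measure. -/
noncomputable def coin (T : Type) : Measure (T → Bool) := Measure.infinitePi (fun _ : T => fair)

instance : IsProbabilityMeasure (coin T) :=
  inferInstanceAs (IsProbabilityMeasure (Measure.infinitePi (fun _ : T => fair)))

theorem fair_map_not : fair.map (fun b => !b) = fair := by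
  have hm : Measurable (fun b : Bool => !b) := measurable_of_countable _
  unfold fair
  rw [Measure.map_add _ _ hm, Measure.map_smul, Measure.map_smul,
    Measure.map_dirac' hm, Measure.map_dirac' hm, add_comm]
  simp

open Classical in
theorem coin_map_flip (z : T) :
    (coin T).map (fun x i => if i = z then !(x i) else x i) = coin T := by
  have h := Measure.infinitePi_map_pi (μ := fun _ : T => fair)
    (f := fun i b => if i = z then !b else b) (fun i => measurable_of_countable _)
  unfold coin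
  rw [h]
  congr 1
  funext i
  by_cases hi : i = z
  · simp only [hi, if_true]
    exact fair_map_not
  · simp only [hi, if_false]
    exact Measure.map_id'

open Classical in
theorem integral_chi (E : Finset T) (hE : E.Nonempty) : ∫ x, chi E x ∂(coin T) = 0 := by
  obtain ⟨z, hz⟩ := hE
  have hmeas : Measurable (fun (x : T → Bool) i => if i = z then !(x i) else x i) := by
    refine measurable_pi_lambda _ (fun i => ?_)
    by_cases hi : i = z
    · simp only [hi, if_true]
      exact (measurable_of_countable (fun b : Bool => !b)).comp (measurable_pi_apply z)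
    · simp only [hi, if_false]
      exact measurable_pi_apply i
  have h1 : ∫ x, chi E x ∂(coin T) = - ∫ x, chi E x ∂(coin T) := by
    conv_lhs => rw [← coin_map_flip z]
    rw [integral_map hmeas.aemeasurable (measurable_chi E).aestronglyMeasurable, ← integral_neg]
    congr 1
    funext x
    rw [← Finset.insert_erase hz, chi_insert (Finset.notMem_erase z E),
      chi_insert (Finset.notMem_erase z E)]
    simp only [if_true, sg_not]
    have : chi (E.erase z) (fun i => if i = z then !(x i) else x i) = chi (E.erase z) x := by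
      unfold chi
      refine Finset.prod_congr rfl (fun w hw => ?_)
      simp only [if_neg (Finset.ne_of_mem_erase hw)]
    rw [this]
    ring
  linarith

theorem integral_chi_empty : ∫ x, chi (∅ : Finset T) x ∂(coin T) = 1 := by
  simp [chi_empty]

theorem memLp_chi (E : Finset T) (p : ℝ≥0∞) : MemLp (chi E) p (coin T) := by
  refine MemLp.of_bound (measurable_chi E).aestronglyMeasurable 1 (Filter.Eventually.of_forall ?_)
  intro x
  rw [Real.norm_eq_abs, abs_chi]

/-- the Walsh functions as elements of `L²` -/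
noncomputable def e (E : Finset T) : Lp ℝ 2 (coin T) := (memLp_chi E 2).toLp (chi E)

theorem inner_toLp {f g : (T → Bool) → ℝ} (hf : MemLp f 2 (coin T)) (hg : MemLp g 2 (coin T)) :
    @inner ℝ _ _ (hf.toLp f) (hg.toLp g) = ∫ x, f x * g x ∂(coin T) := by
  rw [L2.inner_def]
  refine integral_congr_ae ?_
  filter_upwards [hf.coeFn_toLp, hg.coeFn_toLp] with x h1 h2
  rw [h1, h2]
  simp [mul_comm]

open Classical in
theorem orthonormal_e : Orthonormal ℝ (e : Finset T → Lp ℝ 2 (coin T)) := by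
  rw [orthonormal_iff_ite]
  intro E F
  unfold e
  rw [inner_toLp]
  have h : ∀ x, chi E x * chi F x = chi (symmDiff E F) x := chi_mul_chi E F
  simp only [h]
  split_ifs with hEF
  · subst hEF
    rw [symmDiff_self]
    exact integral_chi_empty
  · apply integral_chi
    rw [Finset.nonempty_iff_ne_empty]
    intro h0
    exact hEF (symmDiff_eq_bot.mp h0)

/-- cylinder functions integrate to zero against a function orthogonal to all Walsh functions -/
theorem cyl_zero {f : (T → Bool) → ℝ} (hf : Integrable f (coin T))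
    (h0 : ∀ E, ∫ x, f x * chi E x ∂(coin T) = 0) (s : Finset T) (α β : T → ℝ) (E : Finset T) :
    ∫ x, f x * ((∏ z ∈ s, (α z + β z * sg (x z))) * chi E x) ∂(coin T) = 0 := by
  classical
  induction s using Finset.induction_on generalizing E with
  | empty => simpa using h0 E
  | insert z s hz ih =>
    have hint : ∀ F, Integrable (fun x => f x * ((∏ z ∈ s, (α z + β z * sg (x z))) * chi F x))
        (coin T) := by
      intro F
      refine hf.mul_bdd (c := ∏ z ∈ s, (|α z| + |β z|)) ?_ ?_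
      · refine Measurable.aestronglyMeasurable ?_
        refine Measurable.mul ?_ (measurable_chi F)
        refine Finset.measurable_prod _ (fun z _ => ?_)
        exact (measurable_const.add
          (measurable_const.mul (measurable_sg.comp (measurable_pi_apply z))))
      · refine Filter.Eventually.of_forall (fun x => ?_)
        rw [Real.norm_eq_abs, abs_mul, abs_chi, mul_one, Finset.abs_prod]
        refine Finset.prod_le_prod (fun _ _ => abs_nonneg _) (fun w _ => ?_)
        calc |α w + β w * sg (x w)| ≤ |α w| + |β w * sg (x w)| := abs_add_le _ _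
          _ = |α w| + |β w| := by rw [abs_mul, abs_sg, mul_one]
    have h1 : ∀ x : T → Bool, f x * ((∏ z ∈ insert z s, (α z + β z * sg (x z))) * chi E x) =
        α z * (f x * ((∏ z ∈ s, (α z + β z * sg (x z))) * chi E x)) +
        β z * (f x * ((∏ z ∈ s, (α z + β z * sg (x z))) *
          chi (if z ∈ E then E.erase z else insert z E) x)) := by
      intro x
      rw [Finset.prod_insert hz, ← sg_mul_chi]
      ring
    simp only [h1]
    rw [integral_add ((hint E).const_mul _) ((hint _).const_mul _), integral_const_mul,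
      integral_const_mul, ih, ih]
    simp

theorem setIntegral_zero {f : (T → Bool) → ℝ} (hf : Integrable f (coin T))
    (h0 : ∀ E, ∫ x, f x * chi E x ∂(coin T) = 0) (A : Set (T → Bool)) (hA : MeasurableSet A) :
    ∫ x in A, f x ∂(coin T) = 0 := by
  classical
  have huniv : ∫ x, f x ∂(coin T) = 0 := by
    have := h0 ∅
    simpa [chi_empty] using this
  refine MeasurableSpace.induction_on_inter
    (C := fun A _ => ∫ x in A, f x ∂(coin T) = 0)
    (s := squareCylinders (fun _ : T => {s : Set Bool | MeasurableSet s})) ?_ ?_ ?_ ?_ ?_ ?_ A hA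
  · exact (generateFrom_squareCylinders (α := fun _ : T => Bool)).symm
  · exact isPiSystem_squareCylinders (fun _ => MeasurableSpace.isPiSystem_measurableSet)
      (fun _ => by simp)
  · simp
  · rintro B ⟨s, t, ht, rfl⟩
    have hmB : MeasurableSet ((s : Set T).pi t) :=
      MeasurableSet.pi s.countable_toSet (fun i _ => Set.to_countable (t i) |>.measurableSet)
    rw [← integral_indicator hmB]
    set α : T → ℝ := fun z => ((if false ∈ t z then 1 else 0) + (if true ∈ t z then 1 else 0)) / 2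
    set β : T → ℝ := fun z => ((if false ∈ t z then 1 else 0) - (if true ∈ t z then 1 else 0)) / 2
    have key : ∀ x : T → Bool, ((s : Set T).pi t).indicator f x =
        f x * ((∏ z ∈ s, (α z + β z * sg (x z))) * chi (∅ : Finset T) x) := by
      intro x
      rw [chi_empty, mul_one]
      have h2 : ∀ z, α z + β z * sg (x z) = if x z ∈ t z then 1 else 0 := by
        intro z
        simp only [α, β]
        cases h : x z
        · by_cases h1 : false ∈ t z <;> by_cases h2 : true ∈ t z <;> simp [sg, h1, h2] <;> norm_num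
        · by_cases h1 : false ∈ t z <;> by_cases h2 : true ∈ t z <;> simp [sg, h1, h2] <;> norm_num
      simp only [h2]
      by_cases hx : x ∈ (s : Set T).pi t
      · rw [Set.indicator_of_mem hx, Finset.prod_eq_one, mul_one]
        intro z hz
        rw [if_pos (hx z hz)]
      · rw [Set.indicator_of_notMem hx]
        have : ∃ z ∈ s, x z ∉ t z := by
          by_contra hcon
          push Not at hcon
          exact hx (fun z hz => hcon z hz)
        obtain ⟨z, hz, hzt⟩ := this
        rw [Finset.prod_eq_zero hz (by rw [if_neg hzt]), mul_zero]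
    simp only [key]
    exact cyl_zero hf h0 s α β ∅
  · intro B hB ih
    have := integral_add_compl hB hf
    rw [ih, huniv] at this
    linarith
  · intro F hd hm ih
    rw [integral_iUnion hm hd hf.integrableOn]
    simp [ih]

theorem span_e_orth :
    (Submodule.span ℝ (Set.range (e : Finset T → Lp ℝ 2 (coin T))))ᗮ = ⊥ := by
  rw [Submodule.eq_bot_iff]
  intro f hf
  rw [Submodule.mem_orthogonal] at hf
  have hfm : MemLp f 2 (coin T) := Lp.memLp f
  have hfi : Integrable f (coin T) := hfm.integrable (by norm_num)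
  have h0 : ∀ E, ∫ x, f x * chi E x ∂(coin T) = 0 := by
    intro E
    have h1 := hf (e E) (Submodule.subset_span ⟨E, rfl⟩)
    have h2 : f = hfm.toLp f := (Lp.toLp_coeFn f hfm).symm
    rw [h2] at h1
    unfold e at h1
    rw [inner_toLp] at h1
    rw [← h1]
    congr 1
    funext x
    ring
  have h3 : f =ᵐ[coin T] 0 := by
    refine Integrable.ae_eq_zero_of_forall_setIntegral_eq_zero hfi ?_
    intro s hs _
    exact setIntegral_zero hfi h0 s hs
  exact (Lp.eq_zero_iff_ae_eq_zero).mpr h3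

/-- Parseval. -/
theorem parseval {f : (T → Bool) → ℝ} (hf : MemLp f 2 (coin T)) :
    HasSum (fun E : Finset T => (∫ x, f x * chi E x ∂(coin T)) ^ 2)
      (∫ x, f x ^ 2 ∂(coin T)) := by
  let b := HilbertBasis.mkOfOrthogonalEqBot (orthonormal_e (T := T)) span_e_orth
  have h := b.hasSum_inner_mul_inner (hf.toLp f) (hf.toLp f)
  rw [inner_toLp] at h
  have hb : ∀ E, b E = e E := by
    intro E
    simp [b]
  have h1 : ∀ E, @inner ℝ _ _ (hf.toLp f) (b E) * @inner ℝ _ _ (b E) (hf.toLp f) =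
      (∫ x, f x * chi E x ∂(coin T)) ^ 2 := by
    intro E
    rw [hb]
    unfold e
    rw [inner_toLp, inner_toLp, sq]
    congr 2
    funext x
    ring
  simp only [h1] at h
  have h2 : ∀ x, f x * f x = f x ^ 2 := fun x => (sq _).symm
  simp only [h2] at h
  exact h

end Walsh

end Vale.Agent.P189
end
end

section

section

/-! Spectral gap of the Bernoulli action for `p`-invariant sets. -/

set_option autoImplicit false

open MeasureTheory
open scoped ENNReal

namespace Vale.Agent.P189

namespace Walsh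

/-- the pointwise inequality -/
theorem point_ineq (A B C x y z : ℝ) (hA : 0 ≤ A) (hB : 0 ≤ B) (hC : 0 ≤ C) (h : A + B + C = 1) :
    A * x ^ 2 + B * y ^ 2 + C * z ^ 2 ≤
      (1 - A) * x ^ 2 + (1 - B) * y ^ 2 + (1 - C) * z ^ 2 +
        ((x - y) ^ 2 + (y - z) ^ 2 + (z - x) ^ 2) := by
  have hC' : C = 1 - A - B := by linarith
  subst hC'
  nlinarith [mul_nonneg hA (add_nonneg (sq_nonneg (x - y - z)) (sq_nonneg (y - z))),
    mul_nonneg hB (add_nonneg (sq_nonneg (y - x - z)) (sq_nonneg (x - z))),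
    mul_nonneg hC (add_nonneg (sq_nonneg (z - x - y)) (sq_nonneg (x - y)))]

theorem summable_weight {I : Type} {w c : I → ℝ} (hw : Summable fun i => w i ^ 2)
    (hc0 : ∀ i, 0 ≤ c i) (hc1 : ∀ i, c i ≤ 1) : Summable fun i => c i * w i ^ 2 := by
  refine Summable.of_nonneg_of_le (fun i => mul_nonneg (hc0 i) (sq_nonneg _)) (fun i => ?_) hw
  nlinarith [hc1 i, sq_nonneg (w i)]

/-- sum of a function over a cycle of length three -/
theorem cycle_sum {I : Type} (Q : Equiv.Perm I) {f : I → ℝ} (hf : Summable f) :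
    (Summable fun i => f i + f (Q i) + f (Q (Q i))) ∧
      ∑' i, (f i + f (Q i) + f (Q (Q i))) = 3 * ∑' i, f i := by
  have h1 : Summable fun i => f (Q i) := (Equiv.summable_iff Q).mpr hf
  have h2 : Summable fun i => f (Q (Q i)) := (Equiv.summable_iff Q).mpr h1
  have e1 : ∑' i, f (Q i) = ∑' i, f i := Equiv.tsum_eq Q f
  have e2 : ∑' i, f (Q (Q i)) = ∑' i, f i := by
    rw [← e1]
    exact Equiv.tsum_eq Q (fun i => f (Q i))
  refine ⟨(hf.add h1).add h2, ?_⟩
  rw [Summable.tsum_add (hf.add h1) h2, Summable.tsum_add hf h1, e1, e2]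
  ring

theorem part_a {I : Type} (P : Equiv.Perm I) (w : I → ℝ) (hw : Summable fun i => w i ^ 2)
    (hP : ∀ i, w (P i) = w i)
    (a : I → ℝ) (ha0 : ∀ i, 0 ≤ a i) (ha1 : ∀ i, a i ≤ 1)
    (ha : ∀ i, w i ≠ 0 → a i + a (P i) + a (P (P i)) = 2) :
    3 * ∑' i, a i * w i ^ 2 = 2 * ∑' i, w i ^ 2 := by
  have sa := summable_weight hw ha0 ha1
  have h := (cycle_sum P sa).2
  rw [← h, ← tsum_mul_left]
  refine tsum_congr (fun i => ?_)
  rw [hP, hP, hP]
  by_cases h0 : w i = 0
  · simp [h0]
  · rw [← ha i h0]; ring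

theorem part_n {I : Type} (w : I → ℝ) (hw : Summable fun i => w i ^ 2)
    (a n : I → ℝ) (ha0 : ∀ i, 0 ≤ a i) (hn0 : ∀ i, 0 ≤ n i) (han : ∀ i, a i + n i ≤ 1)
    (h : 3 * ∑' i, a i * w i ^ 2 = 2 * ∑' i, w i ^ 2) :
    3 * ∑' i, n i * w i ^ 2 ≤ ∑' i, w i ^ 2 := by
  have sa := summable_weight hw ha0 (fun i => by linarith [han i, hn0 i])
  have sn := summable_weight hw hn0 (fun i => by linarith [han i, ha0 i])
  have h1 : ∑' i, (a i * w i ^ 2 + n i * w i ^ 2) ≤ ∑' i, w i ^ 2 := by
    refine Summable.tsum_le_tsum (fun i => ?_) (sa.add sn) hw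
    nlinarith [han i, sq_nonneg (w i)]
  rw [Summable.tsum_add sa sn] at h1
  linarith

theorem part_r {I : Type} (Q : Equiv.Perm I) (w : I → ℝ) (hw : Summable fun i => w i ^ 2)
    (hQ3 : ∀ i, Q (Q (Q i)) = i)
    (n : I → ℝ) (hn0 : ∀ i, 0 ≤ n i) (hn1 : ∀ i, n i ≤ 1)
    (hn : ∀ i, (w i ≠ 0 ∨ w (Q i) ≠ 0 ∨ w (Q (Q i)) ≠ 0) → n i + n (Q i) + n (Q (Q i)) = 2) :
    3 * ∑' i, (1 - n i) * w i ^ 2 ≤ 3 * ∑' i, n i * w i ^ 2 +
      3 * ∑' i, (w i - w (Q i)) ^ 2 := by
  have hwQ : Summable fun i => w (Q i) ^ 2 := (Equiv.summable_iff Q).mpr hw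
  have sd : Summable fun i => (w i - w (Q i)) ^ 2 := by
    refine Summable.of_nonneg_of_le (fun i => sq_nonneg _) (fun i => ?_)
      ((hw.mul_left 2).add (hwQ.mul_left 2))
    nlinarith [sq_nonneg (w i + w (Q i))]
  have sn := summable_weight hw hn0 hn1
  have sr : Summable fun i => (1 - n i) * w i ^ 2 :=
    summable_weight hw (fun i => by linarith [hn1 i]) (fun i => by linarith [hn0 i])
  obtain ⟨sr3, er3⟩ := cycle_sum Q sr
  obtain ⟨sn3, en3⟩ := cycle_sum Q sn
  obtain ⟨sd3, ed3⟩ := cycle_sum Q sd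
  rw [← er3, ← en3, ← ed3, ← Summable.tsum_add sn3 sd3]
  refine Summable.tsum_le_tsum (fun i => ?_) sr3 (sn3.add sd3)
  rw [hQ3]
  by_cases h0 : w i ≠ 0 ∨ w (Q i) ≠ 0 ∨ w (Q (Q i)) ≠ 0
  · have h2 := hn i h0
    have h3 := point_ineq (1 - n i) (1 - n (Q i)) (1 - n (Q (Q i))) (w i) (w (Q i)) (w (Q (Q i)))
      (by linarith [hn1 i]) (by linarith [hn1 (Q i)]) (by linarith [hn1 (Q (Q i))]) (by linarith)
    rw [sub_sub_cancel, sub_sub_cancel, sub_sub_cancel] at h3
    exact h3
  · push Not at h0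
    simp [h0.1, h0.2.1, h0.2.2]

/-- the discrete inequality -/
theorem discrete {I : Type} (P Q : Equiv.Perm I) (w : I → ℝ) (hw : Summable fun i => w i ^ 2)
    (hP : ∀ i, w (P i) = w i) (hQ3 : ∀ i, Q (Q (Q i)) = i)
    (a n : I → ℝ) (ha0 : ∀ i, 0 ≤ a i) (hn0 : ∀ i, 0 ≤ n i) (han : ∀ i, a i + n i ≤ 1)
    (ha : ∀ i, w i ≠ 0 → a i + a (P i) + a (P (P i)) = 2)
    (hn : ∀ i, (w i ≠ 0 ∨ w (Q i) ≠ 0 ∨ w (Q (Q i)) ≠ 0) → n i + n (Q i) + n (Q (Q i)) = 2) :
    1 / 3 * ∑' i, w i ^ 2 ≤ ∑' i, (w i - w (Q i)) ^ 2 := by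
  have ha1 : ∀ i, a i ≤ 1 := fun i => by linarith [han i, hn0 i]
  have hn1 : ∀ i, n i ≤ 1 := fun i => by linarith [han i, ha0 i]
  have sn := summable_weight hw hn0 hn1
  have e1 := part_a P w hw hP a ha0 ha1 ha
  have e2 := part_n w hw a n ha0 hn0 han e1
  have e3 := part_r Q w hw hQ3 n hn0 hn1 hn
  have e4 : ∑' i, (1 - n i) * w i ^ 2 = ∑' i, w i ^ 2 - ∑' i, n i * w i ^ 2 := by
    rw [← Summable.tsum_sub hw sn]
    exact tsum_congr (fun i => by ring)
  rw [e4] at e3
  linarith

/-! ### densities of a coloured set -/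

open Classical in
/-- proportion of points of `E` in `S` -/
noncomputable def dens {T : Type} (S : Set T) (E : Finset T) : ℝ :=
  (∑ z ∈ E, if z ∈ S then (1 : ℝ) else 0) / (E.card : ℝ)

theorem dens_nonneg {T : Type} (S : Set T) (E : Finset T) : 0 ≤ dens S E := by
  classical
  unfold dens
  refine div_nonneg (Finset.sum_nonneg (fun z _ => ?_)) (Nat.cast_nonneg _)
  split_ifs <;> norm_num

theorem dens_add_le {T : Type} {S S' : Set T} (h : Disjoint S S') (E : Finset T) :
    dens S E + dens S' E ≤ 1 := by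
  classical
  unfold dens
  rw [← add_div, ← Finset.sum_add_distrib]
  rcases E.eq_empty_or_nonempty with rfl | hE
  · simp
  rw [div_le_one (by exact_mod_cast hE.card_pos)]
  calc ∑ z ∈ E, ((if z ∈ S then (1 : ℝ) else 0) + if z ∈ S' then 1 else 0)
      ≤ ∑ z ∈ E, (1 : ℝ) := by
        refine Finset.sum_le_sum (fun z _ => ?_)
        by_cases h1 : z ∈ S
        · have h2 : z ∉ S' := fun h2 => Set.disjoint_left.mp h h1 h2
          simp [h1, h2]
        · by_cases h2 : z ∈ S' <;> simp [h1, h2]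
    _ = E.card := by simp

theorem dens_three {T : Type} (e : Equiv.Perm T) (S : Set T)
    (h : ∀ z, (z ∉ S ∧ e z ∈ S ∧ e (e z) ∈ S) ∨ (z ∈ S ∧ e z ∉ S ∧ e (e z) ∈ S) ∨
      (z ∈ S ∧ e z ∈ S ∧ e (e z) ∉ S)) (E : Finset T) (hE : E.Nonempty) :
    dens S E + dens S (E.map e.toEmbedding) + dens S ((E.map e.toEmbedding).map e.toEmbedding)
      = 2 := by
  classical
  unfold dens
  simp only [Finset.sum_map, Finset.card_map, Equiv.coe_toEmbedding]
  rw [← add_div, ← add_div, ← Finset.sum_add_distrib, ← Finset.sum_add_distrib]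
  have hc : (E.card : ℝ) ≠ 0 := by exact_mod_cast hE.card_pos.ne'
  rw [div_eq_iff hc]
  calc ∑ z ∈ E, (((if z ∈ S then (1 : ℝ) else 0) + if e z ∈ S then 1 else 0) +
        if e (e z) ∈ S then 1 else 0) = ∑ z ∈ E, (2 : ℝ) := by
        refine Finset.sum_congr rfl (fun z _ => ?_)
        rcases h z with h | h | h <;> simp only [h.1, h.2.1, h.2.2, if_true, if_false] <;> norm_num
    _ = 2 * E.card := by simp [mul_comm]

section Main

variable {G : Type} [Group G]

/-- left translation of `G × ℕ` -/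
def tr (g : G) : Equiv.Perm (G × ℕ) := (Equiv.mulLeft g).prodCongr (Equiv.refl ℕ)

theorem tr_apply (g : G) (z : G × ℕ) : tr g z = (g * z.1, z.2) := rfl

theorem tr_three {g : G} (hg : g ^ 3 = 1) (z : G × ℕ) : tr g (tr g (tr g z)) = z := by
  have : g * (g * (g * z.1)) = z.1 := by
    rw [← mul_assoc, ← mul_assoc, mul_assoc g g g, ← pow_three, hg, one_mul]
  simp [tr_apply, this]

/-- the shift -/
def sh (g : G) (x : G × ℕ → Bool) : G × ℕ → Bool := fun z => x (g⁻¹ * z.1, z.2)

theorem chi_tr (g : G) (E : Finset (G × ℕ)) (x : G × ℕ → Bool) :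
    chi (E.map (tr g).toEmbedding) (sh g x) = chi E x := by
  unfold chi
  rw [Finset.prod_map]
  refine Finset.prod_congr rfl (fun z _ => ?_)
  simp [tr_apply, sh]

theorem measurable_sh (g : G) : Measurable (sh g) :=
  measurable_pi_lambda _ (fun z => measurable_pi_apply _)

theorem map_sh (g : G) : (coin (G × ℕ)).map (sh g) = coin (G × ℕ) := by
  refine Measure.eq_infinitePi (fun _ : G × ℕ => fair) (fun s t ht => ?_)
  have hmt : MeasurableSet ((s : Set (G × ℕ)).pi t) :=
    MeasurableSet.pi s.countable_toSet (fun i _ => ht i)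
  rw [Measure.map_apply (measurable_sh g) hmt]
  have h1 : (sh g) ⁻¹' ((s : Set (G × ℕ)).pi t) =
      (((s.map (tr g⁻¹).toEmbedding : Finset (G × ℕ)) : Set (G × ℕ)).pi
        (fun z => t (tr g z))) := by
    ext x
    simp only [Set.mem_preimage, Set.mem_pi, Finset.coe_map, Set.mem_image, Finset.mem_coe,
      forall_exists_index, and_imp, Equiv.coe_toEmbedding]
    constructor
    · rintro h z w hw rfl
      have := h w hw
      simpa [tr_apply, sh] using this
    · intro h w hw
      have := h (tr g⁻¹ w) w hw rfl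
      simpa [tr_apply, sh] using this
  rw [h1]
  unfold coin
  rw [Measure.infinitePi_pi _ (fun i _ => ht _), Finset.prod_map]
  refine Finset.prod_congr rfl (fun z _ => ?_)
  simp [tr_apply]

theorem mp_sh (g : G) : MeasurePreserving (sh g) (coin (G × ℕ)) (coin (G × ℕ)) :=
  ⟨measurable_sh g, map_sh g⟩

/-- change of variables for Walsh coefficients -/
theorem coeff_sh (g : G) {f : (G × ℕ → Bool) → ℝ} (hf : Measurable f) (E : Finset (G × ℕ)) :
    ∫ x, f (sh g x) * chi E x ∂(coin (G × ℕ)) =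
      ∫ x, f x * chi (E.map (tr g).toEmbedding) x ∂(coin (G × ℕ)) := by
  conv_rhs => rw [← map_sh g]
  have hm : Measurable (fun x => f x * chi (E.map (tr g).toEmbedding) x) :=
    hf.mul (measurable_chi _)
  rw [integral_map (measurable_sh g).aemeasurable hm.aestronglyMeasurable]
  simp only [chi_tr]

/-- translation on finite subsets -/
def trF (g : G) : Equiv.Perm (Finset (G × ℕ)) := Equiv.finsetCongr (tr g)

theorem trF_apply (g : G) (E : Finset (G × ℕ)) : trF g E = E.map (tr g).toEmbedding := rfl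

theorem trF_three {g : G} (hg : g ^ 3 = 1) (E : Finset (G × ℕ)) :
    trF g (trF g (trF g E)) = E := by
  simp only [trF_apply, Finset.map_map]
  convert Finset.map_refl
  ext z
  · simp [tr_three hg z]
  · simp [tr_three hg z]

theorem trF_eq_empty (g : G) (E : Finset (G × ℕ)) : trF g E = ∅ ↔ E = ∅ := by
  rw [trF_apply, Finset.map_eq_empty]

theorem gap_core [Countable G] (p q : G) (hp : p ^ 3 = 1) (hq : q ^ 3 = 1)
    (TP TN : Set G) (hdisj : Disjoint TP TN) (hTP : TwoOfThree p TP) (hTN : TwoOfThree q TN)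
    (W : Set (G × ℕ → Bool)) (hW : MeasurableSet W) (hpW : ∀ x, sh p x ∈ W ↔ x ∈ W) :
    (1 / 3 : ℝ) * ((coin (G × ℕ)).real W * (coin (G × ℕ)).real Wᶜ) ≤
      (coin (G × ℕ)).real (symmDiff W ((fun x => sh q x) ⁻¹' W)) := by
  classical
  set μ := coin (G × ℕ) with hμ
  set f : (G × ℕ → Bool) → ℝ := W.indicator 1 with hf
  have hfm : Measurable f := measurable_one.indicator hW
  have hfb : ∀ x, |f x| ≤ 1 := by
    intro x
    by_cases hx : x ∈ W <;> simp [hf, hx]
  have hfL : MemLp f 2 μ := MemLp.of_bound hfm.aestronglyMeasurable 1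
    (Filter.Eventually.of_forall (fun x => by rw [Real.norm_eq_abs]; exact hfb x))
  set u : Finset (G × ℕ) → ℝ := fun E => ∫ x, f x * chi E x ∂μ with hu
  -- invariance under `p`
  have hup : ∀ E, u (trF p E) = u E := by
    intro E
    have h1 := coeff_sh p hfm E
    have h2 : ∀ x, f (sh p x) = f x := by
      intro x
      by_cases hx : x ∈ W
      · simp [hf, hx, (hpW x).mpr hx]
      · have : sh p x ∉ W := fun h => hx ((hpW x).mp h)
        simp [hf, hx, this]
    simp only [h2] at h1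
    exact h1.symm
  -- Parseval for `f`
  have hpar := parseval hfL
  have hf2 : ∫ x, f x ^ 2 ∂μ = μ.real W := by
    have : ∀ x, f x ^ 2 = W.indicator 1 x := by
      intro x
      by_cases hx : x ∈ W <;> simp [hf, hx]
    simp only [this]
    rw [integral_indicator_one hW]
  rw [hf2] at hpar
  have hu0 : u ∅ = μ.real W := by
    simp only [hu, chi_empty, mul_one, hf]
    rw [integral_indicator_one hW]
  -- the difference
  set v : (G × ℕ → Bool) → ℝ := fun x => f x - f (sh q x) with hv
  have hvm : Measurable v := hfm.sub (hfm.comp (measurable_sh q))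
  have hvL : MemLp v 2 μ := MemLp.of_bound hvm.aestronglyMeasurable 2
    (Filter.Eventually.of_forall (fun x => by
      rw [Real.norm_eq_abs]
      calc |v x| ≤ |f x| + |f (sh q x)| := abs_sub _ _
        _ ≤ 2 := by linarith [hfb x, hfb (sh q x)]))
  have hparv := parseval hvL
  have hv2 : ∫ x, v x ^ 2 ∂μ = μ.real (symmDiff W ((fun x => sh q x) ⁻¹' W)) := by
    have hm : MeasurableSet (symmDiff W ((fun x => sh q x) ⁻¹' W)) :=
      hW.symmDiff (measurable_sh q hW)
    have : ∀ x, v x ^ 2 = (symmDiff W ((fun x => sh q x) ⁻¹' W)).indicator 1 x := by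
      intro x
      by_cases hx : x ∈ W <;> by_cases hy : sh q x ∈ W <;>
        simp [hv, hf, hx, hy, Set.indicator, Set.mem_symmDiff]
    simp only [this]
    rw [integral_indicator_one hm]
  rw [hv2] at hparv
  have hcv : ∀ E, ∫ x, v x * chi E x ∂μ = u E - u (trF q E) := by
    intro E
    have h1 := coeff_sh q hfm E
    simp only [hu, trF_apply]
    rw [← h1, ← integral_sub]
    · exact integral_congr_ae (Filter.Eventually.of_forall (fun x => by simp only [hv]; ring))
    · exact (hfL.integrable (by norm_num)).mul_bdd (c := 1)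
        (measurable_chi E).aestronglyMeasurable
        (Filter.Eventually.of_forall (fun x => by rw [Real.norm_eq_abs, abs_chi]))
    · have : MemLp (fun x => f (sh q x)) 2 μ := MemLp.of_bound
        (hfm.comp (measurable_sh q)).aestronglyMeasurable 1
        (Filter.Eventually.of_forall (fun x => by rw [Real.norm_eq_abs]; exact hfb _))
      exact (this.integrable (by norm_num)).mul_bdd (c := 1)
        (measurable_chi E).aestronglyMeasurable
        (Filter.Eventually.of_forall (fun x => by rw [Real.norm_eq_abs, abs_chi]))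
  have hparv' : HasSum (fun E => (u E - u (trF q E)) ^ 2)
      (μ.real (symmDiff W ((fun x => sh q x) ⁻¹' W))) := by
    have h1 : (fun E : Finset (G × ℕ) => (∫ x, v x * chi E x ∂(coin (G × ℕ))) ^ 2) =
        fun E => (u E - u (trF q E)) ^ 2 := by
      funext E
      exact congrArg (fun r : ℝ => r ^ 2) (hcv E)
    rw [← h1]
    exact hparv
  -- remove the empty set
  set w : Finset (G × ℕ) → ℝ := fun E => if E = ∅ then 0 else u E with hw
  have hws : HasSum (fun E => w E ^ 2) (μ.real W - μ.real W ^ 2) := by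
    have h1 := hpar.sub (hasSum_ite_eq (∅ : Finset (G × ℕ)) (μ.real W ^ 2))
    have h2 : (fun E => w E ^ 2) = fun E : Finset (G × ℕ) =>
        (∫ x, f x * chi E x ∂μ) ^ 2 - (if E = ∅ then μ.real W ^ 2 else 0) := by
      funext E
      by_cases hE : E = ∅
      · subst hE
        have h3 : (∫ x, f x * chi (∅ : Finset (G × ℕ)) x ∂μ) = μ.real W := hu0
        rw [h3]
        simp [hw]
      · simp [hw, hE, hu]
    rw [h2]
    exact h1
  have hwP : ∀ E, w (trF p E) = w E := by
    intro E
    by_cases hE : E = ∅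
    · have : trF p E = E := by rw [(trF_eq_empty p E).mpr hE, hE]
      rw [this]
    · have : trF p E ≠ ∅ := fun h => hE ((trF_eq_empty p E).mp h)
      simp only [hw, hE, this, if_false]
      exact hup E
  have hwq : ∀ E, (w E - w (trF q E)) ^ 2 = (u E - u (trF q E)) ^ 2 := by
    intro E
    by_cases hE : E = ∅
    · have h1 : trF q E = E := by rw [(trF_eq_empty q E).mpr hE, hE]
      rw [h1]; simp
    · have : trF q E ≠ ∅ := fun h => hE ((trF_eq_empty q E).mp h)
      simp only [hw, hE, this, if_false]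
  have hwne : ∀ E, w E ≠ 0 → E ≠ ∅ := by
    intro E h hE
    exact h (by simp [hw, hE])
  have htwo : ∀ (g : G) (S : Set G), TwoOfThree g S → ∀ E : Finset (G × ℕ), E ≠ ∅ →
      dens {z : G × ℕ | z.1 ∈ S} E + dens {z : G × ℕ | z.1 ∈ S} (trF g E) +
        dens {z : G × ℕ | z.1 ∈ S} (trF g (trF g E)) = 2 := by
    intro g S hS E hE
    refine dens_three (tr g) {z : G × ℕ | z.1 ∈ S} (fun z => ?_) E
      (Finset.nonempty_iff_ne_empty.mpr hE)
    exact hS z.1
  have hmain := discrete (trF p) (trF q) w hws.summable hwP (trF_three hq)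
    (fun E => dens {z : G × ℕ | z.1 ∈ TP} E) (fun E => dens {z : G × ℕ | z.1 ∈ TN} E)
    (fun E => dens_nonneg _ E) (fun E => dens_nonneg _ E)
    (fun E => dens_add_le (S := {z : G × ℕ | z.1 ∈ TP}) (S' := {z : G × ℕ | z.1 ∈ TN})
      (Set.disjoint_left.mpr (fun _ h1 h2 => Set.disjoint_left.mp hdisj h1 h2)) E)
    (fun E h => htwo p TP hTP E (hwne E h))
    (fun E h => htwo q TN hTN E (by
      rcases h with h | h | h
      · exact hwne E h
      · exact fun hE => hwne _ h ((trF_eq_empty q E).mpr hE)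
      · exact fun hE => hwne _ h
          ((trF_eq_empty q (trF q E)).mpr ((trF_eq_empty q E).mpr hE))))
  rw [hws.tsum_eq] at hmain
  simp only [hwq] at hmain
  rw [hparv'.tsum_eq] at hmain
  have hcompl : μ.real Wᶜ = 1 - μ.real W := probReal_compl_eq_one_sub hW
  rw [hcompl]
  linarith [hmain]

end Main

end Walsh

theorem bern_gap {G : Type} [Group G] [Countable G] (p q : G) (hp : p ^ 3 = 1) (hq : q ^ 3 = 1)
    (TP TN : Set G) (hdisj : Disjoint TP TN) (hTP : TwoOfThree p TP) (hTN : TwoOfThree q TN)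
    (W : Set (Bern G)) (hW : MeasurableSet W) (hpW : ∀ x, p • x ∈ W ↔ x ∈ W) :
    (1 / 3 : ℝ) * ((bernMeasure G).real W * (bernMeasure G).real Wᶜ) ≤
      (bernMeasure G).real (symmDiff W ((fun x => q • x) ⁻¹' W)) :=
  Walsh.gap_core p q hp hq TP TN hdisj hTP hTN W hW hpW

end Vale.Agent.P189
end
end

section

section

set_option autoImplicit false

namespace Vale.Agent.P189

section

variable {Γ Ω X : Type} [Group Γ] [MulAction Γ X]

/-- Reduced alternating chains of steps of `k` (type `true`) and of `l` (type `false`). The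
Boolean is the type of the last step. -/
inductive Red (A B : Subgroup Γ) (pos : Ω → X) (k l : Setoid Ω) :
    Bool → ℕ → Γ → Ω → Ω → Prop
  | a (x : Γ) (w w' : Ω) : x ∈ A → x ∉ B → k w w' → pos w' = x • pos w →
      Red A B pos k l true 1 x w w'
  | b (x : Γ) (w w' : Ω) : x ∈ B → x ∉ A → l w w' → pos w' = x • pos w →
      Red A B pos k l false 1 x w w'
  | ca (x y : Γ) (n : ℕ) (w w' w'' : Ω) : x ∈ A → x ∉ B → Red A B pos k l false n y w w' →
      k w' w'' → pos w'' = x • pos w' → Red A B pos k l true (n + 1) (x * y) w w''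
  | cb (x y : Γ) (n : ℕ) (w w' w'' : Ω) : x ∈ B → x ∉ A → Red A B pos k l true n y w w' →
      l w' w'' → pos w'' = x • pos w' → Red A B pos k l false (n + 1) (x * y) w w''

variable {A B : Subgroup Γ} {pos : Ω → X} {k l : Setoid Ω}

theorem Red.alt {s : Bool} {n : ℕ} {g : Γ} {w w' : Ω} (h : Red A B pos k l s n g w w') :
    Alt A B s n g := by
  induction h with
  | a x w w' h1 h2 _ _ => exact Alt.a x h1 h2
  | b x w w' h1 h2 _ _ => exact Alt.b x h1 h2
  | ca x y n w w' w'' h1 h2 _ _ _ ih => exact Alt.ca x y n h1 h2 ih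
  | cb x y n w w' w'' h1 h2 _ _ _ ih => exact Alt.cb x y n h1 h2 ih

theorem Red.pos_eq {s : Bool} {n : ℕ} {g : Γ} {w w' : Ω} (h : Red A B pos k l s n g w w') :
    pos w' = g • pos w := by
  induction h with
  | a x w w' _ _ _ h => exact h
  | b x w w' _ _ _ h => exact h
  | ca x y n w w' w'' _ _ _ _ h ih => rw [h, ih, mul_smul]
  | cb x y n w w' w'' _ _ _ _ h ih => rw [h, ih, mul_smul]

theorem Red.one_le {s : Bool} {n : ℕ} {g : Γ} {w w' : Ω} (h : Red A B pos k l s n g w w') :
    1 ≤ n := by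
  cases h <;> omega

/-- Changing the last point of a reduced chain by a step which is in both relations. -/
theorem Red.cstep {s : Bool} {n : ℕ} {g : Γ} {w w' w'' : Ω}
    (h : Red A B pos k l s n g w w') (hk : k w' w'') (hl : l w' w'') {c : Γ} (hcA : c ∈ A)
    (hcB : c ∈ B) (hc : pos w'' = c • pos w') : Red A B pos k l s n (c * g) w w'' := by
  cases h with
  | a _ _ _ h1 h2 h3 h4 =>
    exact Red.a _ _ _ (A.mul_mem hcA h1) (fun h => h2 ((B.mul_mem_cancel_left hcB).1 h))
      (k.trans' h3 hk) (by rw [hc, h4, mul_smul])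
  | b _ _ _ h1 h2 h3 h4 =>
    exact Red.b _ _ _ (B.mul_mem hcB h1) (fun h => h2 ((A.mul_mem_cancel_left hcA).1 h))
      (l.trans' h3 hl) (by rw [hc, h4, mul_smul])
  | ca x y n _ w1 _ h1 h2 h3 h4 h5 =>
    rw [← mul_assoc]
    exact Red.ca _ _ _ _ w1 _ (A.mul_mem hcA h1)
      (fun h => h2 ((B.mul_mem_cancel_left hcB).1 h)) h3 (k.trans' h4 hk)
      (by rw [hc, h5, mul_smul])
  | cb x y n _ w1 _ h1 h2 h3 h4 h5 =>
    rw [← mul_assoc]
    exact Red.cb _ _ _ _ w1 _ (B.mul_mem hcB h1)
      (fun h => h2 ((A.mul_mem_cancel_left hcA).1 h)) h3 (l.trans' h4 hl)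
      (by rw [hc, h5, mul_smul])

/-- Either both relations hold, or there is a reduced chain. -/
def RedOr (A B : Subgroup Γ) (pos : Ω → X) (k l : Setoid Ω) (w w' : Ω) : Prop :=
  (k w w' ∧ l w w' ∧ ∃ c, c ∈ A ∧ c ∈ B ∧ pos w' = c • pos w) ∨
    ∃ s n g, Red A B pos k l s n g w w'

theorem RedOr.refl (w : Ω) : RedOr A B pos k l w w :=
  Or.inl ⟨k.refl' w, l.refl' w, 1, A.one_mem, B.one_mem, (one_smul _ _).symm⟩

theorem RedOr.cstep {w w' w'' : Ω} (h : RedOr A B pos k l w w') (hk : k w' w'') (hl : l w' w'')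
    {c : Γ} (hcA : c ∈ A) (hcB : c ∈ B) (hc : pos w'' = c • pos w') :
    RedOr A B pos k l w w'' := by
  rcases h with ⟨h1, h2, d, hdA, hdB, hd⟩ | ⟨s, n, g, h⟩
  · exact Or.inl ⟨k.trans' h1 hk, l.trans' h2 hl, c * d, A.mul_mem hcA hdA,
      B.mul_mem hcB hdB, by rw [hc, hd, mul_smul]⟩
  · exact Or.inr ⟨s, n, c * g, h.cstep hk hl hcA hcB hc⟩

theorem RedOr.kstep {w w' w'' : Ω}
    (hkl : ∀ w w', (∃ c, c ∈ A ∧ c ∈ B ∧ pos w' = c • pos w) → (k w w' ↔ l w w'))
    (h : RedOr A B pos k l w w') (hk : k w' w'') {x : Γ} (hx : x ∈ A)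
    (hpos : pos w'' = x • pos w') : RedOr A B pos k l w w'' := by
  by_cases hxB : x ∈ B
  · exact h.cstep hk ((hkl _ _ ⟨x, hx, hxB, hpos⟩).1 hk) hx hxB hpos
  rcases h with ⟨h1, h2, d, hdA, hdB, hd⟩ | ⟨s, n, g, h⟩
  · refine Or.inr ⟨true, 1, x * d, Red.a _ _ _ (A.mul_mem hx hdA) (fun h => hxB ?_)
      (k.trans' h1 hk) (by rw [hpos, hd, mul_smul])⟩
    exact (B.mul_mem_cancel_right hdB).1 h
  · cases h with
    | a _ _ _ h1 h2 h3 h4 =>
      have h5 : k w w'' := k.trans' h3 hk
      have h6 : pos w'' = (x * g) • pos w := by rw [hpos, h4, mul_smul]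
      by_cases hxy : x * g ∈ B
      · exact Or.inl ⟨h5, (hkl _ _ ⟨x * g, A.mul_mem hx h1, hxy, h6⟩).1 h5, x * g,
          A.mul_mem hx h1, hxy, h6⟩
      · exact Or.inr ⟨true, 1, x * g, Red.a _ _ _ (A.mul_mem hx h1) hxy h5 h6⟩
    | b _ _ _ h1 h2 h3 h4 =>
      exact Or.inr ⟨true, 2, x * g, Red.ca _ _ _ _ w' _ hx hxB (Red.b _ _ _ h1 h2 h3 h4) hk hpos⟩
    | ca y z n _ w1 _ h1 h2 h3 h4 h5 =>
      have h6 : k w1 w'' := k.trans' h4 hk
      have h7 : pos w'' = (x * y) • pos w1 := by rw [hpos, h5, mul_smul]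
      by_cases hxy : x * y ∈ B
      · exact RedOr.cstep (Or.inr ⟨false, n, z, h3⟩) h6
          ((hkl _ _ ⟨x * y, A.mul_mem hx h1, hxy, h7⟩).1 h6) (A.mul_mem hx h1) hxy h7
      · exact Or.inr ⟨true, n + 1, x * y * z, Red.ca _ _ _ _ w1 _ (A.mul_mem hx h1) hxy h3
          h6 h7⟩
    | cb y z n _ w1 _ h1 h2 h3 h4 h5 =>
      exact Or.inr ⟨true, n + 1 + 1, x * (y * z), Red.ca _ _ _ _ w' _ hx hxB
        (Red.cb _ _ _ _ w1 _ h1 h2 h3 h4 h5) hk hpos⟩

theorem RedOr.lstep {w w' w'' : Ω}
    (hkl : ∀ w w', (∃ c, c ∈ A ∧ c ∈ B ∧ pos w' = c • pos w) → (k w w' ↔ l w w'))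
    (h : RedOr A B pos k l w w') (hl : l w' w'') {x : Γ} (hx : x ∈ B)
    (hpos : pos w'' = x • pos w') : RedOr A B pos k l w w'' := by
  by_cases hxA : x ∈ A
  · exact h.cstep ((hkl _ _ ⟨x, hxA, hx, hpos⟩).2 hl) hl hxA hx hpos
  rcases h with ⟨h1, h2, d, hdA, hdB, hd⟩ | ⟨s, n, g, h⟩
  · refine Or.inr ⟨false, 1, x * d, Red.b _ _ _ (B.mul_mem hx hdB) (fun h => hxA ?_)
      (l.trans' h2 hl) (by rw [hpos, hd, mul_smul])⟩
    exact (A.mul_mem_cancel_right hdA).1 h
  · cases h with
    | b _ _ _ h1 h2 h3 h4 =>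
      have h5 : l w w'' := l.trans' h3 hl
      have h6 : pos w'' = (x * g) • pos w := by rw [hpos, h4, mul_smul]
      by_cases hxy : x * g ∈ A
      · exact Or.inl ⟨(hkl _ _ ⟨x * g, hxy, B.mul_mem hx h1, h6⟩).2 h5, h5, x * g,
          hxy, B.mul_mem hx h1, h6⟩
      · exact Or.inr ⟨false, 1, x * g, Red.b _ _ _ (B.mul_mem hx h1) hxy h5 h6⟩
    | a _ _ _ h1 h2 h3 h4 =>
      exact Or.inr ⟨false, 2, x * g, Red.cb _ _ _ _ w' _ hx hxA (Red.a _ _ _ h1 h2 h3 h4) hl hpos⟩
    | cb y z n _ w1 _ h1 h2 h3 h4 h5 =>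
      have h6 : l w1 w'' := l.trans' h4 hl
      have h7 : pos w'' = (x * y) • pos w1 := by rw [hpos, h5, mul_smul]
      by_cases hxy : x * y ∈ A
      · exact RedOr.cstep (Or.inr ⟨true, n, z, h3⟩)
          ((hkl _ _ ⟨x * y, hxy, B.mul_mem hx h1, h7⟩).2 h6) h6 hxy (B.mul_mem hx h1) h7
      · exact Or.inr ⟨false, n + 1, x * y * z, Red.cb _ _ _ _ w1 _ (B.mul_mem hx h1) hxy h3
          h6 h7⟩
    | ca y z n _ w1 _ h1 h2 h3 h4 h5 =>
      exact Or.inr ⟨false, n + 1 + 1, x * (y * z), Red.cb _ _ _ _ w' _ hx hxA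
        (Red.ca _ _ _ _ w1 _ h1 h2 h3 h4 h5) hl hpos⟩

theorem redOr_of_sup (hk : ∀ w w', k w w' → ∃ a ∈ A, pos w' = a • pos w)
    (hl : ∀ w w', l w w' → ∃ b ∈ B, pos w' = b • pos w)
    (hkl : ∀ w w', (∃ c, c ∈ A ∧ c ∈ B ∧ pos w' = c • pos w) → (k w w' ↔ l w w'))
    {w w' : Ω} (h : (k ⊔ l) w w') : RedOr A B pos k l w w' := by
  have key : ∀ w w' : Ω, Relation.EqvGen (fun x y => k x y ∨ l x y) w w' →
      ∀ v, RedOr A B pos k l v w ↔ RedOr A B pos k l v w' := by
    intro w w' h
    induction h with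
    | rel x y h =>
      intro v
      rcases h with h | h
      · constructor
        · intro hv
          obtain ⟨a, ha, hpos⟩ := hk _ _ h
          exact hv.kstep hkl h ha hpos
        · intro hv
          obtain ⟨a, ha, hpos⟩ := hk _ _ (k.symm' h)
          exact hv.kstep hkl (k.symm' h) ha hpos
      · constructor
        · intro hv
          obtain ⟨a, ha, hpos⟩ := hl _ _ h
          exact hv.lstep hkl h ha hpos
        · intro hv
          obtain ⟨a, ha, hpos⟩ := hl _ _ (l.symm' h)
          exact hv.lstep hkl (l.symm' h) ha hpos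
    | refl x => intro v; exact Iff.rfl
    | symm x y _ ih => intro v; exact (ih v).symm
    | trans x y z _ _ ih1 ih2 => intro v; exact (ih1 v).trans (ih2 v)
  rw [Setoid.sup_eq_eqvGen] at h
  exact (key w w' h w).1 (RedOr.refl w)

/-- Normal forms: if `k` and `l` agree above `A ∩ B` then everything generated by `k` and `l`
above `A` is in `k`. -/
theorem nf_lemma (hfree : ∀ (g : Γ) (x : X), g • x = x → g = 1) (A B : Subgroup Γ)
    (hnf : NormalForm A B) (pos : Ω → X) (k l : Setoid Ω)
    (hk : ∀ w w', k w w' → ∃ a ∈ A, pos w' = a • pos w)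
    (hl : ∀ w w', l w w' → ∃ b ∈ B, pos w' = b • pos w)
    (hkl : ∀ w w', (∃ c, c ∈ A ∧ c ∈ B ∧ pos w' = c • pos w) → (k w w' ↔ l w w'))
    {w w' : Ω} (h : (k ⊔ l) w w') (ha : ∃ a ∈ A, pos w' = a • pos w) : k w w' := by
  obtain ⟨a, haA, hpos⟩ := ha
  have huniq : ∀ g : Γ, pos w' = g • pos w → g = a := by
    intro g hg
    have h1 : (a⁻¹ * g) • pos w = pos w := by
      rw [mul_smul, ← hg, hpos, inv_smul_smul]
    exact (inv_mul_eq_one.1 (hfree _ _ h1)).symm
  rcases redOr_of_sup hk hl hkl h with h | ⟨s, n, g, h⟩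
  · exact h.1
  · have hg : g = a := huniq g h.pos_eq
    rcases Nat.lt_or_ge n 2 with hn | hn
    · have hn1 := h.one_le
      cases h with
      | a _ _ _ h1 h2 h3 h4 => exact h3
      | b _ _ _ h1 h2 h3 h4 => exact absurd (hg ▸ haA) h2
      | ca x y m _ _ _ _ _ h1 _ _ => have := h1.one_le; omega
      | cb x y m _ _ _ _ _ h1 _ _ => have := h1.one_le; omega
    · exact absurd (hg ▸ haA) (hnf s n g hn h.alt).1

/-- The symmetric version of `nf_lemma`. -/
theorem nf_lemma' (hfree : ∀ (g : Γ) (x : X), g • x = x → g = 1) (A B : Subgroup Γ)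
    (hnf : NormalForm A B) (pos : Ω → X) (k l : Setoid Ω)
    (hk : ∀ w w', k w w' → ∃ a ∈ A, pos w' = a • pos w)
    (hl : ∀ w w', l w w' → ∃ b ∈ B, pos w' = b • pos w)
    (hkl : ∀ w w', (∃ c, c ∈ A ∧ c ∈ B ∧ pos w' = c • pos w) → (k w w' ↔ l w w'))
    {w w' : Ω} (h : (k ⊔ l) w w') (hb : ∃ b ∈ B, pos w' = b • pos w) : l w w' := by
  obtain ⟨b, hbB, hpos⟩ := hb
  have huniq : ∀ g : Γ, pos w' = g • pos w → g = b := by
    intro g hg
    have h1 : (b⁻¹ * g) • pos w = pos w := by
      rw [mul_smul, ← hg, hpos, inv_smul_smul]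
    exact (inv_mul_eq_one.1 (hfree _ _ h1)).symm
  rcases redOr_of_sup hk hl hkl h with h | ⟨s, n, g, h⟩
  · exact h.2.1
  · have hg : g = b := huniq g h.pos_eq
    rcases Nat.lt_or_ge n 2 with hn | hn
    · have hn1 := h.one_le
      cases h with
      | b _ _ _ h1 h2 h3 h4 => exact h3
      | a _ _ _ h1 h2 h3 h4 => exact absurd (hg ▸ hbB) h2
      | ca x y m _ _ _ _ _ h1 _ _ => have := h1.one_le; omega
      | cb x y m _ _ _ _ _ h1 _ _ => have := h1.one_le; omega
    · exact absurd (hg ▸ hbB) (hnf s n g hn h.alt).2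

end

end Vale.Agent.P189
end
end

section

section

set_option autoImplicit false

namespace Vale.Agent.P189.Bar

/-! Finite combinatorics of equivalence relations, used in the barrier argument. -/

/-- Number of classes. -/
noncomputable def nc {F : Type} (r : Setoid F) : ℕ := Nat.card (Quotient r)

section basic

variable {F : Type} [Finite F]

theorem nc_anti {r s : Setoid F} (h : r ≤ s) : nc s ≤ nc r := by
  unfold nc
  refine Nat.card_le_card_of_surjective (Quotient.map' id fun a b hab => h hab) ?_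
  intro q
  induction q using Quotient.inductionOn with
  | h a => exact ⟨Quotient.mk _ a, rfl⟩

theorem nc_lt {r s : Setoid F} (h : r ≤ s) {a b : F} (hs : s a b) (hr : ¬ r a b) :
    nc s + 1 ≤ nc r := by
  unfold nc
  have : Finite (Quotient r) := Quotient.finite r
  have : Finite (Quotient s) := Quotient.finite s
  let f : Quotient r → Quotient s := Quotient.map' id fun a b hab => h hab
  have hf : Function.Surjective f := by
    intro q
    induction q using Quotient.inductionOn with
    | h a => exact ⟨Quotient.mk _ a, rfl⟩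
  have hle := Nat.card_le_card_of_surjective f hf
  rcases Nat.lt_or_ge (Nat.card (Quotient s)) (Nat.card (Quotient r)) with h1 | h1
  · exact h1
  · exfalso
    have heq : Nat.card (Quotient r) = Nat.card (Quotient s) := le_antisymm h1 hle
    have hbij : Function.Bijective f := by
      have := Fintype.ofFinite (Quotient r)
      have := Fintype.ofFinite (Quotient s)
      rw [Nat.card_eq_fintype_card, Nat.card_eq_fintype_card] at heq
      exact (Fintype.bijective_iff_surjective_and_card f).2 ⟨hf, heq⟩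
    have h2 : f (Quotient.mk r a) = f (Quotient.mk r b) := Quotient.sound hs
    exact hr (Quotient.exact (hbij.1 h2))

theorem nc_le_card (r : Setoid F) : nc r ≤ Nat.card F :=
  Nat.card_le_card_of_surjective (Quotient.mk r) Quotient.exists_rep

/-- Functions constant on classes. -/
def V (r : Setoid F) : Submodule ℚ (F → ℚ) where
  carrier := {f | ∀ a b, r a b → f a = f b}
  add_mem' := by
    intro f g hf hg a b h
    simp [hf a b h, hg a b h]
  zero_mem' := by
    intro a b _
    rfl
  smul_mem' := by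
    intro c f hf a b h
    simp [hf a b h]

omit [Finite F] in
theorem mem_V {r : Setoid F} {f : F → ℚ} : f ∈ V r ↔ ∀ a b, r a b → f a = f b := Iff.rfl

noncomputable def VEquiv (r : Setoid F) : (Quotient r → ℚ) ≃ₗ[ℚ] V r where
  toFun f := ⟨fun a => f (Quotient.mk r a), fun a b h => by
    show f _ = f _
    rw [Quotient.sound h]⟩
  map_add' _ _ := rfl
  map_smul' _ _ := rfl
  invFun f := Quotient.lift f.1 f.2
  left_inv f := by
    funext q
    induction q using Quotient.inductionOn with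
    | h a => rfl
  right_inv f := by
    ext a
    rfl

theorem finrank_V (r : Setoid F) : Module.finrank ℚ (V r) = nc r := by
  have : Finite (Quotient r) := Quotient.finite r
  have := Fintype.ofFinite (Quotient r)
  rw [← (VEquiv r).finrank_eq, Module.finrank_fintype_fun_eq_card, nc, Nat.card_eq_fintype_card]

omit [Finite F] in
theorem V_anti {r s : Setoid F} (h : r ≤ s) : V s ≤ V r :=
  fun _ hf a b hab => hf a b (h hab)

omit [Finite F] in
theorem V_eqvGen (R : F → F → Prop) (f : F → ℚ) :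
    f ∈ V (Relation.EqvGen.setoid R) ↔ ∀ a b, R a b → f a = f b := by
  constructor
  · intro h a b hab
    exact h a b (Relation.EqvGen.rel _ _ hab)
  · intro h a b hab
    induction hab with
    | rel a b hab => exact h a b hab
    | refl => rfl
    | symm a b _ ih => exact ih.symm
    | trans a b c _ _ ih1 ih2 => exact ih1.trans ih2

omit [Finite F] in
theorem V_sup (r s : Setoid F) : V (r ⊔ s) = V r ⊓ V s := by
  refine le_antisymm (le_inf (V_anti le_sup_left) (V_anti le_sup_right)) ?_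
  rintro f ⟨h1, h2⟩
  rw [Setoid.sup_eq_eqvGen]
  exact (V_eqvGen _ _).2 fun a b hab => hab.elim (h1 a b) (h2 a b)

/-- Submodularity. -/
theorem nc_submod {E L E' : Setoid F} (h1 : E ≤ L) (h2 : E ≤ E') :
    nc L + nc E' ≤ nc (L ⊔ E') + nc E := by
  rw [← finrank_V L, ← finrank_V E', ← finrank_V (L ⊔ E'), ← finrank_V E, V_sup,
    ← Submodule.finrank_sup_add_finrank_inf_eq (V L) (V E')]
  have : Module.finrank ℚ (V L ⊔ V E' : Submodule ℚ (F → ℚ)) ≤ Module.finrank ℚ (V E) :=
    Submodule.finrank_mono (sup_le (V_anti h1) (V_anti h2))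
  omega

/-- Adding one pair loses at most one class; generated relations have many classes. -/
theorem card_le_nc_add [DecidableEq F] (S : Finset (F × F)) :
    Nat.card F ≤ nc (Relation.EqvGen.setoid fun a b => (a, b) ∈ S) + S.card := by
  have := Fintype.ofFinite F
  induction S using Finset.induction_on with
  | empty =>
    have h : Module.finrank ℚ (V (Relation.EqvGen.setoid fun a b : F =>
        (a, b) ∈ (∅ : Finset (F × F)))) = Nat.card F := by
      have : V (Relation.EqvGen.setoid fun a b : F => (a, b) ∈ (∅ : Finset (F × F))) = ⊤ := by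
        rw [eq_top_iff]
        intro f _
        rw [V_eqvGen]
        simp
      rw [this, finrank_top, Module.finrank_fintype_fun_eq_card, Nat.card_eq_fintype_card]
    rw [← finrank_V, h]
    simp
  | insert p S hp ih =>
    rw [Finset.card_insert_of_notMem hp]
    let φ : (F → ℚ) →ₗ[ℚ] ℚ := LinearMap.proj (R := ℚ) (φ := fun _ : F => ℚ) p.1 -
      LinearMap.proj (R := ℚ) (φ := fun _ : F => ℚ) p.2
    have hV : V (Relation.EqvGen.setoid fun a b => (a, b) ∈ insert p S) =
        V (Relation.EqvGen.setoid fun a b => (a, b) ∈ S) ⊓ LinearMap.ker φ := by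
      ext f
      rw [Submodule.mem_inf, V_eqvGen, V_eqvGen]
      constructor
      · intro h
        refine ⟨fun a b hab => h a b (Finset.mem_insert_of_mem hab), ?_⟩
        have := h p.1 p.2 (Finset.mem_insert_self _ _)
        simp [φ, this]
      · rintro ⟨h, hk⟩ a b hab
        rcases Finset.mem_insert.1 hab with hab | hab
        · have : f p.1 - f p.2 = 0 := by simpa [φ] using hk
          rw [← hab] at this
          linarith
        · exact h a b hab
    have h1 := Submodule.finrank_sup_add_finrank_inf_eq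
      (V (Relation.EqvGen.setoid fun a b => (a, b) ∈ S)) (LinearMap.ker φ)
    have h2 : Module.finrank ℚ (V (Relation.EqvGen.setoid fun a b => (a, b) ∈ S) ⊔
        LinearMap.ker φ : Submodule ℚ (F → ℚ)) ≤ Module.finrank ℚ (F → ℚ) :=
      Submodule.finrank_le _
    have h3 := LinearMap.finrank_range_add_finrank_ker φ
    have h4 : Module.finrank ℚ (LinearMap.range φ) ≤ 1 := by
      have := Submodule.finrank_le (LinearMap.range φ)
      simpa using this
    rw [← hV, finrank_V, finrank_V] at h1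
    rw [Module.finrank_fintype_fun_eq_card, ← Nat.card_eq_fintype_card] at h2 h3
    omega

end basic

section incidence

variable {n : ℕ} {J : Type} [Finite J]

/-- Restriction of an equivalence relation on `Fin n × J` to the column over `k`. -/
abbrev col (r : Setoid (Fin n × J)) (k : Fin n) : Setoid J := Setoid.comap (fun j => (k, j)) r

/-- Number of positions met by a class. -/
noncomputable def pc (r : Setoid (Fin n × J)) (C : Quotient r) : ℕ :=
  Nat.card {k : Fin n // ∃ j, (Quotient.mk r (k, j)) = C}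

theorem sum_col (r : Setoid (Fin n × J)) :
    ∑ k, nc (col r k) = Nat.card {x : Quotient r × Fin n // ∃ j, Quotient.mk r (x.2, j) = x.1} := by
  have : Finite (Quotient r) := Quotient.finite r
  have h : ∀ k, Nat.card (Quotient (col r k)) =
      Nat.card {C : Quotient r // ∃ j, Quotient.mk r (k, j) = C} := by
    intro k
    refine Nat.card_congr ?_
    refine Equiv.ofBijective (fun q => ⟨Quotient.map' (fun j => (k, j)) (fun a b h => h) q, ?_⟩)
      ⟨?_, ?_⟩
    · induction q using Quotient.inductionOn with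
      | h j => exact ⟨j, rfl⟩
    · intro q q' hqq'
      induction q using Quotient.inductionOn with
      | h a =>
        induction q' using Quotient.inductionOn with
        | h b =>
          have h1 : Quotient.mk r (k, a) = Quotient.mk r (k, b) := congrArg Subtype.val hqq'
          have h2 : r (k, a) (k, b) := Quotient.exact h1
          exact Quotient.sound h2
    · rintro ⟨C, j, rfl⟩
      exact ⟨Quotient.mk _ j, rfl⟩
  unfold nc
  simp_rw [h]
  rw [← Nat.card_sigma]
  refine Nat.card_congr ?_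
  refine ⟨fun x => ⟨(x.2.1, x.1), x.2.2⟩, fun x => ⟨x.1.2, x.1.1, x.2⟩, ?_, ?_⟩
  · rintro ⟨k, C, h⟩; rfl
  · rintro ⟨⟨C, k⟩, h⟩; rfl

theorem sum_col_eq_sum_pc (r : Setoid (Fin n × J)) [Fintype (Quotient r)] :
    ∑ k, nc (col r k) = ∑ C : Quotient r, pc r C := by
  rw [sum_col]
  unfold pc
  rw [← Nat.card_sigma]
  refine Nat.card_congr ?_
  refine ⟨fun x => ⟨x.1.1, x.1.2, x.2⟩, fun x => ⟨(x.1, x.2.1), x.2.2⟩, ?_, ?_⟩
  · rintro ⟨⟨C, k⟩, h⟩; rfl
  · rintro ⟨C, k, h⟩; rfl

/-- If every class stays in one column, the numbers of classes add up. -/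
theorem nc_eq_sum_col (r : Setoid (Fin n × J)) (h : ∀ a b, r a b → a.1 = b.1) :
    nc r = ∑ k, nc (col r k) := by
  have : Finite (Quotient r) := Quotient.finite r
  have := Fintype.ofFinite (Quotient r)
  rw [sum_col_eq_sum_pc]
  have h1 : ∀ C : Quotient r, pc r C = 1 := by
    intro C
    induction C using Quotient.inductionOn with
    | h a =>
      unfold pc
      rw [Nat.card_eq_one_iff_unique]
      refine ⟨⟨?_⟩, ⟨⟨a.1, a.2, rfl⟩⟩⟩
      rintro ⟨k, j, hk⟩ ⟨k', j', hk'⟩
      have e1 := h _ _ (Quotient.exact hk)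
      have e2 := h _ _ (Quotient.exact hk')
      simp only at e1 e2
      exact Subtype.ext (e1.trans e2.symm)
  simp [h1, nc, Nat.card_eq_fintype_card]

omit [Finite J] in
theorem one_lt_pc (r : Setoid (Fin n × J)) (h : ∀ a, ∃ b, r a b ∧ a.1 ≠ b.1) (C : Quotient r) :
    2 ≤ pc r C := by
  induction C using Quotient.inductionOn with
  | h a =>
    obtain ⟨b, hab, hne⟩ := h a
    unfold pc
    have : Nontrivial {k : Fin n // ∃ j, (Quotient.mk r (k, j)) = Quotient.mk r a} :=
      ⟨⟨a.1, a.2, rfl⟩, ⟨b.1, b.2, Quotient.sound (r.symm hab)⟩,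
        fun h => hne (congrArg Subtype.val h)⟩
    exact Finite.one_lt_card

omit [Finite J] in
theorem pc_full (r : Setoid (Fin n × J)) (C : Quotient r)
    (h : ∀ k, ∃ j, (Quotient.mk r (k, j)) = C) : pc r C = n := by
  unfold pc
  rw [Nat.card_congr (Equiv.subtypeUnivEquiv h)]
  simp

/-- Main counting inequality for `Fin 3`. -/
theorem count_classes (r : Setoid (Fin 3 × J)) (h : ∀ a, ∃ b, r a b ∧ a.1 ≠ b.1)
    (𝒞 : Finset (Quotient r)) (h𝒞 : ∀ C ∈ 𝒞, ∀ k, ∃ j, (Quotient.mk r (k, j)) = C) :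
    2 * nc r + 𝒞.card ≤ ∑ k, nc (col r k) := by
  classical
  have : Finite (Quotient r) := Quotient.finite r
  have := Fintype.ofFinite (Quotient r)
  rw [sum_col_eq_sum_pc]
  have h1 : ∀ C : Quotient r, 2 + (if C ∈ 𝒞 then 1 else 0) ≤ pc r C := by
    intro C
    split_ifs with hC
    · rw [pc_full r C (h𝒞 C hC)]
    · exact one_lt_pc r h C
  calc 2 * nc r + 𝒞.card = ∑ C : Quotient r, (2 + (if C ∈ 𝒞 then 1 else 0)) := by
        rw [Finset.sum_add_distrib]
        simp [nc, Nat.card_eq_fintype_card, mul_comm]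
    _ ≤ _ := Finset.sum_le_sum fun C _ => h1 C

end incidence

end Vale.Agent.P189.Bar
end
end

section

section

set_option autoImplicit false

open MeasureTheory

namespace Vale.Agent.P189.Bar

section Rel

variable {G X J : Type} [Group G] [MulAction G X]

/-- Local coordinates on the orbit of `s`. -/
def loc (s : G) (x : X) (a : Fin 3 × J) : X × J := (s ^ (a.1 : ℕ) • x, a.2)

/-- Related points lie over the same orbit of `H`. -/
def Within (H : Subgroup G) (R : X × J → X × J → Prop) : Prop :=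
  ∀ u v, R u v → ∃ a ∈ H, v.1 = a • u.1

theorem Within.eqvGen {H : Subgroup G} {R : X × J → X × J → Prop} (h : Within H R) :
    Within H (Relation.EqvGen R) := by
  intro u v huv
  induction huv with
  | rel u v huv => exact h u v huv
  | refl u => exact ⟨1, H.one_mem, by simp⟩
  | symm u v _ ih =>
    obtain ⟨a, ha, h1⟩ := ih
    exact ⟨a⁻¹, H.inv_mem ha, by rw [h1]; simp⟩
  | trans u v w _ _ ih1 ih2 =>
    obtain ⟨a, ha, h1⟩ := ih1
    obtain ⟨b, hb, h2⟩ := ih2
    exact ⟨b * a, H.mul_mem hb ha, by rw [h2, h1, mul_smul]⟩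

theorem Within.mono {H K : Subgroup G} (hHK : H ≤ K) {R : X × J → X × J → Prop}
    (h : Within H R) : Within K R := fun u v huv => by
  obtain ⟨a, ha, h1⟩ := h u v huv
  exact ⟨a, hHK ha, h1⟩

theorem Within.sup {H : Subgroup G} {R S : Setoid (X × J)} (h : Within H R) (h' : Within H S) :
    Within H (R ⊔ S : Setoid (X × J)) := by
  rw [Setoid.sup_def]
  exact Within.eqvGen (R := fun u v => R u v ∨ S u v) fun u v huv =>
    huv.elim (h u v) (h' u v)

theorem exists_pow3 {s : G} (hs : s ^ 3 = 1) {a : G} (ha : a ∈ Subgroup.zpowers s) :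
    ∃ k : Fin 3, a = s ^ (k : ℕ) := by
  obtain ⟨n, rfl⟩ := Subgroup.mem_zpowers_iff.1 ha
  refine ⟨⟨(n % 3).toNat, by omega⟩, ?_⟩
  have h1 : s ^ (3 : ℤ) = 1 := by exact_mod_cast hs
  have h2 : s ^ n = s ^ (n % 3) := by
    conv_lhs => rw [← Int.emod_add_mul_ediv n 3]
    rw [zpow_add, zpow_mul, h1, one_zpow, mul_one]
  rw [h2, ← zpow_natCast]
  congr 1
  simp only [Int.ofNat_toNat]
  omega

theorem loc_surj {s : G} (hs : s ^ 3 = 1) {x : X} {u : X × J}
    (hu : ∃ a ∈ Subgroup.zpowers s, u.1 = a • x) : ∃ b, u = loc s x b := by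
  obtain ⟨a, ha, h1⟩ := hu
  obtain ⟨k, rfl⟩ := exists_pow3 hs ha
  exact ⟨(k, u.2), Prod.ext h1 rfl⟩

theorem loc_within {s : G} (x : X) (b : Fin 3 × J) :
    ∃ a ∈ Subgroup.zpowers s, (loc s x b).1 = a • x :=
  ⟨s ^ (b.1 : ℕ), Subgroup.npow_mem_zpowers s b.1, rfl⟩

theorem pow3_inj {s : G} (hs : s ^ 3 = 1) (hs1 : s ≠ 1) {k l : Fin 3}
    (h : s ^ (k : ℕ) = s ^ (l : ℕ)) : k = l := by
  have h3 : orderOf s = 3 := orderOf_eq_prime hs hs1
  have := pow_injOn_Iio_orderOf (x := s) (by rw [h3]; simp) (by rw [h3]; simp) h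
  exact Fin.ext this

theorem loc_inj (hfree : ∀ (g : G) (x : X), g • x = x → g = 1) {s : G} (hs : s ^ 3 = 1)
    (hs1 : s ≠ 1) (x : X) : Function.Injective (loc s x : Fin 3 × J → X × J) := by
  intro a b hab
  have h1 : (loc s x a).1 = (loc s x b).1 := congrArg Prod.fst hab
  have h2 : (loc s x a).2 = (loc s x b).2 := congrArg Prod.snd hab
  change s ^ (a.1 : ℕ) • x = s ^ (b.1 : ℕ) • x at h1
  have h3 : (s ^ (b.1 : ℕ))⁻¹ * s ^ (a.1 : ℕ) = 1 := hfree _ x (by
    rw [mul_smul, h1, inv_smul_smul])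
  have h4 : s ^ (a.1 : ℕ) = s ^ (b.1 : ℕ) := by
    rw [inv_mul_eq_one] at h3
    exact h3.symm
  exact Prod.ext (pow3_inj hs hs1 h4) h2

theorem comap_eqvGen (hfree : ∀ (g : G) (x : X), g • x = x → g = 1) {s : G} (hs : s ^ 3 = 1)
    (hs1 : s ≠ 1) (x : X) {R : X × J → X × J → Prop} (hR : Within (Subgroup.zpowers s) R) :
    Setoid.comap (loc s x) (Relation.EqvGen.setoid R) =
      Relation.EqvGen.setoid fun a b => R (loc s x a) (loc s x b) := by
  have key : ∀ u v, Relation.EqvGen R u v → ∀ a b, u = loc s x a → v = loc s x b →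
      Relation.EqvGen (fun a b => R (loc s x a) (loc s x b)) a b := by
    intro u v huv
    induction huv with
    | rel u v huv =>
      rintro a b rfl rfl
      exact Relation.EqvGen.rel _ _ huv
    | refl u =>
      rintro a b rfl h
      rw [loc_inj hfree hs hs1 x h]
      exact Relation.EqvGen.refl _
    | symm u v _ ih =>
      intro a b ha hb
      exact Relation.EqvGen.symm _ _ (ih b a hb ha)
    | trans u v w huv _ ih1 ih2 =>
      intro a c ha hc
      obtain ⟨b, hb⟩ : ∃ b, v = loc s x b := by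
        obtain ⟨g, hg, h1⟩ := hR.eqvGen u v huv
        obtain ⟨g', hg', h2⟩ := loc_within (s := s) x a
        exact loc_surj hs ⟨g * g', Subgroup.mul_mem _ hg hg', by rw [h1, ha, h2, mul_smul]⟩
      exact Relation.EqvGen.trans _ _ _ (ih1 a b ha hb) (ih2 b c hb hc)
  refine le_antisymm (fun a b hab => key _ _ hab a b rfl rfl) ?_
  intro a b hab
  show Relation.EqvGen R (loc s x a) (loc s x b)
  induction hab with
  | rel a b hab => exact Relation.EqvGen.rel _ _ hab
  | refl a => exact Relation.EqvGen.refl _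
  | symm a b _ ih => exact Relation.EqvGen.symm _ _ ih
  | trans a b c _ _ ih1 ih2 => exact Relation.EqvGen.trans _ _ _ ih1 ih2

theorem comap_sup (hfree : ∀ (g : G) (x : X), g • x = x → g = 1) {s : G} (hs : s ^ 3 = 1)
    (hs1 : s ≠ 1) (x : X) {R S : Setoid (X × J)} (hR : Within (Subgroup.zpowers s) R)
    (hS : Within (Subgroup.zpowers s) S) :
    Setoid.comap (loc s x) (R ⊔ S) = Setoid.comap (loc s x) R ⊔ Setoid.comap (loc s x) S := by
  rw [Setoid.sup_def, Setoid.sup_def]
  exact comap_eqvGen hfree hs hs1 x (R := fun u v => R u v ∨ S u v)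
    fun u v huv => huv.elim (hR u v) (hS u v)

end Rel

section Meas

variable {G X J : Type} [Group G] [MulAction G X] [MeasurableSpace X]

/-- Measurability of a relation contained in the orbit relation. -/
def MRel (G : Type) {X J : Type} [Group G] [MulAction G X] [MeasurableSpace X]
    (R : X × J → X × J → Prop) : Prop :=
  ∀ (g : G) (i j : J), MeasurableSet {x : X | R (x, i) (g • x, j)}

variable [MeasurableConstSMul G X]

theorem MRel.loc {R : X × J → X × J → Prop} (h : MRel G R) (g g' : G) (i j : J) :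
    MeasurableSet {x : X | R (g • x, i) (g' • x, j)} := by
  have h1 := measurable_const_smul g (h (g' * g⁻¹) i j)
  have h2 : {x : X | R (g • x, i) (g' • x, j)} =
      (g • ·) ⁻¹' {y : X | R (y, i) ((g' * g⁻¹) • y, j)} := by
    ext x
    simp only [Set.mem_ofPred_eq, Set.mem_preimage, smul_smul, inv_mul_cancel_right]
  rw [h2]
  exact h1

/-- Points connected by a chain of length `n`. -/
def reachSet (R : X × J → X × J → Prop) : ℕ → J → G → J → Set X
  | 0, i, g, j => {x | g • x = x ∧ i = j}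
  | n + 1, i, g, j => ⋃ h : G, ⋃ l : J, reachSet R n i h l ∩
      {x | R (h • x, l) (g • x, j) ∨ R (g • x, j) (h • x, l)}

theorem MRel.eqvGen [Countable G] [Finite J] (hfree : ∀ (g : G) (x : X), g • x = x → g = 1)
    {R : X × J → X × J → Prop} (hR : MRel G R) (hW : Within (⊤ : Subgroup G) R) :
    MRel G (Relation.EqvGen R) := by
  intro g i j
  have hm : ∀ n (g : G) j, MeasurableSet (reachSet R n i g j) := by
    intro n
    induction n with
    | zero =>
      intro g j
      by_cases h : g = 1 ∧ i = j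
      · have : reachSet R 0 i g j = Set.univ := by
          ext x
          simp [reachSet, h.1, h.2]
        rw [this]
        exact MeasurableSet.univ
      · have : reachSet R 0 i g j = ∅ := by
          ext x
          simp only [reachSet, Set.mem_ofPred_eq, Set.mem_empty_iff_false, iff_false]
          rintro ⟨h1, h2⟩
          exact h ⟨hfree g x h1, h2⟩
        rw [this]
        exact MeasurableSet.empty
    | succ n ih =>
      intro g j
      refine MeasurableSet.iUnion fun h => MeasurableSet.iUnion fun l => (ih h l).inter ?_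
      exact (hR.loc h g l j).union (hR.loc g h j l)
  have h1 : {x : X | Relation.EqvGen R (x, i) (g • x, j)} = ⋃ n, reachSet R n i g j := by
    ext x
    simp only [Set.mem_ofPred_eq, Set.mem_iUnion]
    constructor
    · intro hx
      rw [← Relation.EqvGen.reflTransGen_symmGen] at hx
      have key : ∀ v, Relation.ReflTransGen (Relation.SymmGen R) (x, i) v → ∀ (g : G) (j : J),
          v = (g • x, j) → ∃ n, x ∈ reachSet R n i g j := by
        intro v hv
        induction hv with
        | refl =>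
          intro g j h
          exact ⟨0, (congrArg Prod.fst h).symm, congrArg Prod.snd h⟩
        | @tail b c hb hbc ih =>
          intro g j h
          subst h
          obtain ⟨a, ha⟩ : ∃ a : G, b.1 = a • x := by
            rcases hbc with hbc | hbc
            · obtain ⟨a, _, ha⟩ := hW _ _ hbc
              exact ⟨a⁻¹ * g, by
                simp only at ha
                rw [mul_smul, ha, inv_smul_smul]⟩
            · obtain ⟨a, _, ha⟩ := hW _ _ hbc
              exact ⟨a * g, by
                simp only at ha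
                rw [mul_smul, ha]⟩
          obtain ⟨n, hn⟩ := ih a b.2 (Prod.ext ha rfl)
          refine ⟨n + 1, Set.mem_iUnion.2 ⟨a, Set.mem_iUnion.2 ⟨b.2, hn, ?_⟩⟩⟩
          have hb : (a • x, b.2) = b := Prod.ext ha.symm rfl
          show R (a • x, b.2) (g • x, j) ∨ R (g • x, j) (a • x, b.2)
          rw [hb]
          exact hbc
      exact key _ hx g j rfl
    · rintro ⟨n, hn⟩
      induction n generalizing g j with
      | zero =>
        obtain ⟨h1, h2⟩ := hn
        rw [h1, h2]
        exact Relation.EqvGen.refl _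
      | succ n ih =>
        obtain ⟨h, hn⟩ := Set.mem_iUnion.1 hn
        obtain ⟨l, hn, hn'⟩ := Set.mem_iUnion.1 hn
        refine Relation.EqvGen.trans _ _ _ (ih h l hn) ?_
        rcases hn' with hn' | hn'
        · exact Relation.EqvGen.rel _ _ hn'
        · exact Relation.EqvGen.symm _ _ (Relation.EqvGen.rel _ _ hn')
  rw [h1]
  exact MeasurableSet.iUnion fun n => hm n g j

theorem MRel.sup [Countable G] [Finite J] (hfree : ∀ (g : G) (x : X), g • x = x → g = 1)
    {R S : Setoid (X × J)} (hR : MRel G R) (hS : MRel G S) (hWR : Within (⊤ : Subgroup G) R)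
    (hWS : Within (⊤ : Subgroup G) S) : MRel G (R ⊔ S : Setoid (X × J)) := by
  rw [Setoid.sup_def]
  refine MRel.eqvGen hfree (R := fun u v => R u v ∨ S u v) ?_ ?_
  · intro g i j
    exact (hR g i j).union (hS g i j)
  · exact fun u v huv => huv.elim (hWR u v) (hWS u v)

/-- The part of `R` at fixed positions in `A`. -/
def atPos (R : Setoid (X × J)) (A : Set X) : Setoid (X × J) where
  r u v := u = v ∨ (u.1 = v.1 ∧ u.1 ∈ A ∧ R u v)
  iseqv := by
    constructor
    · intro u
      exact Or.inl rfl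
    · rintro u v (rfl | ⟨h1, h2, h3⟩)
      · exact Or.inl rfl
      · exact Or.inr ⟨h1.symm, h1 ▸ h2, R.symm h3⟩
    · rintro u v w (rfl | ⟨h1, h2, h3⟩) hvw
      · exact hvw
      · rcases hvw with rfl | ⟨h4, h5, h6⟩
        · exact Or.inr ⟨h1, h2, h3⟩
        · exact Or.inr ⟨h1.trans h4, h2, R.trans h3 h6⟩

omit [MeasurableSpace X] in
theorem atPos_le (R : Setoid (X × J)) (A : Set X) : atPos R A ≤ R := by
  rintro u v (rfl | ⟨_, _, h3⟩)
  · exact R.refl _
  · exact h3

omit [MeasurableSpace X] in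
theorem atPos_pos {R : Setoid (X × J)} {A : Set X} {u v : X × J} (h : atPos R A u v) :
    v.1 = u.1 := by
  rcases h with rfl | ⟨h, _, _⟩
  · rfl
  · exact h.symm

omit [MeasurableConstSMul G X] in
theorem MRel.atPos (hfree : ∀ (g : G) (x : X), g • x = x → g = 1) {R : Setoid (X × J)}
    (hR : MRel G R) {A : Set X} (hA : MeasurableSet A) : MRel G (atPos R A) := by
  intro g i j
  by_cases hg : g = 1
  · subst hg
    by_cases hij : i = j
    · subst hij
      have : {x : X | Bar.atPos R A (x, i) ((1 : G) • x, i)} = Set.univ := by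
        ext x
        simp only [one_smul, Set.mem_ofPred_eq, Set.mem_univ, iff_true]
        exact Or.inl rfl
      rw [this]
      exact MeasurableSet.univ
    · have : {x : X | Bar.atPos R A (x, i) ((1 : G) • x, j)} =
          A ∩ {x | R (x, i) ((1 : G) • x, j)} := by
        ext x
        simp only [one_smul, Set.mem_ofPred_eq, Set.mem_inter_iff]
        constructor
        · rintro (h | ⟨_, h2, h3⟩)
          · exact absurd (congrArg Prod.snd h) hij
          · exact ⟨h2, h3⟩
        · rintro ⟨h2, h3⟩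
          exact Or.inr ⟨rfl, h2, h3⟩
      rw [this]
      exact hA.inter (hR 1 i j)
  · have : {x : X | Bar.atPos R A (x, i) (g • x, j)} = ∅ := by
      ext x
      simp only [Set.mem_ofPred_eq, Set.mem_empty_iff_false, iff_false]
      intro h
      exact hg (hfree g x (atPos_pos h))
    rw [this]
    exact MeasurableSet.empty

end Meas

section Count

variable {G X J : Type} [Group G] [MulAction G X] [MeasurableSpace X]
  [MeasurableConstSMul G X] [Finite J]

/-- Number of classes of `R` on the orbit of `s`. -/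
noncomputable def N (s : G) (R : Setoid (X × J)) (x : X) : ℕ := nc (Setoid.comap (loc s x) R)

/-- Number of classes of `R` at the position `x`. -/
noncomputable def N1 (R : Setoid (X × J)) (x : X) : ℕ := nc (Setoid.comap (fun j => (x, j)) R)

omit [MeasurableSpace X] [MeasurableConstSMul G X] [Finite J] in
theorem nc_col_comap (s : G) (R : Setoid (X × J)) (x : X) (k : Fin 3) :
    nc (col (Setoid.comap (loc s x) R) k) = N1 R (s ^ (k : ℕ) • x) := rfl

theorem measurable_N {s : G} {R : Setoid (X × J)} (hR : MRel G R) : Measurable (N s R) := by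
  let bits : X → (Fin 3 × J → Fin 3 × J → Prop) := fun x a b => R (loc s x a) (loc s x b)
  have h1 : Measurable bits := by
    refine measurable_pi_lambda _ fun a => measurable_pi_lambda _ fun b => ?_
    exact measurableSet_setOfPred.1 (hR.loc (s ^ (a.1 : ℕ)) (s ^ (b.1 : ℕ)) a.2 b.2)
  have h2 : Measurable (fun B : Fin 3 × J → Fin 3 × J → Prop => Nat.card (Quot B)) :=
    measurable_of_finite _
  exact h2.comp h1

theorem measurable_N1 {R : Setoid (X × J)} (hR : MRel G R) : Measurable (N1 R) := by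
  let bits : X → (J → J → Prop) := fun x a b => R (x, a) (x, b)
  have h1 : Measurable bits := by
    refine measurable_pi_lambda _ fun a => measurable_pi_lambda _ fun b => ?_
    have := hR.loc 1 1 a b
    simp only [one_smul] at this
    exact measurableSet_setOfPred.1 this
  have h2 : Measurable (fun B : J → J → Prop => Nat.card (Quot B)) :=
    measurable_of_finite _
  exact h2.comp h1

omit [MeasurableSpace X] [MeasurableConstSMul G X] in
theorem N_le (s : G) (R : Setoid (X × J)) (x : X) : N s R x ≤ Nat.card (Fin 3 × J) :=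
  nc_le_card _

omit [MeasurableSpace X] in
theorem N1_le (R : Setoid (X × J)) (x : X) : N1 R x ≤ Nat.card J :=
  nc_le_card _

variable (μ : Measure X) [IsProbabilityMeasure μ] [SMulInvariantMeasure G X μ]

omit [SMulInvariantMeasure G X μ] in
theorem integrable_N {s : G} {R : Setoid (X × J)} (hR : MRel G R) :
    Integrable (fun x => (N s R x : ℝ)) μ := by
  refine Integrable.of_bound ?_ (Nat.card (Fin 3 × J)) ?_
  · exact ((measurable_from_nat (f := fun n : ℕ => (n : ℝ))).comp
      (measurable_N hR)).aestronglyMeasurable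
  · refine Filter.Eventually.of_forall fun x => ?_
    simp only [Real.norm_natCast, Nat.cast_le]
    exact N_le s R x

omit [SMulInvariantMeasure G X μ] in
theorem integrable_N1 {R : Setoid (X × J)} (hR : MRel G R) :
    Integrable (fun x => (N1 R x : ℝ)) μ := by
  refine Integrable.of_bound ?_ (Nat.card J) ?_
  · exact ((measurable_from_nat (f := fun n : ℕ => (n : ℝ))).comp
      (measurable_N1 hR)).aestronglyMeasurable
  · refine Filter.Eventually.of_forall fun x => ?_
    simp only [Real.norm_natCast, Nat.cast_le]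
    exact N1_le R x

omit [IsProbabilityMeasure μ] in
/-- Sum over the orbit of an integrable function. -/
theorem integral_sum_orbit {s : G} {f : X → ℝ} (hf : Integrable f μ) :
    ∫ x, ∑ k : Fin 3, f (s ^ (k : ℕ) • x) ∂μ = 3 * ∫ x, f x ∂μ := by
  rw [integral_finsetSum]
  · simp only [integral_smul_eq_self]
    simp
  · intro k _
    have := (measurePreserving_smul (s ^ (k : ℕ)) μ).integrable_comp hf.aestronglyMeasurable
    exact this.2 hf

omit [MeasurableSpace X] [MeasurableConstSMul G X] in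
theorem N_eq_sum {s : G} {R : Setoid (X × J)} (hfree : ∀ (g : G) (x : X), g • x = x → g = 1)
    (hs : s ^ 3 = 1) (hs1 : s ≠ 1) (hR : ∀ u v, R u v → v.1 = u.1) (x : X) :
    N s R x = ∑ k : Fin 3, N1 R (s ^ (k : ℕ) • x) := by
  unfold N
  rw [nc_eq_sum_col]
  · rfl
  · intro a b hab
    have h1 := hR _ _ hab
    have h2 : (loc s x (b.1, a.2) : X × J) = loc s x (a.1, a.2) := Prod.ext h1 rfl
    exact (congrArg Prod.fst (loc_inj hfree hs hs1 x h2)).symm

end Count

end Vale.Agent.P189.Bar
end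
end

section

section

set_option autoImplicit false

open MeasureTheory Filter
open scoped ENNReal Topology

namespace Vale.Agent.P189

section Reach

variable {Γ Y : Type} [Group Γ] [MulAction Γ Y]

/-- Points which are connected to their translate by `g` by a chain of length `n` with total
label `g`. -/
def reach (D : Γ → Set Y) : ℕ → Γ → Set Y
  | 0, g => {_y | g = 1}
  | n + 1, g => ⋃ h : Γ, reach D n h ∩ (fun y => h • y) ⁻¹'
      (D (g * h⁻¹) ∪ (fun y => (g * h⁻¹) • y) ⁻¹' D (h * g⁻¹))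

theorem conn_of_reach {D : Γ → Set Y} {n : ℕ} {g : Γ} {y : Y} (h : y ∈ reach D n g) :
    Conn D y (g • y) := by
  induction n generalizing g with
  | zero =>
    have h1 : g = 1 := h
    rw [h1, one_smul]
    exact Conn.refl _ _
  | succ n ih =>
    obtain ⟨k, h1, h2⟩ := Set.mem_iUnion.1 h
    refine (ih h1).trans ?_
    rcases h2 with h2 | h2
    · have h3 := Conn.of_mem (D := D) h2
      have h4 : (g * k⁻¹) • k • y = g • y := by rw [mul_smul, inv_smul_smul]
      exact h4 ▸ h3
    · have h3 := Conn.of_mem (D := D) (x := (g * k⁻¹) • k • y) h2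
      have h4 : (g * k⁻¹) • k • y = g • y := by rw [mul_smul, inv_smul_smul]
      rw [h4] at h3
      have h5 : (k * g⁻¹) • g • y = k • y := by rw [mul_smul, inv_smul_smul]
      rw [h5] at h3
      exact h3.symm

theorem reach_of_conn {D : Γ → Set Y} {x z : Y} (h : Conn D x z) :
    ∃ n, ∃ g : Γ, g • x = z ∧ x ∈ reach D n g := by
  have key : ∀ a b : Y, Conn D a b → ∀ y : Y,
      (∃ n, ∃ g : Γ, g • y = a ∧ y ∈ reach D n g) ↔
        ∃ n, ∃ g : Γ, g • y = b ∧ y ∈ reach D n g := by
    intro a b h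
    induction h with
    | rel a b h =>
      obtain ⟨k, hk, rfl⟩ := h
      intro y
      constructor
      · rintro ⟨n, g, rfl, hg⟩
        refine ⟨n + 1, k * g, mul_smul _ _ _, Set.mem_iUnion.2 ⟨g, hg, Or.inl ?_⟩⟩
        show g • y ∈ D (k * g * g⁻¹)
        rwa [mul_inv_cancel_right]
      · rintro ⟨n, g, hg', hg⟩
        have h1 : (k⁻¹ * g) • y = a := by rw [mul_smul, hg', inv_smul_smul]
        refine ⟨n + 1, k⁻¹ * g, h1, Set.mem_iUnion.2 ⟨g, hg, Or.inr ?_⟩⟩
        show (k⁻¹ * g * g⁻¹) • g • y ∈ D (g * (k⁻¹ * g)⁻¹)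
        rw [mul_inv_cancel_right, hg', inv_smul_smul]
        have h2 : g * (k⁻¹ * g)⁻¹ = k := by group
        rwa [h2]
    | refl a => intro y; exact Iff.rfl
    | symm a b _ ih => intro y; exact (ih y).symm
    | trans a b c _ _ ih1 ih2 => intro y; exact (ih1 y).trans (ih2 y)
  exact (key x z h x).1 ⟨0, 1, one_smul _ _, rfl⟩

variable [Countable Γ] [MeasurableSpace Y] [MeasurableConstSMul Γ Y]

theorem measurable_reach {D : Γ → Set Y} (hD : ∀ g, MeasurableSet (D g)) (n : ℕ) (g : Γ) :
    MeasurableSet (reach D n g) := by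
  induction n generalizing g with
  | zero => exact MeasurableSet.const _
  | succ n ih =>
    refine MeasurableSet.iUnion fun h => (ih h).inter ?_
    refine ((hD _).union ?_).preimage (measurable_const_smul h)
    exact (hD _).preimage (measurable_const_smul _)

theorem measurable_conn (hfree : ∀ (g : Γ) (y : Y), g • y = y → g = 1) {D : Γ → Set Y}
    (hD : ∀ g, MeasurableSet (D g)) (g : Γ) : MeasurableSet {y | Conn D y (g • y)} := by
  have h1 : {y | Conn D y (g • y)} = ⋃ n, reach D n g := by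
    ext y
    simp only [Set.mem_iUnion, Set.mem_ofPred_eq]
    constructor
    · intro h
      obtain ⟨n, g', h1, h2⟩ := reach_of_conn h
      have h3 : g' = g := by
        have h4 : (g⁻¹ * g') • y = y := by rw [mul_smul, h1, inv_smul_smul]
        exact (inv_mul_eq_one.1 (hfree _ _ h4)).symm
      exact ⟨n, h3 ▸ h2⟩
    · rintro ⟨n, hn⟩
      exact conn_of_reach hn
  rw [h1]
  exact MeasurableSet.iUnion fun n => measurable_reach hD n g

end Reach

section Select

theorem exists_select {ι Y : Type} [Countable ι] [MeasurableSpace Y] (ν : Measure Y)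
    (P : ι → Set Y) (hP : ∀ i, MeasurableSet (P i)) :
    ∃ Q : ι → Set Y, (∀ i, MeasurableSet (Q i)) ∧ (∀ i, Q i ⊆ P i) ∧
      (∀ y i, y ∈ P i → ∃ j, y ∈ Q j) ∧ ∑' i, ν (Q i) ≤ ν (⋃ i, P i) := by
  classical
  obtain ⟨e, he⟩ := exists_injective_nat ι
  have hmeas : ∀ i, MeasurableSet (P i \ ⋃ j, ⋃ (_ : e j < e i), P j) := fun i =>
    (hP i).diff (MeasurableSet.iUnion fun j => MeasurableSet.iUnion fun _ => hP j)
  refine ⟨fun i => P i \ ⋃ j, ⋃ (_ : e j < e i), P j, hmeas, fun i => Set.sdiff_subset,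
    ?_, ?_⟩
  · intro y i hy
    have hex : ∃ n, ∃ j, e j = n ∧ y ∈ P j := ⟨e i, i, rfl, hy⟩
    obtain ⟨j, hj, hyj⟩ := Nat.find_spec hex
    refine ⟨j, hyj, ?_⟩
    intro h
    simp only [Set.mem_iUnion] at h
    obtain ⟨k, hk, hyk⟩ := h
    exact Nat.find_min hex (hj ▸ hk) ⟨k, rfl, hyk⟩
  · rw [← measure_iUnion]
    · exact measure_mono (Set.iUnion_mono fun i => Set.sdiff_subset)
    · intro i j hij
      show Disjoint _ _
      rw [Set.disjoint_left]
      rintro y ⟨h1, h2⟩ ⟨h3, h4⟩
      simp only [Set.mem_iUnion, not_exists] at h2 h4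
      rcases lt_trichotomy (e i) (e j) with h | h | h
      · exact h4 i h h1
      · exact hij (he h)
      · exact h2 j h h3
    · exact hmeas

end Select

section Roots

variable {Γ Y : Type} [Group Γ] [MulAction Γ Y]

/-- The minimal points of the classes that do not meet `E`. -/
def Root (f : Y → ℝ) (E : Set Y) (S : Setoid Y) : Set Y :=
  {y | ∀ z, S y z → f y ≤ f z ∧ z ∉ E}

/-- The points whose class has no root. -/
def gr (f : Y → ℝ) (E : Set Y) (S : Setoid Y) : Set Y :=
  {y | ∀ z, S y z → z ∉ Root f E S}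

/-- The relation obtained from `S` by tying all the points of `gr` to the ground. -/
def Hat (f : Y → ℝ) (E : Set Y) (C : Subgroup Γ) (S : Setoid Y) (y z : Y) : Prop :=
  S y z ∨ (y ∈ gr f E S ∧ z ∈ gr f E S ∧ ∃ c ∈ C, c • y = z)

variable {f : Y → ℝ} {E : Set Y} {C : Subgroup Γ}

theorem root_anti {S T : Setoid Y} (h : ∀ y z, S y z → T y z) : Root f E T ⊆ Root f E S :=
  fun _ hy z hz => hy z (h _ _ hz)

theorem mem_gr_of_rel {S : Setoid Y} {y z : Y} (hy : y ∈ gr f E S) (h : S y z) :
    z ∈ gr f E S := fun w hw => hy w (S.trans' h hw)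

theorem mem_gr_of_mem {S : Setoid Y} {y z : Y} (h : S y z) (hz : z ∈ E) : y ∈ gr f E S := by
  intro w hw hw'
  exact (hw' z (S.trans' (S.symm' hw) h)).2 hz

/-- The relation `Conn D` restricted to orbits of `C`. -/
def cap (D : Γ → Set Y) (C : Subgroup Γ) : Setoid Y where
  r y z := Conn D y z ∧ ∃ c ∈ C, c • y = z
  iseqv :=
    { refl := fun y => ⟨Conn.refl _ _, 1, C.one_mem, one_smul _ _⟩
      symm := fun {y z} h => by
        obtain ⟨h1, c, hc, rfl⟩ := h
        exact ⟨h1.symm, c⁻¹, C.inv_mem hc, inv_smul_smul _ _⟩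
      trans := fun {x y z} h h' => by
        obtain ⟨h1, c, hc, rfl⟩ := h
        obtain ⟨h1', c', hc', rfl⟩ := h'
        exact ⟨h1.trans h1', c' * c, C.mul_mem hc' hc, mul_smul _ _ _⟩ }

theorem cap_iff {D : Γ → Set Y} {y z : Y} :
    cap D C y z ↔ Conn D y z ∧ ∃ c ∈ C, c • y = z := Iff.rfl

section Meas

variable [Countable Γ] [MeasurableSpace Y] [MeasurableConstSMul Γ Y]

/-- Measurability of a subrelation of the orbit relation. -/
def MRel (Γ : Type) {Y : Type} [Group Γ] [MulAction Γ Y] [MeasurableSpace Y]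
    (S : Setoid Y) : Prop := ∀ g : Γ, MeasurableSet {y : Y | S y (g • y)}

theorem mrel_cap (hfree : ∀ (g : Γ) (y : Y), g • y = y → g = 1) {D : Γ → Set Y}
    (hD : ∀ g, MeasurableSet (D g)) : MRel Γ (cap D C) := by
  intro g
  have h1 : {y : Y | cap D C y (g • y)} = {y | Conn D y (g • y)} ∩ {_y | g ∈ C} := by
    ext y
    constructor
    · rintro ⟨h1, c, hc, h2⟩
      have h3 : c = g := by
        have h4 : (g⁻¹ * c) • y = y := by rw [mul_smul, h2, inv_smul_smul]
        exact (inv_mul_eq_one.1 (hfree _ _ h4)).symm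
      exact ⟨h1, h3 ▸ hc⟩
    · rintro ⟨h1, h2⟩
      exact ⟨h1, g, h2, rfl⟩
  rw [h1]
  exact (measurable_conn hfree hD g).inter (MeasurableSet.const _)

theorem measurable_root (hf : Measurable f) (hE : MeasurableSet E) {S : Setoid Y}
    (hS : MRel Γ S) (horb : ∀ y z, S y z → ∃ c ∈ C, c • y = z) :
    MeasurableSet (Root f E S) := by
  have h1 : Root f E S = ⋂ g : Γ, ({y | S y (g • y)}ᶜ ∪
      ({y | f y ≤ f (g • y)} ∩ (fun y => g • y) ⁻¹' Eᶜ)) := by
    ext y
    simp only [Set.mem_iInter]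
    constructor
    · intro hy g
      by_cases hg : S y (g • y)
      · exact Or.inr ⟨(hy _ hg).1, (hy _ hg).2⟩
      · exact Or.inl hg
    · intro h z hz
      obtain ⟨c, -, rfl⟩ := horb _ _ hz
      rcases h c with h | h
      · exact absurd hz h
      · exact ⟨h.1, h.2⟩
  rw [h1]
  refine MeasurableSet.iInter fun g => (hS g).compl.union (MeasurableSet.inter ?_ ?_)
  · exact measurableSet_le hf (hf.comp (measurable_const_smul g))
  · exact hE.compl.preimage (measurable_const_smul g)

theorem measurable_gr (hf : Measurable f) (hE : MeasurableSet E) {S : Setoid Y}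
    (hS : MRel Γ S) (horb : ∀ y z, S y z → ∃ c ∈ C, c • y = z) :
    MeasurableSet (gr f E S) := by
  have h1 : gr f E S = ⋂ g : Γ, ({y | S y (g • y)}ᶜ ∪
      (fun y => g • y) ⁻¹' (Root f E S)ᶜ) := by
    ext y
    simp only [Set.mem_iInter]
    constructor
    · intro hy g
      by_cases hg : S y (g • y)
      · exact Or.inr (hy _ hg)
      · exact Or.inl hg
    · intro h z hz
      obtain ⟨c, -, rfl⟩ := horb _ _ hz
      rcases h c with h | h
      · exact absurd hz h
      · exact h
  rw [h1]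
  exact MeasurableSet.iInter fun g => (hS g).compl.union
    ((measurable_root hf hE hS horb).compl.preimage (measurable_const_smul g))

/-- Almost minimal points. -/
def almostMin (Γ : Type) {Y : Type} [Group Γ] [MulAction Γ Y] (f : Y → ℝ) (S : Setoid Y)
    (k : ℕ) : Set Y :=
  {y | ∀ g : Γ, S y (g • y) → f y < f (g • y) + 1 / ((k : ℝ) + 1)}

/-- Minimal points. -/
def exactMin (Γ : Type) {Y : Type} [Group Γ] [MulAction Γ Y] (f : Y → ℝ) (S : Setoid Y) :
    Set Y :=
  {y | ∀ g : Γ, S y (g • y) → f y ≤ f (g • y)}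

theorem measurable_almostMin (hf : Measurable f) {S : Setoid Y} (hS : MRel Γ S) (k : ℕ) :
    MeasurableSet (almostMin Γ f S k) := by
  have h1 : almostMin Γ f S k = ⋂ g : Γ, ({y | S y (g • y)}ᶜ ∪
      {y | f y < f (g • y) + 1 / ((k : ℝ) + 1)}) := by
    ext y
    simp only [Set.mem_iInter]
    constructor
    · intro hy g
      by_cases hg : S y (g • y)
      · exact Or.inr (hy _ hg)
      · exact Or.inl hg
    · intro h g hg
      rcases h g with h | h
      · exact absurd hg h
      · exact h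
  rw [h1]
  refine MeasurableSet.iInter fun g => (hS g).compl.union ?_
  exact measurableSet_lt hf ((hf.comp (measurable_const_smul g)).add_const _)

theorem measurable_exactMin (hf : Measurable f) {S : Setoid Y} (hS : MRel Γ S) :
    MeasurableSet (exactMin Γ f S) := by
  have h1 : exactMin Γ f S = ⋂ g : Γ, ({y | S y (g • y)}ᶜ ∪ {y | f y ≤ f (g • y)}) := by
    ext y
    simp only [Set.mem_iInter]
    constructor
    · intro hy g
      by_cases hg : S y (g • y)
      · exact Or.inr (hy _ hg)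
      · exact Or.inl hg
    · intro h g hg
      rcases h g with h | h
      · exact absurd hg h
      · exact h
  rw [h1]
  refine MeasurableSet.iInter fun g => (hS g).compl.union ?_
  exact measurableSet_le hf (hf.comp (measurable_const_smul g))

theorem exists_almostMin_small (ν : Measure Y) [IsFiniteMeasure ν] (hf : Measurable f)
    {S : Setoid Y} (hS : MRel Γ S) {η : ℝ≥0∞} (hη : 0 < η) :
    ∃ k : ℕ, ν (almostMin Γ f S k \ exactMin Γ f S) < η := by
  have hanti : Antitone fun k : ℕ => almostMin Γ f S k \ exactMin Γ f S := by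
    intro k l hkl y hy
    refine ⟨fun g hg => (hy.1 g hg).trans_le ?_, hy.2⟩
    have h1 : (k : ℝ) ≤ l := by exact_mod_cast hkl
    have h2 : 1 / ((l : ℝ) + 1) ≤ 1 / ((k : ℝ) + 1) :=
      one_div_le_one_div_of_le (by positivity) (by linarith)
    linarith
  have hempty : ⋂ k : ℕ, (almostMin Γ f S k \ exactMin Γ f S) = ∅ := by
    rw [Set.eq_empty_iff_forall_notMem]
    intro y hy
    rw [Set.mem_iInter] at hy
    refine (hy 0).2 fun g hg => ?_
    refine le_of_forall_pos_lt_add fun ε hε => ?_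
    obtain ⟨k, hk⟩ := exists_nat_one_div_lt hε
    have := (hy k).1 g hg
    linarith
  have htend := tendsto_measure_iInter_atTop (μ := ν)
    (fun k => ((measurable_almostMin hf hS k).diff (measurable_exactMin hf hS)).nullMeasurableSet)
    hanti ⟨0, measure_ne_top _ _⟩
  rw [hempty, measure_empty] at htend
  exact ((tendsto_order.1 htend).2 η hη).exists

end Meas

theorem exists_mem_almostMin {b : ℝ} (hb : ∀ y, b ≤ f y) (S : Setoid Y) (k : ℕ) (y : Y) :
    ∃ g : Γ, S y (g • y) ∧ g • y ∈ almostMin Γ f S k := by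
  have hne : (Set.range fun g : {g : Γ // S y (g • y)} => f (g.1 • y)).Nonempty :=
    ⟨_, ⟨⟨1, by rw [one_smul]⟩, rfl⟩⟩
  have hbdd : BddBelow (Set.range fun g : {g : Γ // S y (g • y)} => f (g.1 • y)) :=
    ⟨b, by rintro _ ⟨g, rfl⟩; exact hb _⟩
  have hpos : (0 : ℝ) < 1 / ((k : ℝ) + 1) := by positivity
  obtain ⟨_, ⟨g, rfl⟩, hg⟩ := Real.lt_sInf_add_pos hne hpos
  refine ⟨g.1, g.2, fun h hh => ?_⟩
  have h1 : S y ((h * g.1) • y) := by
    rw [mul_smul]
    exact S.trans' g.2 hh
  have h2 : sInf (Set.range fun g : {g : Γ // S y (g • y)} => f (g.1 • y)) ≤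
      f (h • g.1 • y) := by
    refine csInf_le hbdd ⟨⟨h * g.1, h1⟩, ?_⟩
    show f ((h * g.1) • y) = _
    rw [mul_smul]
  have h3 : f (g.1 • y) <
      sInf (Set.range fun g : {g : Γ // S y (g • y)} => f (g.1 • y)) + 1 / ((k : ℝ) + 1) := hg
  linarith

end Roots

end Vale.Agent.P189
end
end

section

section

set_option autoImplicit false

open MeasureTheory Filter
open scoped ENNReal Topology

namespace Vale.Agent.P189

section Step

variable {Γ Y : Type} [Group Γ] [MulAction Γ Y]

/-- Union of two labelled families. -/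
def un (K L : Γ → Set Y) (g : Γ) : Set Y := K g ∪ L g

omit [Group Γ] [MulAction Γ Y] in
theorem dcost_un_le [MeasurableSpace Y] (ν : Measure Y) (K L : Γ → Set Y) :
    dcost ν (un K L) ≤ dcost ν K + dcost ν L := by
  unfold dcost
  rw [← ENNReal.tsum_add]
  exact ENNReal.tsum_le_tsum fun g => measure_union_le _ _

theorem conn_un_left {P K : Γ → Set Y} {y z : Y} (h : Conn P y z) : Conn (un P K) y z :=
  h.mono fun _ => Set.subset_union_left

theorem conn_un_mono {P K K' : Γ → Set Y} (hK : ∀ g, K g ⊆ K' g) {y z : Y}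
    (h : Conn (un P K) y z) : Conn (un P K') y z :=
  h.mono fun g => Set.union_subset_union_right _ (hK g)

theorem conn_of_restr {P K : Γ → Set Y} {C : Subgroup Γ} {E : Set Y}
    (hP : ∀ g, restr C E g ⊆ P g) {y z : Y} (hy : y ∈ E) (hz : z ∈ E) {c : Γ} (hc : c ∈ C)
    (h : c • y = z) : Conn (un P K) y z := by
  have h1 : y ∈ restr C E c := ⟨hc, hy, h ▸ hz⟩
  have h2 := Conn.of_mem (D := un P K) (x := y) (g := c) (Or.inl (hP c h1))
  exact h ▸ h2

/-- The invariant of the folding process. -/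
structure FGood [MeasurableSpace Y] (f : Y → ℝ) (E : Set Y) (C : Subgroup Γ)
    (PK PL K L : Γ → Set Y) (S : Setoid Y) : Prop where
  mK : ∀ g, MeasurableSet (K g)
  mL : ∀ g, MeasurableSet (L g)
  mS : MRel Γ S
  orb : ∀ y z, S y z → ∃ c ∈ C, c • y = z
  hk : ∀ y z, Hat f E C S y z → Conn (un PK K) y z
  hl : ∀ y z, Hat f E C S y z → Conn (un PL L) y z

theorem FGood.swap [MeasurableSpace Y] {f : Y → ℝ} {E : Set Y} {C : Subgroup Γ}
    {PK PL K L : Γ → Set Y} {S : Setoid Y} (h : FGood f E C PK PL K L S) :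
    FGood f E C PL PK L K S :=
  ⟨h.mL, h.mK, h.mS, h.orb, h.hl, h.hk⟩

variable [Countable Γ] [MeasurableSpace Y] [MeasurableConstSMul Γ Y]

theorem fold_step (ν : Measure Y) [IsFiniteMeasure ν]
    (hfree : ∀ (g : Γ) (y : Y), g • y = y → g = 1) {f : Y → ℝ} (hf : Measurable f)
    (hinj : Function.Injective f) {b : ℝ} (hb : ∀ y, b ≤ f y) {E : Set Y}
    (hE : MeasurableSet E) {C : Subgroup Γ} (hground : ∀ y : Y, ∃ c ∈ C, c • y ∈ E)
    {PK PL : Γ → Set Y} (mPK : ∀ g, MeasurableSet (PK g)) (hPK : ∀ g, restr C E g ⊆ PK g)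
    (hPL : ∀ g, restr C E g ⊆ PL g) {K L : Γ → Set Y} {S : Setoid Y}
    (hG : FGood f E C PK PL K L S) {η : ℝ≥0∞} (hη : 0 < η) :
    ∃ (K' L' : Γ → Set Y) (S' : Setoid Y), FGood f E C PK PL K' L' S' ∧
      (∀ g, K g ⊆ K' g) ∧ (∀ g, L g ⊆ L' g) ∧
      (∀ g, (K' g).Nonempty → (K g).Nonempty ∨ g ∈ C) ∧
      (∀ g, (L' g).Nonempty → (L g).Nonempty ∨ g ∈ C) ∧
      Root f E S' ⊆ Root f E S ∧
      (∀ y z, Conn (un PK K) y z → (∃ c ∈ C, c • y = z) → Conn (un PL L') y z) ∧
      dcost ν K' ≤ dcost ν K + η ∧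
      dcost ν L' ≤ dcost ν L + ν (Root f E S \ Root f E S') := by
  classical
  obtain ⟨mK, mL, mS, horb, hk, hl⟩ := hG
  -- the new relation
  have hex : ∃ S' : Setoid Y, S' = cap (un PK K) C := ⟨_, rfl⟩
  obtain ⟨S', hS'⟩ := hex
  have hS'iff : ∀ y z, S' y z ↔ Conn (un PK K) y z ∧ ∃ c ∈ C, c • y = z := by
    intro y z; rw [hS']; exact Iff.rfl
  have horb' : ∀ y z, S' y z → ∃ c ∈ C, c • y = z := fun y z h => ((hS'iff y z).1 h).2
  have hHS' : ∀ y z, Hat f E C S y z → S' y z := by
    intro y z h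
    refine (hS'iff y z).2 ⟨hk y z h, ?_⟩
    rcases h with h | ⟨-, -, h⟩
    · exact horb y z h
    · exact h
  have hSS' : ∀ y z, S y z → S' y z := fun y z h => hHS' y z (Or.inl h)
  have mS' : MRel Γ S' := by
    rw [hS']
    exact mrel_cap hfree fun g => (mPK g).union (mK g)
  have mR : MeasurableSet (Root f E S) := measurable_root hf hE mS horb
  have mR' : MeasurableSet (Root f E S') := measurable_root hf hE mS' horb'
  have mgr' : MeasurableSet (gr f E S') := measurable_gr hf hE mS' horb'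
  obtain ⟨k, hksmall⟩ := exists_almostMin_small (Γ := Γ) ν hf mS' hη
  obtain ⟨Q, mQ, hQP, hQex, hQcost⟩ := exists_select ν
    (fun h : Γ => (almostMin Γ f S' k \ exactMin Γ f S') ∩
      ({_y | h ∈ C} ∩ (fun y => h • y) ⁻¹' E))
    (fun h => ((measurable_almostMin hf mS' k).diff (measurable_exactMin hf mS')).inter
      ((MeasurableSet.const _).inter (hE.preimage (measurable_const_smul h))))
  obtain ⟨X, mX, hXP, hXex, hXcost⟩ := exists_select ν
    (fun h : Γ => (Root f E S \ Root f E S') ∩ ({_y | h ∈ C} ∩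
      ((gr f E S' ∩ (fun y => h • y) ⁻¹' E) ∪
        ({y | S' y (h • y)} ∩ (fun y => h • y) ⁻¹' Root f E S'))))
    (fun h => (mR.diff mR').inter ((MeasurableSet.const _).inter
      ((mgr'.inter (hE.preimage (measurable_const_smul h))).union
        ((mS' h).inter (mR'.preimage (measurable_const_smul h))))))
  have hQ1 : ∀ y, y ∈ almostMin Γ f S' k \ exactMin Γ f S' →
      ∃ j ∈ C, y ∈ Q j ∧ j • y ∈ E := by
    intro y hy
    obtain ⟨c, hc, hcE⟩ := hground y
    obtain ⟨j, hj⟩ := hQex y c ⟨hy, hc, hcE⟩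
    exact ⟨j, (hQP j hj).2.1, hj, (hQP j hj).2.2⟩
  have hKK' : ∀ g, K g ⊆ un K Q g := fun g => Set.subset_union_left
  have hLL' : ∀ g, L g ⊆ un L X g := fun g => Set.subset_union_left
  have hkS : ∀ y z, S' y z → Conn (un PK (un K Q)) y z := fun y z h =>
    conn_un_mono hKK' ((hS'iff y z).1 h).1
  have hlS : ∀ y z, Hat f E C S y z → Conn (un PL (un L X)) y z := fun y z h =>
    conn_un_mono hLL' (hl y z h)
  -- every point of `gr` is tied to the ground in the first relation
  have claimK : ∀ y ∈ gr f E S', ∃ e ∈ E, (∃ d ∈ C, d • y = e) ∧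
      Conn (un PK (un K Q)) y e := by
    intro y hy
    by_cases hmeet : ∃ e, S' y e ∧ e ∈ E
    · obtain ⟨e, h1, h2⟩ := hmeet
      exact ⟨e, h2, horb' y e h1, hkS y e h1⟩
    · obtain ⟨g, h1, h2⟩ := exists_mem_almostMin (Γ := Γ) hb S' k y
      have h3 : g • y ∉ exactMin Γ f S' := by
        intro h3
        refine hy _ h1 fun z hz => ?_
        obtain ⟨c, -, rfl⟩ := horb' _ _ hz
        exact ⟨h3 c hz, fun h4 => hmeet ⟨_, S'.trans' h1 hz, h4⟩⟩
      obtain ⟨j, hj, hjQ, hjE⟩ := hQ1 _ ⟨h2, h3⟩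
      obtain ⟨d, hd, hd'⟩ := horb' _ _ h1
      refine ⟨j • g • y, hjE, ⟨j * d, C.mul_mem hj hd, by rw [mul_smul, hd']⟩, ?_⟩
      exact (hkS _ _ h1).trans (Conn.of_mem (D := un PK (un K Q)) (Or.inr (Or.inr hjQ)))
  have claimL : ∀ y ∈ gr f E S', ∃ e ∈ E, (∃ d ∈ C, d • y = e) ∧
      Conn (un PL (un L X)) y e := by
    intro y hy
    by_cases hyS : y ∈ gr f E S
    · obtain ⟨c, hc, hcE⟩ := hground y
      refine ⟨c • y, hcE, ⟨c, hc, rfl⟩, hlS _ _ (Or.inr ⟨hyS, ?_, c, hc, rfl⟩)⟩
      exact mem_gr_of_mem (S.refl' _) hcE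
    · have hyS' : ∃ r, S y r ∧ r ∈ Root f E S := by
        by_contra hcon
        exact hyS fun z hz hz' => hcon ⟨z, hz, hz'⟩
      obtain ⟨r, h1, h2⟩ := hyS'
      have h3 : r ∈ gr f E S' := mem_gr_of_rel hy (hSS' _ _ h1)
      have h4 : r ∉ Root f E S' := h3 r (S'.refl' r)
      obtain ⟨c, hc, hcE⟩ := hground r
      obtain ⟨j, hj⟩ := hXex r c ⟨⟨h2, h4⟩, hc, Or.inl ⟨h3, hcE⟩⟩
      obtain ⟨-, hjC, h5⟩ := hXP j hj
      have h6 : j • r ∈ E := by
        rcases h5 with h5 | h5
        · exact h5.2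
        · exact absurd h5.2 (h3 _ h5.1)
      obtain ⟨d, hd, hd'⟩ := horb _ _ h1
      refine ⟨j • r, h6, ⟨j * d, C.mul_mem hjC hd, by rw [mul_smul, hd']⟩, ?_⟩
      exact (hlS _ _ (Or.inl h1)).trans
        (Conn.of_mem (D := un PL (un L X)) (Or.inr (Or.inr hj)))
  have claimB : ∀ y, y ∉ gr f E S' → ∀ m, S' y m → m ∈ Root f E S' →
      Conn (un PL (un L X)) y m := by
    intro y hy m hym hm
    have hyS : y ∉ gr f E S := by
      intro hyS
      obtain ⟨c, hc, hcE⟩ := hground y
      have h1 : Hat f E C S y (c • y) :=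
        Or.inr ⟨hyS, mem_gr_of_mem (S.refl' _) hcE, c, hc, rfl⟩
      exact hy (mem_gr_of_mem (hHS' _ _ h1) hcE)
    have hyS' : ∃ r, S y r ∧ r ∈ Root f E S := by
      by_contra hcon
      exact hyS fun z hz hz' => hcon ⟨z, hz, hz'⟩
    obtain ⟨r, h1, h2⟩ := hyS'
    have hrm : S' r m := S'.trans' (S'.symm' (hSS' _ _ h1)) hym
    have huniq : ∀ z, z ∈ Root f E S' → S' z m → z = m := by
      intro z hz hzm
      exact hinj (le_antisymm (hz m hzm).1 (hm z (S'.symm' hzm)).1)
    by_cases hr : r ∈ Root f E S'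
    · rw [← huniq r hr hrm]
      exact hlS _ _ (Or.inl h1)
    · obtain ⟨c, hc, hc'⟩ := horb' _ _ hrm
      have h3 : S' r (c • r) := hc'.symm ▸ hrm
      have h4 : c • r ∈ Root f E S' := hc'.symm ▸ hm
      obtain ⟨j, hj⟩ := hXex r c ⟨⟨h2, hr⟩, hc, Or.inr ⟨h3, h4⟩⟩
      obtain ⟨-, hjC, h5⟩ := hXP j hj
      rcases h5 with h5 | h5
      · exact absurd (mem_gr_of_rel h5.1 (S'.symm' (hSS' _ _ h1))) hy
      · have h6 : j • r = m := huniq _ h5.2 (S'.trans' (S'.symm' h5.1) hrm)
        rw [← h6]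
        exact (hlS _ _ (Or.inl h1)).trans
          (Conn.of_mem (D := un PL (un L X)) (Or.inr (Or.inr hj)))
  have finK : ∀ y z, y ∈ gr f E S' → z ∈ gr f E S' → (∃ c ∈ C, c • y = z) →
      Conn (un PK (un K Q)) y z := by
    rintro y z hy hz ⟨c, hc, hcz⟩
    obtain ⟨e, he, ⟨d, hd, hde⟩, h1⟩ := claimK y hy
    obtain ⟨e', he', ⟨d', hd', hde'⟩, h2⟩ := claimK z hz
    refine h1.trans (Conn.trans ?_ h2.symm)
    refine conn_of_restr hPK he he' (C.mul_mem (C.mul_mem hd' hc) (C.inv_mem hd)) ?_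
    rw [mul_smul, ← hde, inv_smul_smul, mul_smul, hcz, hde']
  have finL : ∀ y z, y ∈ gr f E S' → z ∈ gr f E S' → (∃ c ∈ C, c • y = z) →
      Conn (un PL (un L X)) y z := by
    rintro y z hy hz ⟨c, hc, hcz⟩
    obtain ⟨e, he, ⟨d, hd, hde⟩, h1⟩ := claimL y hy
    obtain ⟨e', he', ⟨d', hd', hde'⟩, h2⟩ := claimL z hz
    refine h1.trans (Conn.trans ?_ h2.symm)
    refine conn_of_restr hPL he he' (C.mul_mem (C.mul_mem hd' hc) (C.inv_mem hd)) ?_
    rw [mul_smul, ← hde, inv_smul_smul, mul_smul, hcz, hde']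
  have hl' : ∀ y z, Hat f E C S' y z → Conn (un PL (un L X)) y z := by
    intro y z h
    rcases h with h | ⟨h1, h2, h3⟩
    · by_cases hy : y ∈ gr f E S'
      · exact finL y z hy (mem_gr_of_rel hy h) (horb' _ _ h)
      · have hz : z ∉ gr f E S' := fun hz => hy (mem_gr_of_rel hz (S'.symm' h))
        have hym : ∃ m, S' y m ∧ m ∈ Root f E S' := by
          by_contra hcon
          exact hy fun z hz hz' => hcon ⟨z, hz, hz'⟩
        obtain ⟨m, h1, h2⟩ := hym
        exact (claimB y hy m h1 h2).trans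
          (claimB z hz m (S'.trans' (S'.symm' h) h1) h2).symm
    · exact finL y z h1 h2 h3
  refine ⟨un K Q, un L X, S', ⟨fun g => (mK g).union (mQ g), fun g => (mL g).union (mX g),
    mS', horb', ?_, hl'⟩, hKK', hLL', ?_, ?_, root_anti hSS', ?_, ?_, ?_⟩
  · intro y z h
    rcases h with h | ⟨h1, h2, h3⟩
    · exact hkS y z h
    · exact finK y z h1 h2 h3
  · rintro g ⟨y, hy | hy⟩
    · exact Or.inl ⟨y, hy⟩
    · exact Or.inr (hQP g hy).2.1
  · rintro g ⟨y, hy | hy⟩
    · exact Or.inl ⟨y, hy⟩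
    · exact Or.inr (hXP g hy).2.1
  · intro y z h1 h2
    exact hl' y z (Or.inl ((hS'iff y z).2 ⟨h1, h2⟩))
  · refine (dcost_un_le ν K Q).trans (add_le_add le_rfl ?_)
    refine hQcost.trans (le_trans (measure_mono ?_) hksmall.le)
    exact Set.iUnion_subset fun i => Set.inter_subset_left
  · refine (dcost_un_le ν L X).trans (add_le_add le_rfl ?_)
    refine hXcost.trans (measure_mono ?_)
    exact Set.iUnion_subset fun i => Set.inter_subset_left

end Step

end Vale.Agent.P189
end
end

section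

section

set_option autoImplicit false

open MeasureTheory Filter
open scoped ENNReal Topology

namespace Vale.Agent.P189

section Limit

theorem dcost_iUnion_le {Γ Y : Type} [MeasurableSpace Y] (ν : Measure Y) (K : ℕ → Γ → Set Y)
    (hmono : ∀ g, Monotone fun n => K n g) :
    dcost ν (fun g => ⋃ n, K n g) ≤ ⨆ n, dcost ν (K n) := by
  unfold dcost
  rw [ENNReal.tsum_eq_iSup_sum]
  refine iSup_le fun s => ?_
  have h1 : ∀ g, ν (⋃ n, K n g) = ⨆ n, ν (K n g) := fun g => (hmono g).measure_iUnion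
  rw [Finset.sum_congr rfl fun g _ => h1 g, ENNReal.finsetSum_iSup_of_monotone]
  · exact iSup_mono fun n => ENNReal.sum_le_tsum _
  · exact fun g _ _ hij => measure_mono (hmono g hij)

theorem dcost_mono {Γ Y : Type} [MeasurableSpace Y] (ν : Measure Y) {K K' : Γ → Set Y}
    (h : ∀ g, K g ⊆ K' g) : dcost ν K ≤ dcost ν K' :=
  ENNReal.tsum_le_tsum fun g => measure_mono (h g)

theorem dcost_add_iUnion_le {Γ Y : Type} [MeasurableSpace Y] (ν : Measure Y)
    (K L : ℕ → Γ → Set Y) (hK : ∀ g, Monotone fun n => K n g)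
    (hL : ∀ g, Monotone fun n => L n g) {c : ℝ≥0∞}
    (hc : ∀ n, dcost ν (K n) + dcost ν (L n) ≤ c) :
    dcost ν (fun g => ⋃ n, K n g) + dcost ν (fun g => ⋃ n, L n g) ≤ c := by
  refine (add_le_add (dcost_iUnion_le ν K hK) (dcost_iUnion_le ν L hL)).trans ?_
  rw [ENNReal.iSup_add_iSup_of_monotone]
  · exact iSup_le hc
  · exact fun m n hmn => dcost_mono ν fun g => hK g hmn
  · exact fun m n hmn => dcost_mono ν fun g => hL g hmn

theorem conn_iUnion {Γ Y : Type} [Group Γ] [MulAction Γ Y] {P : Γ → Set Y}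
    (K : ℕ → Γ → Set Y) (hK : ∀ g, Monotone fun n => K n g) {y z : Y}
    (h : Conn (un P (fun g => ⋃ n, K n g)) y z) : ∃ n, Conn (un P (K n)) y z := by
  induction h with
  | rel a b h =>
    obtain ⟨g, hg, rfl⟩ := h
    rcases hg with hg | hg
    · exact ⟨0, Conn.of_mem (D := un P (K 0)) (Or.inl hg)⟩
    · obtain ⟨n, hn⟩ := Set.mem_iUnion.1 hg
      exact ⟨n, Conn.of_mem (D := un P (K n)) (Or.inr hn)⟩
  | refl a => exact ⟨0, Conn.refl _ _⟩
  | symm a b _ ih =>
    obtain ⟨n, hn⟩ := ih
    exact ⟨n, hn.symm⟩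
  | trans a b c _ _ ih1 ih2 =>
    obtain ⟨m, hm⟩ := ih1
    obtain ⟨n, hn⟩ := ih2
    exact ⟨max m n, (conn_un_mono (fun g => hK g (le_max_left m n)) hm).trans
      (conn_un_mono (fun g => hK g (le_max_right m n)) hn)⟩

end Limit

section Folding

variable {Γ Y : Type} [Group Γ] [MulAction Γ Y] [Countable Γ] [MeasurableSpace Y]
  [MeasurableConstSMul Γ Y]

theorem fold_double (ν : Measure Y) [IsFiniteMeasure ν]
    (hfree : ∀ (g : Γ) (y : Y), g • y = y → g = 1) {f : Y → ℝ} (hf : Measurable f)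
    (hinj : Function.Injective f) {b : ℝ} (hb : ∀ y, b ≤ f y) {E : Set Y}
    (hE : MeasurableSet E) {C : Subgroup Γ} (hground : ∀ y : Y, ∃ c ∈ C, c • y ∈ E)
    {PK PL : Γ → Set Y} (mPK : ∀ g, MeasurableSet (PK g)) (hPK : ∀ g, restr C E g ⊆ PK g)
    (mPL : ∀ g, MeasurableSet (PL g))
    (hPL : ∀ g, restr C E g ⊆ PL g) {K L : Γ → Set Y} {S : Setoid Y}
    (hG : FGood f E C PK PL K L S) {η : ℝ≥0∞} (hη : 0 < η) :
    ∃ (K' L' : Γ → Set Y) (S' : Setoid Y), FGood f E C PK PL K' L' S' ∧
      (∀ g, K g ⊆ K' g) ∧ (∀ g, L g ⊆ L' g) ∧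
      (∀ g, (K' g).Nonempty → (K g).Nonempty ∨ g ∈ C) ∧
      (∀ g, (L' g).Nonempty → (L g).Nonempty ∨ g ∈ C) ∧
      (∀ y z, Conn (un PK K) y z → (∃ c ∈ C, c • y = z) → Conn (un PL L') y z) ∧
      (∀ y z, Conn (un PL L) y z → (∃ c ∈ C, c • y = z) → Conn (un PK K') y z) ∧
      dcost ν K' + dcost ν L' + ν (Root f E S') ≤
        dcost ν K + dcost ν L + ν (Root f E S) + η := by
  have hη2 : 0 < η / 2 := ENNReal.half_pos hη.ne'
  obtain ⟨K1, L1, S1, hG1, hK1, hL1, hKn1, hLn1, hR1, hcap1, hcK1, hcL1⟩ :=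
    fold_step ν hfree hf hinj hb hE hground mPK hPK hPL hG hη2
  obtain ⟨L2, K2, S2, hG2, hL2, hK2, hLn2, hKn2, hR2, hcap2, hcL2, hcK2⟩ :=
    fold_step ν hfree hf hinj hb hE hground mPL hPL hPK hG1.swap hη2
  have mR : MeasurableSet (Root f E S) := measurable_root hf hE hG.mS hG.orb
  have mR1 : MeasurableSet (Root f E S1) := measurable_root hf hE hG1.mS hG1.orb
  have mR2 : MeasurableSet (Root f E S2) := measurable_root hf hE hG2.mS hG2.orb
  refine ⟨K2, L2, S2, hG2.swap, fun g => (hK1 g).trans (hK2 g),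
    fun g => (hL1 g).trans (hL2 g), ?_, ?_, ?_, ?_, ?_⟩
  · intro g hg
    rcases hKn2 g hg with h | h
    · exact hKn1 g h
    · exact Or.inr h
  · intro g hg
    rcases hLn2 g hg with h | h
    · exact hLn1 g h
    · exact Or.inr h
  · intro y z h1 h2
    exact conn_un_mono hL2 (hcap1 y z h1 h2)
  · intro y z h1 h2
    exact hcap2 y z (conn_un_mono hL1 h1) h2
  · have e1 : ν (Root f E S) = ν (Root f E S1) + ν (Root f E S \ Root f E S1) := by
      have h := measure_inter_add_sdiff (μ := ν) (Root f E S) mR1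
      rw [Set.inter_eq_self_of_subset_right hR1] at h
      exact h.symm
    have e2 : ν (Root f E S1) = ν (Root f E S2) + ν (Root f E S1 \ Root f E S2) := by
      have h := measure_inter_add_sdiff (μ := ν) (Root f E S1) mR2
      rw [Set.inter_eq_self_of_subset_right hR2] at h
      exact h.symm
    calc dcost ν K2 + dcost ν L2 + ν (Root f E S2)
        ≤ ((dcost ν K + η / 2) + ν (Root f E S1 \ Root f E S2)) +
            ((dcost ν L + ν (Root f E S \ Root f E S1)) + η / 2) + ν (Root f E S2) := by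
          refine add_le_add (add_le_add (hcK2.trans (add_le_add hcK1 le_rfl))
            (hcL2.trans (add_le_add hcL1 le_rfl))) le_rfl
      _ = dcost ν K + dcost ν L + ((ν (Root f E S2) + ν (Root f E S1 \ Root f E S2)) +
            ν (Root f E S \ Root f E S1)) + (η / 2 + η / 2) := by ring
      _ = dcost ν K + dcost ν L + ν (Root f E S) + η := by
          rw [← e2, ← e1, ENNReal.add_halves]

/-- The states of the folding process. -/
structure FState (f : Y → ℝ) (E : Set Y) (C : Subgroup Γ) (PK PL : Γ → Set Y) where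
  K : Γ → Set Y
  L : Γ → Set Y
  S : Setoid Y
  good : FGood f E C PK PL K L S

theorem folding_aux (ν : Measure Y) [IsFiniteMeasure ν]
    (hfree : ∀ (g : Γ) (y : Y), g • y = y → g = 1) {f : Y → ℝ} (hf : Measurable f)
    (hinj : Function.Injective f) {b : ℝ} (hb : ∀ y, b ≤ f y) {E : Set Y}
    (hE : MeasurableSet E) {C : Subgroup Γ} (hground : ∀ y : Y, ∃ c ∈ C, c • y ∈ E)
    {PK PL : Γ → Set Y} (mPK : ∀ g, MeasurableSet (PK g)) (hPK : ∀ g, restr C E g ⊆ PK g)
    (mPL : ∀ g, MeasurableSet (PL g))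
    (hPL : ∀ g, restr C E g ⊆ PL g) {K L : Γ → Set Y}
    (mK : ∀ g, MeasurableSet (K g)) (mL : ∀ g, MeasurableSet (L g)) {η : ℝ≥0∞} (hη : 0 < η) :
    ∃ (K' L' : Γ → Set Y), (∀ g, MeasurableSet (K' g)) ∧ (∀ g, MeasurableSet (L' g)) ∧
      (∀ g, K g ⊆ K' g) ∧ (∀ g, L g ⊆ L' g) ∧
      (∀ g, (K' g).Nonempty → (K g).Nonempty ∨ g ∈ C) ∧
      (∀ g, (L' g).Nonempty → (L g).Nonempty ∨ g ∈ C) ∧
      (∀ y z, (∃ c ∈ C, c • y = z) → (Conn (un PK K') y z ↔ Conn (un PL L') y z)) ∧
      dcost ν K' + dcost ν L' ≤ dcost ν K + dcost ν L + ν Eᶜ + η := by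
  classical
  obtain ⟨ε, hε, hεsum⟩ := ENNReal.exists_pos_sum_of_countable hη.ne' ℕ
  have hstart : FGood f E C PK PL K L (⊥ : Setoid Y) := by
    have hhat : ∀ y z, Hat f E C (⊥ : Setoid Y) y z → y = z ∨
        (y ∈ E ∧ z ∈ E ∧ ∃ c ∈ C, c • y = z) := by
      intro y z h
      have hgr : ∀ w, w ∈ gr f E (⊥ : Setoid Y) → w ∈ E := by
        intro w hw
        by_contra hwE
        refine hw w rfl fun v hv => ?_
        have hv' : w = v := hv
        exact ⟨le_of_eq (by rw [hv']), hv' ▸ hwE⟩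
      rcases h with h | ⟨h1, h2, h3⟩
      · exact Or.inl h
      · exact Or.inr ⟨hgr y h1, hgr z h2, h3⟩
    refine ⟨mK, mL, ?_, ?_, ?_, ?_⟩
    · intro g
      have h1 : {y : Y | (⊥ : Setoid Y) y (g • y)} = {_y | g = 1} := by
        ext y
        constructor
        · intro h
          have h' : y = g • y := h
          exact hfree g y h'.symm
        · intro h
          have h' : g = 1 := h
          show y = g • y
          rw [h', one_smul]
      rw [h1]
      exact MeasurableSet.const _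
    · intro y z h
      have h' : y = z := h
      exact ⟨1, C.one_mem, by rw [one_smul, h']⟩
    · intro y z h
      rcases hhat y z h with rfl | ⟨h1, h2, c, hc, h3⟩
      · exact Conn.refl _ _
      · exact conn_of_restr hPK h1 h2 hc h3
    · intro y z h
      rcases hhat y z h with rfl | ⟨h1, h2, c, hc, h3⟩
      · exact Conn.refl _ _
      · exact conn_of_restr hPL h1 h2 hc h3
  -- the sequence of states
  have hnext : ∀ (n : ℕ) (s : FState f E C PK PL), ∃ s' : FState f E C PK PL,
      (∀ g, s.K g ⊆ s'.K g) ∧ (∀ g, s.L g ⊆ s'.L g) ∧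
      (∀ g, (s'.K g).Nonempty → (s.K g).Nonempty ∨ g ∈ C) ∧
      (∀ g, (s'.L g).Nonempty → (s.L g).Nonempty ∨ g ∈ C) ∧
      (∀ y z, Conn (un PK s.K) y z → (∃ c ∈ C, c • y = z) → Conn (un PL s'.L) y z) ∧
      (∀ y z, Conn (un PL s.L) y z → (∃ c ∈ C, c • y = z) → Conn (un PK s'.K) y z) ∧
      dcost ν s'.K + dcost ν s'.L + ν (Root f E s'.S) ≤
        dcost ν s.K + dcost ν s.L + ν (Root f E s.S) + ε n := by
    intro n s
    obtain ⟨K', L', S', h1, h2⟩ := fold_double ν hfree hf hinj hb hE hground mPK hPK mPL hPL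
      s.good (η := (ε n : ℝ≥0∞)) (by exact_mod_cast hε n)
    exact ⟨⟨K', L', S', h1⟩, h2⟩
  choose next hn1 hn2 hn3 hn4 hn5 hn6 hn7 using hnext
  let s : ℕ → FState f E C PK PL := fun n => Nat.rec ⟨K, L, ⊥, hstart⟩ (fun n s => next n s) n
  have hs0 : s 0 = ⟨K, L, ⊥, hstart⟩ := rfl
  have hs : ∀ n, s (n + 1) = next n (s n) := fun n => rfl
  have hKmono : ∀ g, Monotone fun n => (s n).K g := fun g =>
    monotone_nat_of_le_succ fun n => by rw [hs]; exact hn1 n (s n) g
  have hLmono : ∀ g, Monotone fun n => (s n).L g := fun g =>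
    monotone_nat_of_le_succ fun n => by rw [hs]; exact hn2 n (s n) g
  have hroot0 : Root f E (⊥ : Setoid Y) ⊆ Eᶜ := fun y hy => (hy y rfl).2
  have hcost : ∀ n, dcost ν (s n).K + dcost ν (s n).L + ν (Root f E (s n).S) ≤
      dcost ν K + dcost ν L + ν Eᶜ + ∑ i ∈ Finset.range n, (ε i : ℝ≥0∞) := by
    intro n
    induction n with
    | zero =>
      rw [hs0, Finset.sum_range_zero, add_zero]
      exact add_le_add le_rfl (measure_mono hroot0)
    | succ n ih =>
      rw [hs, Finset.sum_range_succ, ← add_assoc]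
      exact (hn7 n (s n)).trans (add_le_add ih le_rfl)
  have hcost' : ∀ n, dcost ν (s n).K + dcost ν (s n).L ≤
      dcost ν K + dcost ν L + ν Eᶜ + η := by
    intro n
    refine le_self_add.trans ((hcost n).trans (add_le_add le_rfl ?_))
    exact (ENNReal.sum_le_tsum _).trans hεsum.le
  have hKn : ∀ n g, ((s n).K g).Nonempty → (K g).Nonempty ∨ g ∈ C := by
    intro n
    induction n with
    | zero => intro g hg; exact Or.inl hg
    | succ n ih =>
      intro g hg
      rw [hs] at hg
      rcases hn3 n (s n) g hg with h | h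
      · exact ih g h
      · exact Or.inr h
  have hLn : ∀ n g, ((s n).L g).Nonempty → (L g).Nonempty ∨ g ∈ C := by
    intro n
    induction n with
    | zero => intro g hg; exact Or.inl hg
    | succ n ih =>
      intro g hg
      rw [hs] at hg
      rcases hn4 n (s n) g hg with h | h
      · exact ih g h
      · exact Or.inr h
  refine ⟨fun g => ⋃ n, (s n).K g, fun g => ⋃ n, (s n).L g,
    fun g => MeasurableSet.iUnion fun n => (s n).good.mK g,
    fun g => MeasurableSet.iUnion fun n => (s n).good.mL g,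
    fun g => Set.subset_iUnion (fun n => (s n).K g) 0,
    fun g => Set.subset_iUnion (fun n => (s n).L g) 0, ?_, ?_, ?_,
    dcost_add_iUnion_le ν _ _ hKmono hLmono hcost'⟩
  · rintro g ⟨y, hy⟩
    obtain ⟨n, hn⟩ := Set.mem_iUnion.1 hy
    exact hKn n g ⟨y, hn⟩
  · rintro g ⟨y, hy⟩
    obtain ⟨n, hn⟩ := Set.mem_iUnion.1 hy
    exact hLn n g ⟨y, hn⟩
  · intro y z hc
    constructor
    · intro h
      obtain ⟨n, hn⟩ := conn_iUnion (fun n => (s n).K) hKmono h
      have h1 := hn5 n (s n) y z hn hc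
      rw [← hs] at h1
      exact conn_un_mono (fun g => Set.subset_iUnion (fun n => (s n).L g) (n + 1)) h1
    · intro h
      obtain ⟨n, hn⟩ := conn_iUnion (fun n => (s n).L) hLmono h
      have h1 := hn6 n (s n) y z hn hc
      rw [← hs] at h1
      exact conn_un_mono (fun g => Set.subset_iUnion (fun n => (s n).K g) (n + 1)) h1

omit [Countable Γ] [MeasurableSpace Y] [MeasurableConstSMul Γ Y] in
theorem conn_label {D : Γ → Set Y} {H : Subgroup Γ} (hD : ∀ g, (D g).Nonempty → g ∈ H)
    {y z : Y} (h : Conn D y z) : ∃ a ∈ H, z = a • y := by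
  induction h with
  | rel a b h =>
    obtain ⟨g, hg, rfl⟩ := h
    exact ⟨g, hD g ⟨a, hg⟩, rfl⟩
  | refl a => exact ⟨1, H.one_mem, (one_smul _ _).symm⟩
  | symm a b _ ih =>
    obtain ⟨g, hg, rfl⟩ := ih
    exact ⟨g⁻¹, H.inv_mem hg, (inv_smul_smul _ _).symm⟩
  | trans a b c _ _ ih1 ih2 =>
    obtain ⟨g, hg, rfl⟩ := ih1
    obtain ⟨h, hh, rfl⟩ := ih2
    exact ⟨h * g, H.mul_mem hh hg, (mul_smul _ _ _).symm⟩

/-- The folding theorem. -/
theorem folding [StandardBorelSpace Y] (ν : Measure Y) [IsFiniteMeasure ν]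
    (hfree : ∀ (g : Γ) (y : Y), g • y = y → g = 1) (A B : Subgroup Γ)
    (hnf : NormalForm A B) {E : Set Y} (hE : MeasurableSet E)
    (hground : ∀ y : Y, ∃ c ∈ A ⊓ B, c • y ∈ E) {K L : Γ → Set Y}
    (mK : ∀ g, MeasurableSet (K g)) (mL : ∀ g, MeasurableSet (L g))
    (hKA : ∀ g, (K g).Nonempty → g ∈ A) (hLB : ∀ g, (L g).Nonempty → g ∈ B)
    (hgen : ∀ (y : Y) (g : Γ), Conn (fun h => restr B E h ∪ K h ∪ L h) y (g • y))
    {η : ℝ≥0∞} (hη : 0 < η) :
    ∃ (K' L' : Γ → Set Y), (∀ g, MeasurableSet (K' g)) ∧ (∀ g, MeasurableSet (L' g)) ∧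
      (∀ g, (K' g).Nonempty → g ∈ A) ∧ (∀ g, (L' g).Nonempty → g ∈ B) ∧
      (∀ y : Y, ∀ a ∈ A, Conn (un (restr (A ⊓ B) E) K') y (a • y)) ∧
      (∀ y : Y, ∀ b ∈ B, Conn (un (restr B E) L') y (b • y)) ∧
      dcost ν K' + dcost ν L' ≤ dcost ν K + dcost ν L + ν Eᶜ + η := by
  obtain ⟨f0, hf0⟩ := exists_measurableEmbedding_real Y
  have hmr : ∀ (H : Subgroup Γ) (g : Γ), MeasurableSet (restr H E g) := by
    intro H g
    exact (MeasurableSet.const (g ∈ H)).inter (hE.inter (hE.preimage (measurable_const_smul g)))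
  obtain ⟨K', L', mK', mL', hKK', hLL', hKn, hLn, hcap, hcost⟩ := folding_aux ν hfree
    (f := fun y => Real.arctan (f0 y)) (Real.measurable_arctan.comp hf0.measurable)
    (Real.arctan_injective.comp hf0.injective) (b := -(Real.pi / 2))
    (fun y => (Real.neg_pi_div_two_lt_arctan _).le) hE hground
    (hmr (A ⊓ B)) (fun g => subset_rfl) (hmr B)
    (fun g y hy => ⟨(Subgroup.mem_inf.1 hy.1).2, hy.2⟩) mK mL hη
  have hKA' : ∀ g, (K' g).Nonempty → g ∈ A := by
    intro g hg
    rcases hKn g hg with h | h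
    · exact hKA g h
    · exact (Subgroup.mem_inf.1 h).1
  have hLB' : ∀ g, (L' g).Nonempty → g ∈ B := by
    intro g hg
    rcases hLn g hg with h | h
    · exact hLB g h
    · exact (Subgroup.mem_inf.1 h).2
  let k : Setoid Y := ⟨Conn (un (restr (A ⊓ B) E) K'), Conn.refl _, fun h => h.symm,
    fun h h' => h.trans h'⟩
  let l : Setoid Y := ⟨Conn (un (restr B E) L'), Conn.refl _, fun h => h.symm,
    fun h h' => h.trans h'⟩
  have hk : ∀ w w' : Y, k w w' → ∃ a ∈ A, id w' = a • id w := by
    intro w w' h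
    refine conn_label ?_ (show Conn (un (restr (A ⊓ B) E) K') w w' from h)
    rintro g ⟨y, hy | hy⟩
    · exact (Subgroup.mem_inf.1 hy.1).1
    · exact hKA' g ⟨y, hy⟩
  have hl : ∀ w w' : Y, l w w' → ∃ a ∈ B, id w' = a • id w := by
    intro w w' h
    refine conn_label ?_ (show Conn (un (restr B E) L') w w' from h)
    rintro g ⟨y, hy | hy⟩
    · exact hy.1
    · exact hLB' g ⟨y, hy⟩
  have hkl : ∀ w w' : Y, (∃ c, c ∈ A ∧ c ∈ B ∧ id w' = c • id w) → (k w w' ↔ l w w') := by
    rintro w w' ⟨c, hcA, hcB, hc⟩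
    exact hcap w w' ⟨c, Subgroup.mem_inf.2 ⟨hcA, hcB⟩, hc.symm⟩
  have hsup : ∀ (y : Y) (g : Γ), (k ⊔ l) y (g • y) := by
    intro y g
    have key : ∀ z w : Y, Conn (fun h => restr B E h ∪ K h ∪ L h) z w → (k ⊔ l) z w := by
      intro z w h
      induction h with
      | rel a b h =>
        obtain ⟨g, hg, rfl⟩ := h
        rcases hg with (hg | hg) | hg
        · exact (le_sup_right : l ≤ k ⊔ l) (Conn.of_mem (D := un (restr B E) L') (Or.inl hg))
        · exact (le_sup_left : k ≤ k ⊔ l)
            (Conn.of_mem (D := un (restr (A ⊓ B) E) K') (Or.inr (hKK' g hg)))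
        · exact (le_sup_right : l ≤ k ⊔ l)
            (Conn.of_mem (D := un (restr B E) L') (Or.inr (hLL' g hg)))
      | refl a => exact (k ⊔ l).refl' a
      | symm a b _ ih => exact (k ⊔ l).symm' ih
      | trans a b c _ _ ih1 ih2 => exact (k ⊔ l).trans' ih1 ih2
    exact key _ _ (hgen y g)
  refine ⟨K', L', mK', mL', hKA', hLB', ?_, ?_, hcost⟩
  · intro y a ha
    exact nf_lemma hfree A B hnf id k l hk hl hkl (hsup y a) ⟨a, ha, rfl⟩
  · intro y b hb
    exact nf_lemma' hfree A B hnf id k l hk hl hkl (hsup y b) ⟨b, hb, rfl⟩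

end Folding

end Vale.Agent.P189
end
end

section

section

set_option autoImplicit false

open MeasureTheory
open scoped ENNReal

namespace Vale.Agent.P189

namespace CompressAux

variable {Γ X : Type} [Group Γ] [MulAction Γ X]

/-- The remaining edges of `D0` with label `t.1`, sorted according to the total labels of the
ends; `D` is the family of all edges. -/
def rpiece (D D0 : Γ → Set X) (E : Set X) (c : ℕ → Γ × Bool) (t : Γ × Γ × Γ) : Set X :=
  (D0 t.1 \ rem D E c t.1) ∩ ((good D E ∩ {x | rhoF D E c x = t.2.1}) ∩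
    (t.1 • ·) ⁻¹' (good D E ∩ {x | rhoF D E c x = t.2.2}))

/-- The new labelled graph on `E`. -/
def rnewD (D D0 : Γ → Set X) (E : Set X) (c : ℕ → Γ × Bool) (k : Γ) : Set X :=
  ⋃ t : Γ × Γ × Γ, {_x | t.2.2 * t.1 * t.2.1⁻¹ = k} ∩ (t.2.1⁻¹ • ·) ⁻¹' rpiece D D0 E c t

variable {D D0 S : Γ → Set X} {E : Set X} {c : ℕ → Γ × Bool}

theorem rnewD_mem (hc : Function.Surjective c) {k : Γ} {x : X} (hx : x ∈ rnewD D D0 E c k) :
    x ∈ E ∧ k • x ∈ E := by
  obtain ⟨t, ht, hx⟩ := Set.mem_iUnion.1 hx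
  obtain ⟨g, α, β⟩ := t
  have ht' : β * g * α⁻¹ = k := ht
  obtain ⟨-, ⟨h1, h2⟩, h3, h4⟩ := hx
  have h2' : rhoF D E c (α⁻¹ • x) = α := h2
  have h4' : rhoF D E c (g • α⁻¹ • x) = β := h4
  have h5 := rhoF_smul_mem (c := c) hc h1
  have h6 := rhoF_smul_mem (c := c) hc h3
  constructor
  · have : rhoF D E c (α⁻¹ • x) • (α⁻¹ • x) = x := by
      rw [h2', smul_inv_smul]
    rw [← this]
    exact h5
  · have : rhoF D E c (g • α⁻¹ • x) • (g • α⁻¹ • x) = k • x := by
      rw [h4', ← ht', mul_smul, mul_smul]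
    rw [← this]
    exact h6

theorem rnewD_conn (hc : Function.Surjective c) (hS : ∀ g y, y ∈ S g → y ∈ E ∧ g • y ∈ E)
    {x y : X} (h : Conn (un S D0) x y) :
    x ∈ good (un S D0) E → Conn (un S (rnewD (un S D0) D0 E c))
      (rhoF (un S D0) E c x • x) (rhoF (un S D0) E c y • y) := by
  induction h with
  | rel x y h =>
    intro hx
    obtain ⟨g, hg, rfl⟩ := h
    by_cases hr : x ∈ rem (un S D0) E c g
    · rw [rem_retract hc hr]
      exact Conn.refl _ _
    · rcases hg with hg | hg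
      · obtain ⟨h1, h2⟩ := hS g x hg
        rw [rhoF_of_mem hc h1, rhoF_of_mem hc h2, one_smul, one_smul]
        exact Conn.of_mem (D := un S (rnewD (un S D0) D0 E c)) (Or.inl hg)
      · refine Relation.EqvGen.rel _ _ ⟨rhoF (un S D0) E c (g • x) * g *
          (rhoF (un S D0) E c x)⁻¹, ?_, ?_⟩
        · refine Or.inr (Set.mem_iUnion.2 ⟨(g, rhoF (un S D0) E c x,
            rhoF (un S D0) E c (g • x)), rfl, ?_⟩)
          have h1 : (rhoF (un S D0) E c x)⁻¹ • rhoF (un S D0) E c x • x = x := inv_smul_smul _ _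
          have h2 : x ∈ rpiece (un S D0) D0 E c (g, rhoF (un S D0) E c x,
              rhoF (un S D0) E c (g • x)) :=
            ⟨⟨hg, hr⟩, ⟨hx, rfl⟩, (good_iff (D := un S D0) (Or.inr hg)).1 hx, rfl⟩
          show (rhoF (un S D0) E c x)⁻¹ • rhoF (un S D0) E c x • x ∈
            rpiece (un S D0) D0 E c (g, rhoF (un S D0) E c x, rhoF (un S D0) E c (g • x))
          rw [h1]
          exact h2
        · rw [mul_smul, inv_smul_smul, mul_smul]
  | refl x => intro _; exact Conn.refl _ _
  | symm x y h ih =>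
    intro hy
    exact Conn.symm (ih ((conn_good h).2 hy))
  | trans x y z h1 h2 ih1 ih2 =>
    intro hx
    exact (ih1 hx).trans (ih2 ((conn_good h1).1 hx))

theorem rem_subset_right (hS : ∀ g y, y ∈ S g → y ∈ E ∧ g • y ∈ E) (g : Γ) :
    rem (un S D0) E c g ⊆ D0 g := by
  intro x hx
  have h1 : x ∈ un S D0 g := rem_subset g hx
  rcases h1 with h1 | h1
  · exfalso
    obtain ⟨hxE, hgE⟩ := hS g x h1
    rcases hx with hx | hx
    · exact (cand_subset (sel_subset_cand hx)).2 hxE
    · exact (cand_subset (sel_subset_cand hx)).2 hgE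
  · exact h1

theorem lab_mem {H : Subgroup Γ} (hD : ∀ g, (D g).Nonempty → g ∈ H) (x : X) :
    lab D E c x ∈ H := by
  by_cases h : ∃ q, x ∈ sel D E c q
  · obtain ⟨q, hq⟩ := h
    rw [lab_of_sel hq]
    obtain ⟨n, -, -, h3⟩ := mem_cand.1 (sel_subset_cand hq)
    rcases h3 with ⟨-, h3⟩ | ⟨-, h3⟩
    · exact hD _ ⟨_, h3⟩
    · exact H.inv_mem_iff.1 (hD _ ⟨_, h3⟩)
  · unfold lab
    rw [dif_neg h]
    exact H.one_mem

theorem rho_mem {H : Subgroup Γ} (hD : ∀ g, (D g).Nonempty → g ∈ H) (n : ℕ) (x : X) :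
    rho D E c n x ∈ H := by
  induction n generalizing x with
  | zero => exact H.one_mem
  | succ n ih => exact H.mul_mem (ih _) (lab_mem hD x)

theorem rhoF_mem {H : Subgroup Γ} (hD : ∀ g, (D g).Nonempty → g ∈ H) (x : X) :
    rhoF D E c x ∈ H := by
  unfold rhoF
  split_ifs
  · exact rho_mem hD _ _
  · exact H.one_mem

theorem rnewD_label {H : Subgroup Γ} (hD : ∀ g, (D g).Nonempty → g ∈ H)
    (hD0 : ∀ g, (D0 g).Nonempty → g ∈ H) (k : Γ) (hk : (rnewD D D0 E c k).Nonempty) :
    k ∈ H := by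
  obtain ⟨x, hx⟩ := hk
  obtain ⟨t, ht, hx⟩ := Set.mem_iUnion.1 hx
  have ht' : t.2.2 * t.1 * t.2.1⁻¹ = k := ht
  obtain ⟨⟨h0, -⟩, ⟨-, h2⟩, -, h4⟩ := hx
  have h2' : rhoF D E c (t.2.1⁻¹ • x) = t.2.1 := h2
  have h4' : rhoF D E c (t.1 • t.2.1⁻¹ • x) = t.2.2 := h4
  rw [← ht']
  refine H.mul_mem (H.mul_mem ?_ (hD0 _ ⟨_, h0⟩)) (H.inv_mem ?_)
  · rw [← h4']; exact rhoF_mem hD _
  · rw [← h2']; exact rhoF_mem hD _

section Meas3

variable [MeasurableSpace X] [MeasurableConstSMul Γ X] [Countable Γ]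
  (hD : ∀ g, MeasurableSet (D g)) (hD0 : ∀ g, MeasurableSet (D0 g)) (hE : MeasurableSet E)

include hD hD0 hE in
theorem measurable_rpiece (hc : Function.Surjective c) (t : Γ × Γ × Γ) :
    MeasurableSet (rpiece D D0 E c t) :=
  ((hD0 _).diff (measurable_rem hD hE _)).inter ((measurable_rhoF hD hE hc _).inter
    ((measurable_rhoF hD hE hc _).preimage (measurable_const_smul t.1)))

include hD hD0 hE in
theorem measurable_rnewD (hc : Function.Surjective c) (k : Γ) :
    MeasurableSet (rnewD D D0 E c k) :=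
  MeasurableSet.iUnion fun _ => (MeasurableSet.const _).inter
    ((measurable_rpiece hD hD0 hE hc _).preimage (measurable_const_smul _))

variable (μ : Measure X)

include hD hD0 hE in
theorem tsum_rpiece_le (hc : Function.Surjective c) (g : Γ) :
    ∑' t : Γ × Γ, μ (rpiece D D0 E c (g, t)) ≤ μ (D0 g \ rem D E c g) := by
  rw [← measure_iUnion]
  · refine measure_mono (Set.iUnion_subset fun t => ?_)
    exact Set.inter_subset_left
  · intro t t' htt'
    show Disjoint _ _
    rw [Set.disjoint_left]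
    rintro x ⟨-, ⟨-, h1⟩, -, h2⟩ ⟨-, ⟨-, h3⟩, -, h4⟩
    apply htt'
    have h1' : rhoF D E c x = t.1 := h1
    have h2' : rhoF D E c (g • x) = t.2 := h2
    have h3' : rhoF D E c x = t'.1 := h3
    have h4' : rhoF D E c (g • x) = t'.2 := h4
    exact Prod.ext (h1'.symm.trans h3') (h2'.symm.trans h4')
  · intro t
    exact measurable_rpiece hD hD0 hE hc _

variable [SMulInvariantMeasure Γ X μ]

include hD hD0 hE in
theorem dcost_rnewD_le (hc : Function.Surjective c) :
    dcost μ (rnewD D D0 E c) ≤ ∑' g, μ (D0 g \ rem D E c g) := by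
  classical
  calc dcost μ (rnewD D D0 E c)
      ≤ ∑' k : Γ, ∑' t : Γ × Γ × Γ,
          (if t.2.2 * t.1 * t.2.1⁻¹ = k then μ (rpiece D D0 E c t) else 0) := by
        refine ENNReal.tsum_le_tsum fun k => ?_
        refine (measure_iUnion_le _).trans (ENNReal.tsum_le_tsum fun t => ?_)
        by_cases h : t.2.2 * t.1 * t.2.1⁻¹ = k
        · rw [if_pos h]
          refine (measure_mono Set.inter_subset_right).trans ?_
          rw [measure_preimage_smul]
        · rw [if_neg h]
          simp [h]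
    _ = ∑' t : Γ × Γ × Γ, ∑' k : Γ,
          (if t.2.2 * t.1 * t.2.1⁻¹ = k then μ (rpiece D D0 E c t) else 0) :=
        ENNReal.tsum_comm
    _ = ∑' t : Γ × Γ × Γ, μ (rpiece D D0 E c t) := by
        refine tsum_congr fun t => ?_
        exact tsum_ite_eq' _ _
    _ = ∑' g : Γ, ∑' t : Γ × Γ, μ (rpiece D D0 E c (g, t)) := ENNReal.tsum_prod'
    _ ≤ ∑' g, μ (D0 g \ rem D E c g) :=
        ENNReal.tsum_le_tsum fun g => tsum_rpiece_le hD hD0 hE μ hc g

end Meas3

end CompressAux

open CompressAux in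
/-- Relative compression: a labelled family `D` which together with the family `S` of edges
inside `E` connects every point to `E` can be pushed into `E`, with loss of cost at least the
measure of the complement of `E`. -/
theorem relCompress {Γ Y : Type} [Group Γ] [Countable Γ] [MeasurableSpace Y] (ν : Measure Y)
    [IsFiniteMeasure ν] [MulAction Γ Y] [MeasurableConstSMul Γ Y] [SMulInvariantMeasure Γ Y ν]
    {S D : Γ → Set Y} (mS : ∀ g, MeasurableSet (S g)) (mD : ∀ g, MeasurableSet (D g))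
    {E : Set Y} (hE : MeasurableSet E) (hS : ∀ g y, y ∈ S g → y ∈ E ∧ g • y ∈ E)
    (hgood : ∀ y, ∃ e ∈ E, Conn (un S D) y e) :
    ∃ D' : Γ → Set Y, (∀ g, MeasurableSet (D' g)) ∧
      (∀ g y, y ∈ D' g → y ∈ E ∧ g • y ∈ E) ∧
      (∀ H : Subgroup Γ, (∀ g, (S g).Nonempty → g ∈ H) → (∀ g, (D g).Nonempty → g ∈ H) →
        ∀ g, (D' g).Nonempty → g ∈ H) ∧
      (∀ x ∈ E, ∀ y ∈ E, Conn (un S D) x y → Conn (un S D') x y) ∧
      dcost ν D' + ν Eᶜ ≤ dcost ν D := by
  obtain ⟨c, hc⟩ := exists_surjective_nat (Γ × Bool)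
  have mSD : ∀ g, MeasurableSet (un S D g) := fun g => (mS g).union (mD g)
  refine ⟨rnewD (un S D) D E c, measurable_rnewD mSD mD hE hc, fun g x hx => rnewD_mem hc hx,
    ?_, ?_, ?_⟩
  · intro H h1 h2 k hk
    refine rnewD_label ?_ h2 k hk
    rintro g ⟨y, hy | hy⟩
    · exact h1 g ⟨y, hy⟩
    · exact h2 g ⟨y, hy⟩
  · intro x hx y hy h
    have h1 := rnewD_conn (c := c) hc hS h (subset_good hx)
    rwa [rhoF_of_mem hc hx, rhoF_of_mem hc hy, one_smul, one_smul] at h1
  · have hall : ∀ x, x ∈ good (un S D) E := by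
      intro x
      obtain ⟨e, he, h⟩ := hgood x
      exact (conn_good h).2 (subset_good he)
    have h1 : Eᶜ = good (un S D) E \ E := by
      ext x
      exact ⟨fun h => ⟨hall x, h⟩, fun h => h.2⟩
    rw [h1, ← tsum_rem mSD hE ν hc]
    refine (add_le_add (dcost_rnewD_le mSD mD hE ν hc) le_rfl).trans ?_
    rw [← ENNReal.tsum_add]
    refine ENNReal.tsum_le_tsum fun g => ?_
    rw [measure_sdiff (rem_subset_right hS g) (measurable_rem mSD hE g).nullMeasurableSet
      (measure_ne_top _ _)]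
    rw [tsub_add_cancel_of_le (measure_mono (rem_subset_right hS g))]

/-- The abstract amalgam lemma. -/
theorem amalgam_abs {Γ Y : Type} [Group Γ] [Countable Γ] [MeasurableSpace Y]
    [StandardBorelSpace Y] (ν : Measure Y) [IsFiniteMeasure ν] [MulAction Γ Y]
    [MeasurableConstSMul Γ Y] [SMulInvariantMeasure Γ Y ν]
    (hfree : ∀ (g : Γ) (y : Y), g • y = y → g = 1) (A B : Subgroup Γ)
    (hnf : NormalForm A B) {E : Set Y} (hE : MeasurableSet E)
    (hground : ∀ y : Y, ∃ c ∈ A ⊓ B, c • y ∈ E) {K L : Γ → Set Y}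
    (mK : ∀ g, MeasurableSet (K g)) (mL : ∀ g, MeasurableSet (L g))
    (hKA : ∀ g, (K g).Nonempty → g ∈ A) (hLB : ∀ g, (L g).Nonempty → g ∈ B)
    (hgen : ∀ (y : Y) (g : Γ), Conn (fun h => restr B E h ∪ K h ∪ L h) y (g • y))
    {η : ℝ≥0∞} (hη : 0 < η) :
    ∃ D' : Γ → Set Y, (∀ g, MeasurableSet (D' g)) ∧ (∀ g, (D' g).Nonempty → g ∈ A) ∧
      (∀ g y, y ∈ D' g → y ∈ E ∧ g • y ∈ E) ∧
      (∀ x ∈ E, ∀ a ∈ A, a • x ∈ E → Conn (un (restr (A ⊓ B) E) D') x (a • x)) ∧
      dcost ν D' + ν Eᶜ ≤ dcost ν K + dcost ν L + η := by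
  obtain ⟨K', L', mK', mL', hKA', hLB', hK, hL, hcost⟩ :=
    folding ν hfree A B hnf hE hground mK mL hKA hLB hgen hη
  have hmr : ∀ (H : Subgroup Γ) (g : Γ), MeasurableSet (restr H E g) := by
    intro H g
    exact (MeasurableSet.const (g ∈ H)).inter (hE.inter (hE.preimage (measurable_const_smul g)))
  have hend : ∀ (H : Subgroup Γ) (g : Γ) (y : Y), y ∈ restr H E g → y ∈ E ∧ g • y ∈ E :=
    fun H g y hy => hy.2
  obtain ⟨D1, -, -, -, -, hc1⟩ := relCompress ν (hmr B) mL' hE (hend B) (fun y => by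
    obtain ⟨c, hc, hcE⟩ := hground y
    exact ⟨c • y, hcE, hL y c (Subgroup.mem_inf.1 hc).2⟩)
  obtain ⟨D2, m2, he2, hl2, hc2, hcost2⟩ := relCompress ν (hmr (A ⊓ B)) mK' hE (hend (A ⊓ B))
    (fun y => by
      obtain ⟨c, hc, hcE⟩ := hground y
      exact ⟨c • y, hcE, hK y c (Subgroup.mem_inf.1 hc).1⟩)
  refine ⟨D2, m2, hl2 A ?_ hKA', he2, ?_, ?_⟩
  · rintro g ⟨y, hy⟩
    exact (Subgroup.mem_inf.1 hy.1).1
  · intro x hx a ha hax
    exact hc2 x hx _ hax (hK x a ha)
  · have hE1 : ν Eᶜ ≤ dcost ν L' := le_add_self.trans hc1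
    have h1 : dcost ν D2 + ν Eᶜ + ν Eᶜ ≤ dcost ν K + dcost ν L + η + ν Eᶜ := by
      calc dcost ν D2 + ν Eᶜ + ν Eᶜ ≤ dcost ν K' + dcost ν L' := add_le_add hcost2 hE1
        _ ≤ dcost ν K + dcost ν L + ν Eᶜ + η := hcost
        _ = dcost ν K + dcost ν L + η + ν Eᶜ := by ring
    exact (ENNReal.add_le_add_iff_right (measure_ne_top _ _)).1 h1

end Vale.Agent.P189
end
end

section

section

set_option autoImplicit false
set_option linter.unusedSectionVars false

open MeasureTheory
open scoped ENNReal Pointwise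

namespace Vale.Agent.P189

/-- The abstract amalgam lemma (statement). -/
def AmalgamAbs : Prop :=
  ∀ (Γ Y : Type) [Group Γ] [Countable Γ] [MeasurableSpace Y] [StandardBorelSpace Y]
    (ν : Measure Y) [IsFiniteMeasure ν] [MulAction Γ Y] [MeasurableConstSMul Γ Y]
    [SMulInvariantMeasure Γ Y ν] (_hfree : ∀ (g : Γ) (y : Y), g • y = y → g = 1)
    (A B : Subgroup Γ) (_hnf : NormalForm A B) (E : Set Y) (_hE : MeasurableSet E)
    (_hground : ∀ y : Y, ∃ c : Γ, c ∈ A ∧ c ∈ B ∧ c • y ∈ E)
    (K L : Γ → Set Y) (_hK : ∀ g, MeasurableSet (K g)) (_hL : ∀ g, MeasurableSet (L g))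
    (_hKA : ∀ g, (K g).Nonempty → g ∈ A) (_hLB : ∀ g, (L g).Nonempty → g ∈ B)
    (_hgen : ∀ (y : Y) (g : Γ), Conn (fun h => restr B E h ∪ K h ∪ L h) y (g • y))
    (_hfin : dcost ν K + dcost ν L ≠ ⊤) (η : ℝ≥0∞) (_hη : 0 < η),
    ∃ D' : Γ → Set Y, (∀ g, MeasurableSet (D' g)) ∧ (∀ g, (D' g).Nonempty → g ∈ A) ∧
      (∀ g y, y ∈ D' g → y ∈ E ∧ g • y ∈ E) ∧
      (∀ x ∈ E, ∀ a ∈ A, a • x ∈ E → Conn (fun h => restr (A ⊓ B) E h ∪ D' h) x (a • x)) ∧
      dcost ν D' + ν Eᶜ ≤ dcost ν K + dcost ν L + η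

/-- Every element is joined to `1` by a finite path with steps in `A ∪ B`. -/
theorem exists_path {G : Type} [Group G] (A B : Subgroup G) (hAB : A ⊔ B = ⊤) (g : G) :
    ∃ (n : ℕ) (P : ℕ → G), P 0 = 1 ∧ (∀ i, n ≤ i → P i = g) ∧
      ∀ i, P (i + 1) * (P i)⁻¹ ∈ A ∨ P (i + 1) * (P i)⁻¹ ∈ B := by
  have hg : g ∈ Subgroup.closure ((A : Set G) ∪ (B : Set G)) := by
    rw [← Subgroup.sup_eq_closure, hAB]
    trivial
  have step : ∀ (s : G), (s ∈ A ∨ s ∈ B) → ∀ y : G,
      (∃ (n : ℕ) (P : ℕ → G), P 0 = 1 ∧ (∀ i, n ≤ i → P i = y) ∧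
        ∀ i, P (i + 1) * (P i)⁻¹ ∈ A ∨ P (i + 1) * (P i)⁻¹ ∈ B) →
      ∃ (n : ℕ) (P : ℕ → G), P 0 = 1 ∧ (∀ i, n ≤ i → P i = s * y) ∧
        ∀ i, P (i + 1) * (P i)⁻¹ ∈ A ∨ P (i + 1) * (P i)⁻¹ ∈ B := by
    rintro s hs y ⟨n, P, h0, h1, h2⟩
    refine ⟨n + 1, fun i => if i ≤ n then P i else s * y, by simp [h0], ?_, ?_⟩
    · intro i hi
      show (if i ≤ n then P i else s * y) = s * y
      rw [if_neg (by omega)]
    · intro i
      rcases lt_trichotomy i n with h | h | h
      · simp only [if_pos h.le, if_pos (Nat.succ_le_of_lt h)]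
        exact h2 i
      · subst h
        simp only [le_refl, if_true, if_neg (by omega : ¬ (i + 1 ≤ i)), h1 i le_rfl]
        rw [mul_inv_cancel_right]
        exact hs
      · simp only [if_neg (by omega : ¬ (i + 1 ≤ n)), if_neg (by omega : ¬ (i ≤ n))]
        rw [mul_inv_cancel]
        exact Or.inl A.one_mem
  induction hg using Subgroup.closure_induction_left with
  | one => exact ⟨0, fun _ => 1, rfl, fun _ _ => rfl, fun i => by simp [A.one_mem]⟩
  | mul_left x hx y hy ih => exact step x hx y ih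
  | inv_mul_cancel x hx y hy ih =>
    refine step x⁻¹ ?_ y ih
    rcases hx with hx | hx
    · exact Or.inl (A.inv_mem hx)
    · exact Or.inr (B.inv_mem hx)

section Tok

/-- Points with a level in a finite group `T`. -/
def Tok (X T : Type) : Type := X × T

variable {G X T : Type}

instance [MeasurableSpace X] [MeasurableSpace T] : MeasurableSpace (Tok X T) :=
  inferInstanceAs (MeasurableSpace (X × T))

instance [MeasurableSpace X] [MeasurableSpace T] [StandardBorelSpace X]
    [StandardBorelSpace T] : StandardBorelSpace (Tok X T) :=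
  inferInstanceAs (StandardBorelSpace (X × T))

instance [Group G] [Group T] [MulAction G X] : MulAction (G × T) (Tok X T) where
  smul γ y := (γ.1 • y.1, γ.2 * y.2)
  one_smul y := by
    show ((1 : G) • y.1, (1 : T) * y.2) = (y : X × T)
    rw [one_smul, one_mul]
    rfl
  mul_smul γ γ' y := by
    show ((γ.1 * γ'.1) • y.1, (γ.2 * γ'.2) * y.2) = (γ.1 • γ'.1 • y.1, γ.2 * (γ'.2 * y.2))
    rw [mul_smul, mul_assoc]

theorem tok_smul [Group G] [Group T] [MulAction G X] (γ : G × T) (y : Tok X T) :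
    γ • y = ((γ.1 • y.1, γ.2 * y.2) : X × T) := rfl

/-- Constructor. -/
def tok (x : X) (t : T) : Tok X T := (x, t)

theorem tok_smul_mk [Group G] [Group T] [MulAction G X] (g : G) (s : T) (x : X) (t : T) :
    ((g, s) : G × T) • tok x t = tok (g • x) (s * t) := rfl

/-- Product of `μ` and the counting measure. -/
noncomputable def tokMeasure [MeasurableSpace X] [MeasurableSpace T] (μ : Measure X) :
    Measure (Tok X T) :=
  (μ.prod Measure.count : Measure (X × T))

variable [MeasurableSpace X] [MeasurableSpace T] [Fintype T] [DiscreteMeasurableSpace T]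
  (μ : Measure X) [IsFiniteMeasure μ]

instance : IsFiniteMeasure (tokMeasure (T := T) μ) :=
  inferInstanceAs (IsFiniteMeasure (μ.prod Measure.count : Measure (X × T)))

theorem tokMeasure_apply_aux (s : Set (X × T)) (hs : MeasurableSet s) :
    (μ.prod Measure.count) s = ∑ t : T, μ {x | (x, t) ∈ s} := by
  rw [Measure.prod_apply_symm hs, lintegral_count, tsum_fintype]
  rfl

theorem tokMeasure_apply (s : Set (Tok X T)) (hs : MeasurableSet s) :
    tokMeasure μ s = ∑ t : T, μ {x | tok x t ∈ s} :=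
  tokMeasure_apply_aux μ s hs

theorem tok_level_aux (s : Set X) (t : T) :
    (μ.prod Measure.count) (s ×ˢ {t} : Set (X × T)) = μ s := by
  rw [Measure.prod_prod, Measure.count_singleton, mul_one]

theorem tok_level (s : Set X) (t : T) :
    tokMeasure μ ({y : Tok X T | y.1 ∈ s ∧ y.2 = t}) = μ s :=
  tok_level_aux μ s t

instance [Group G] [Group T] [MulAction G X] [MeasurableConstSMul G X] :
    MeasurableConstSMul (G × T) (Tok X T) where
  measurable_const_smul γ := by
    show Measurable (fun y : X × T => (γ.1 • y.1, γ.2 * y.2))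
    exact ((measurable_const_smul γ.1).comp measurable_fst).prodMk
      ((measurable_of_countable _).comp measurable_snd)

instance [Group G] [Group T] [MulAction G X] [MeasurableConstSMul G X]
    [SMulInvariantMeasure G X μ] :
    SMulInvariantMeasure (G × T) (Tok X T) (tokMeasure μ) where
  measure_preimage_smul γ s hs := by
    rw [tokMeasure_apply μ s hs, tokMeasure_apply μ _ (measurable_const_smul γ hs)]
    rw [← Equiv.sum_comp (Equiv.mulLeft γ.2) (fun t => μ {x | tok x t ∈ s})]
    refine Finset.sum_congr rfl fun t _ => ?_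
    exact measure_preimage_smul μ γ.1 {x | tok x (γ.2 * t) ∈ s}

end Tok

section NF

variable {G T : Type} [Group G] [Group T]

theorem Alt.fst {A B : Subgroup G} {s : Bool} {n : ℕ} {γ : G × T}
    (h : Alt (A.prod (⊤ : Subgroup T)) (B.prod ⊤) s n γ) : Alt A B s n γ.1 := by
  induction h with
  | a x h1 h2 => exact Alt.a _ h1.1 (fun h => h2 ⟨h, trivial⟩)
  | b x h1 h2 => exact Alt.b _ h1.1 (fun h => h2 ⟨h, trivial⟩)
  | ca x y n h1 h2 _ ih => exact Alt.ca _ _ n h1.1 (fun h => h2 ⟨h, trivial⟩) ih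
  | cb x y n h1 h2 _ ih => exact Alt.cb _ _ n h1.1 (fun h => h2 ⟨h, trivial⟩) ih

theorem NormalForm.prodTop {A B : Subgroup G} (h : NormalForm A B) :
    NormalForm (A.prod (⊤ : Subgroup T)) (B.prod ⊤) := fun s n g hn ha => by
  obtain ⟨h1, h2⟩ := h s n g.1 hn ha.fst
  exact ⟨fun h => h1 h.1, fun h => h2 h.1⟩

end NF

theorem exists_group_equiv (J : Type) [Fintype J] [Nonempty J] :
    ∃ (T : Type) (_ : Group T) (_ : Fintype T), Nonempty (J ≃ T) := by
  have : NeZero (Fintype.card J) := ⟨Fintype.card_ne_zero⟩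
  refine ⟨Multiplicative (ZMod (Fintype.card J)), inferInstance, inferInstance, ?_⟩
  refine ⟨Fintype.equivOfCardEq ?_⟩
  rw [Fintype.card_multiplicative, ZMod.card]

section Main

variable {G X T : Type} [Group G] [MulAction G X] [Group T] {N : ℕ} {F : Finset G}

/-- The level of the token number `i` of `g`. -/
def lvlOf (e : Option (F × Fin N) ≃ T) (g : F) (i : ℕ) : T :=
  e (if h : 0 < i ∧ i ≤ N then some (g, ⟨i - 1, by omega⟩) else none)

theorem lvlOf_zero (e : Option (F × Fin N) ≃ T) (g : F) : lvlOf e g 0 = e none := by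
  unfold lvlOf
  rw [dif_neg (by omega)]

theorem lvlOf_last (e : Option (F × Fin N) ≃ T) (g : F) : lvlOf e g (N + 1) = e none := by
  unfold lvlOf
  rw [dif_neg (by omega)]

theorem lvlOf_succ (e : Option (F × Fin N) ≃ T) (g : F) (i : Fin N) :
    lvlOf e g (i + 1) = e (some (g, i)) := by
  unfold lvlOf
  rw [dif_pos (by omega)]
  rfl

/-- The ground and the non existing tokens. -/
def grd (D : G → Set X) (P : G → ℕ → G) (e : Option (F × Fin N) ≃ T) : Set (Tok X T) :=
  {y | ∀ k : F × Fin N, y.2 = e (some k) → (P k.1 (k.2 + 1))⁻¹ • y.1 ∉ D k.1}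

/-- Starting points of the links. -/
def lnk (D : G → Set X) (P : G → ℕ → G) (e : Option (F × Fin N) ≃ T)
    (k : F × Fin (N + 1)) : Set (Tok X T) :=
  {y | y.1 ∈ {x : X | (P k.1 k.2)⁻¹ • x ∈ D k.1} ∧ y.2 = lvlOf e k.1 k.2}

/-- Label of the links. -/
def lbl (P : G → ℕ → G) (e : Option (F × Fin N) ≃ T) (k : F × Fin (N + 1)) : G × T :=
  (P k.1 (k.2 + 1) * (P k.1 k.2)⁻¹, lvlOf e k.1 (k.2 + 1) * (lvlOf e k.1 k.2)⁻¹)

/-- Links with label `γ` whose index satisfies `R`. -/
def lks (D : G → Set X) (P : G → ℕ → G) (e : Option (F × Fin N) ≃ T)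
    (R : F × Fin (N + 1) → Prop) (γ : G × T) : Set (Tok X T) :=
  ⋃ k : F × Fin (N + 1), {_y | R k ∧ lbl P e k = γ} ∩ lnk D P e k

variable {D : G → Set X} {P : G → ℕ → G} {e : Option (F × Fin N) ≃ T}

theorem mem_lks {R : F × Fin (N + 1) → Prop} {γ : G × T} {y : Tok X T} :
    y ∈ lks D P e R γ ↔ ∃ k, (R k ∧ lbl P e k = γ) ∧ y ∈ lnk D P e k := by
  unfold lks
  simp only [Set.mem_iUnion, Set.mem_inter_iff, Set.mem_ofPred_eq]

theorem ground_mem (x : X) : tok x (e none) ∈ grd D P e := by
  intro k hk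
  exact absurd (e.injective hk) (by simp)

variable [MeasurableSpace X] [MeasurableSpace T] [Fintype T] [DiscreteMeasurableSpace T]
  [MeasurableConstSMul G X]

theorem measurable_lnk (hD : ∀ g, MeasurableSet (D g)) (k : F × Fin (N + 1)) :
    MeasurableSet (lnk D P e k) := by
  have h1 : MeasurableSet {x : X | (P k.1 k.2)⁻¹ • x ∈ D k.1} := measurable_const_smul _ (hD _)
  exact (h1.prod (measurableSet_singleton (lvlOf e k.1 k.2)) :)

theorem measurable_lks (hD : ∀ g, MeasurableSet (D g)) (R : F × Fin (N + 1) → Prop)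
    (γ : G × T) : MeasurableSet (lks D P e R γ) :=
  MeasurableSet.iUnion fun k => (MeasurableSet.const _).inter (measurable_lnk hD k)

/-- The tokens of index `k`. -/
def tks (D : G → Set X) (P : G → ℕ → G) (e : Option (F × Fin N) ≃ T)
    (k : F × Fin N) : Set (Tok X T) :=
  {y | y.1 ∈ {x : X | (P k.1 (k.2 + 1))⁻¹ • x ∈ D k.1} ∧ y.2 = e (some k)}

theorem measurable_tks (hD : ∀ g, MeasurableSet (D g)) (k : F × Fin N) :
    MeasurableSet (tks D P e k) := by
  have h1 : MeasurableSet {x : X | (P k.1 (k.2 + 1))⁻¹ • x ∈ D k.1} :=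
    measurable_const_smul _ (hD _)
  exact (h1.prod (measurableSet_singleton (e (some k))) :)

theorem compl_grd : (grd D P e)ᶜ = ⋃ k, tks D P e k := by
  ext y
  simp only [grd, tks, Set.mem_compl_iff, Set.mem_ofPred_eq, Set.mem_iUnion, not_forall, not_not]
  constructor
  · rintro ⟨k, h1, h2⟩
    exact ⟨k, h2, h1⟩
  · rintro ⟨k, h1, h2⟩
    exact ⟨k, h2, h1⟩

theorem measurable_grd (hD : ∀ g, MeasurableSet (D g)) : MeasurableSet (grd D P e) := by
  rw [← compl_compl (grd D P e), compl_grd]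
  exact (MeasurableSet.iUnion fun k => measurable_tks hD k).compl

variable (μ : Measure X) [IsFiniteMeasure μ] [SMulInvariantMeasure G X μ]

theorem measure_compl_grd (hD : ∀ g, MeasurableSet (D g)) :
    tokMeasure μ (grd D P e)ᶜ = (N : ℝ≥0∞) * ∑ g ∈ F, μ (D g) := by
  rw [compl_grd, measure_iUnion]
  · rw [tsum_fintype]
    have h : ∀ k : F × Fin N, tokMeasure μ (tks D P e k) = μ (D k.1) := by
      intro k
      rw [tks, tok_level]
      exact measure_preimage_smul μ (P k.1 (k.2 + 1))⁻¹ (D k.1)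
    rw [Finset.sum_congr rfl fun k _ => h k, Fintype.sum_prod_type, Finset.mul_sum,
      ← Finset.sum_coe_sort F]
    refine Finset.sum_congr rfl fun g _ => ?_
    simp
  · intro k k' hkk'
    refine Set.disjoint_left.2 fun y h1 h2 => hkk' ?_
    have h3 : e (some k) = e (some k') := h1.2.symm.trans h2.2
    exact Option.some_injective _ (e.injective h3)
  · exact measurable_tks hD

theorem dcost_lks_le (R R' : F × Fin (N + 1) → Prop)
    (hRR : ∀ k, R k → ¬ R' k) :
    dcost (tokMeasure μ) (lks D P e R) + dcost (tokMeasure μ) (lks D P e R') ≤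
      ((N : ℝ≥0∞) + 1) * ∑ g ∈ F, μ (D g) := by
  classical
  have h : ∀ k : F × Fin (N + 1), tokMeasure μ (lnk D P e k) = μ (D k.1) := by
    intro k
    rw [lnk, tok_level]
    exact measure_preimage_smul μ (P k.1 k.2)⁻¹ (D k.1)
  have h1 : ∀ R : F × Fin (N + 1) → Prop, dcost (tokMeasure μ) (lks D P e R) ≤
      ∑ k : F × Fin (N + 1), if R k then μ (D k.1) else 0 := by
    intro R
    calc dcost (tokMeasure μ) (lks D P e R)
        ≤ ∑' γ : G × T, ∑' k : F × Fin (N + 1),
            (if R k ∧ lbl P e k = γ then μ (D k.1) else 0) := by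
          refine ENNReal.tsum_le_tsum fun γ => ?_
          refine (measure_iUnion_le _).trans (ENNReal.tsum_le_tsum fun k => ?_)
          by_cases hk : R k ∧ lbl P e k = γ
          · rw [if_pos hk, ← h k]
            exact measure_mono Set.inter_subset_right
          · rw [if_neg hk]
            have : ({_y | R k ∧ lbl P e k = γ} ∩ lnk D P e k : Set (Tok X T)) = ∅ := by
              ext y
              simp only [Set.mem_inter_iff, Set.mem_ofPred_eq, Set.mem_empty_iff_false, iff_false]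
              exact fun h => hk h.1
            rw [this]
            simp
      _ = ∑' k : F × Fin (N + 1), ∑' γ : G × T,
            (if R k ∧ lbl P e k = γ then μ (D k.1) else 0) := ENNReal.tsum_comm
      _ = ∑ k : F × Fin (N + 1), if R k then μ (D k.1) else 0 := by
          rw [tsum_fintype]
          refine Finset.sum_congr rfl fun k _ => ?_
          rw [tsum_eq_single (lbl P e k)]
          · simp
          · intro γ hγ
            rw [if_neg]
            rintro ⟨-, h2⟩
            exact hγ h2.symm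
  refine (add_le_add (h1 R) (h1 R')).trans ?_
  rw [← Finset.sum_add_distrib]
  have h2 : ∀ k : F × Fin (N + 1), ((if R k then μ (D k.1) else 0) +
      (if R' k then μ (D k.1) else 0)) ≤ μ (D k.1) := by
    intro k
    by_cases hk : R k
    · rw [if_pos hk, if_neg (hRR k hk), add_zero]
    · rw [if_neg hk, zero_add]
      split_ifs
      · exact le_rfl
      · exact zero_le
  refine (Finset.sum_le_sum fun k _ => h2 k).trans (le_of_eq ?_)
  rw [Fintype.sum_prod_type, Finset.mul_sum, ← Finset.sum_coe_sort F]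
  refine Finset.sum_congr rfl fun g _ => ?_
  simp

end Main

section Connect

variable {G X T : Type} [Group G] [MulAction G X] [Group T] {N : ℕ} {F : Finset G}
  {D : G → Set X} {P : G → ℕ → G} {e : Option (F × Fin N) ≃ T} (A B : Subgroup G)

/-- Index with step in `A`. -/
def stepA (P : G → ℕ → G) (k : F × Fin (N + 1)) : Prop :=
  P k.1 (k.2 + 1) * (P k.1 k.2)⁻¹ ∈ A

/-- The whole graph. -/
def whole (D : G → Set X) (P : G → ℕ → G) (e : Option (F × Fin N) ≃ T) (γ : G × T) :
    Set (Tok X T) :=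
  restr (B.prod (⊤ : Subgroup T)) (grd D P e) γ ∪ lks D P e (stepA A P) γ ∪
    lks D P e (fun k => ¬ stepA A P k) γ

variable {A B}

theorem conn_ground {x : X} {b : G} (hb : b ∈ B) :
    Conn (whole A B D P e) (tok x (e none)) (tok (b • x) (e none)) := by
  have h : tok x (e none) ∈ whole A B D P e (b, 1) := by
    refine Or.inl (Or.inl ⟨⟨hb, trivial⟩, ground_mem x, ?_⟩)
    rw [tok_smul_mk, one_mul]
    exact ground_mem _
  have h2 := Conn.of_mem h
  rwa [tok_smul_mk, one_mul] at h2

theorem conn_chain (hP0 : ∀ g, P g 0 = 1) (g : F) {x : X} (hx : x ∈ D g) (i : ℕ)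
    (hi : i ≤ N + 1) :
    Conn (whole A B D P e) (tok x (e none)) (tok (P g i • x) (lvlOf e g i)) := by
  induction i with
  | zero =>
    rw [hP0, one_smul, lvlOf_zero]
    exact Conn.refl _ _
  | succ i ih =>
    refine (ih (by omega)).trans ?_
    let k : F × Fin (N + 1) := (g, ⟨i, by omega⟩)
    have h1 : tok (P g i • x) (lvlOf e g i) ∈ lnk D P e k := by
      refine ⟨?_, rfl⟩
      show (P g i)⁻¹ • P g i • x ∈ D g
      rw [inv_smul_smul]
      exact hx
    have h2 : tok (P g i • x) (lvlOf e g i) ∈ whole A B D P e (lbl P e k) := by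
      by_cases hk : stepA A P k
      · exact Or.inl (Or.inr (mem_lks.2 ⟨k, ⟨hk, rfl⟩, h1⟩))
      · exact Or.inr (mem_lks.2 ⟨k, ⟨hk, rfl⟩, h1⟩)
    have h3 := Conn.of_mem h2
    have h4 : lbl P e k • tok (P g i • x) (lvlOf e g i) =
        tok (P g (i + 1) • x) (lvlOf e g (i + 1)) := by
      show tok ((P g (i + 1) * (P g i)⁻¹) • P g i • x)
        ((lvlOf e g (i + 1) * (lvlOf e g i)⁻¹) * lvlOf e g i) = _
      rw [← mul_smul, inv_mul_cancel_right, inv_mul_cancel_right]
    rwa [h4] at h3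

theorem conn_arc (hP0 : ∀ g, P g 0 = 1) (hPN : ∀ g ∈ F, P g (N + 1) = g) (g : F) {x : X}
    (hx : x ∈ D g) :
    Conn (whole A B D P e) (tok x (e none)) (tok ((g : G) • x) (e none)) := by
  have h := conn_chain (A := A) (B := B) (e := e) hP0 g hx (N + 1) le_rfl
  rwa [hPN g g.2, lvlOf_last] at h

theorem conn_lift (hP0 : ∀ g, P g 0 = 1) (hPN : ∀ g ∈ F, P g (N + 1) = g)
    (hF : ∀ g, (D g).Nonempty → g ∈ F) {x y : X}
    (h : Conn (fun h => full X B h ∪ D h) x y) :
    Conn (whole A B D P e) (tok x (e none)) (tok y (e none)) := by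
  induction h with
  | rel a b h =>
    obtain ⟨g, hg | hg, rfl⟩ := h
    · exact conn_ground hg
    · exact conn_arc hP0 hPN ⟨g, hF g ⟨a, hg⟩⟩ hg
  | refl a => exact Conn.refl _ _
  | symm a b _ ih => exact ih.symm
  | trans a b c _ _ ih1 ih2 => exact ih1.trans ih2

theorem conn_to_ground (hP0 : ∀ g, P g 0 = 1) (y : Tok X T) :
    ∃ c : G, Conn (whole A B D P e) y (tok (c • y.1) (e none)) := by
  by_cases hy : y ∈ grd D P e
  · refine ⟨1, ?_⟩
    have h : y ∈ whole A B D P e (1, e none * y.2⁻¹) := by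
      refine Or.inl (Or.inl ⟨⟨B.one_mem, trivial⟩, hy, ?_⟩)
      show tok ((1 : G) • y.1) (e none * y.2⁻¹ * y.2) ∈ grd D P e
      rw [inv_mul_cancel_right]
      exact ground_mem _
    have h2 := Conn.of_mem h
    have h3 : ((1, e none * y.2⁻¹) : G × T) • y = tok ((1 : G) • y.1) (e none) := by
      show tok ((1 : G) • y.1) (e none * y.2⁻¹ * y.2) = _
      rw [inv_mul_cancel_right]
    rwa [h3] at h2
  · simp only [grd, Set.mem_ofPred_eq, not_forall, not_not] at hy
    obtain ⟨k, h1, h2⟩ := hy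
    obtain ⟨g, i⟩ := k
    refine ⟨(P g (i + 1))⁻¹, ?_⟩
    have h3 := conn_chain (A := A) (B := B) (e := e) hP0 g h2 (i + 1) (by omega)
    rw [smul_inv_smul, lvlOf_succ, ← h1] at h3
    exact h3.symm

theorem conn_whole (hP0 : ∀ g, P g 0 = 1) (hPN : ∀ g ∈ F, P g (N + 1) = g)
    (hF : ∀ g, (D g).Nonempty → g ∈ F)
    (hgen : ∀ (x : X) (g : G), Conn (fun h => full X B h ∪ D h) x (g • x))
    (y : Tok X T) (γ : G × T) : Conn (whole A B D P e) y (γ • y) := by
  obtain ⟨c, hc⟩ := conn_to_ground (A := A) (B := B) (D := D) (P := P) (e := e) hP0 y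
  obtain ⟨c', hc'⟩ := conn_to_ground (A := A) (B := B) (D := D) (P := P) (e := e) hP0 (γ • y)
  refine hc.trans (Conn.trans ?_ hc'.symm)
  have h1 : c' • (γ • y).1 = (c' * γ.1 * c⁻¹) • c • y.1 := by
    show c' • γ.1 • y.1 = _
    simp only [mul_smul, inv_smul_smul]
  rw [h1]
  exact conn_lift hP0 hPN hF (hgen _ _)

end Connect

section Project

variable {G X T : Type} [Group G] [MulAction G X] [Group T]

/-- Projection of a labelled graph on the token space. -/
def proj (D' : G × T → Set (Tok X T)) (g : G) : Set X :=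
  ⋃ (s : T) (t : T), {x | tok x t ∈ D' (g, s)}

theorem mem_proj {D' : G × T → Set (Tok X T)} {γ : G × T} {y : Tok X T} (h : y ∈ D' γ) :
    y.1 ∈ proj D' γ.1 :=
  Set.mem_iUnion₂.2 ⟨γ.2, y.2, h⟩

theorem conn_proj {A : Subgroup G} {E : Set (Tok X T)} {D' : G × T → Set (Tok X T)}
    {y z : Tok X T} (h : Conn (fun h => restr (A.prod (⊤ : Subgroup T)) E h ∪ D' h) y z) :
    Conn (fun h => full X A h ∪ proj D' h) y.1 z.1 := by
  induction h with
  | rel a b h =>
    obtain ⟨γ, hg | hg, rfl⟩ := h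
    · exact Conn.of_mem (g := γ.1) (Or.inl hg.1.1)
    · exact Conn.of_mem (g := γ.1) (Or.inr (mem_proj hg))
  | refl a => exact Conn.refl _ _
  | symm a b _ ih => exact ih.symm
  | trans a b c _ _ ih1 ih2 => exact ih1.trans ih2

variable [MeasurableSpace X] [MeasurableSpace T] [Fintype T] [DiscreteMeasurableSpace T]
  (μ : Measure X) [IsFiniteMeasure μ]

theorem measurable_proj {D' : G × T → Set (Tok X T)} (h : ∀ γ, MeasurableSet (D' γ)) (g : G) :
    MeasurableSet (proj D' g) :=
  MeasurableSet.iUnion fun s => MeasurableSet.iUnion fun t =>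
    (measurable_prodMk_right (h (g, s)) : MeasurableSet ((fun x : X => ((x, t) : X × T)) ⁻¹' _))

theorem dcost_proj {D' : G × T → Set (Tok X T)} (h : ∀ γ, MeasurableSet (D' γ)) :
    dcost μ (proj D') ≤ dcost (tokMeasure μ) D' := by
  unfold dcost
  rw [ENNReal.tsum_prod']
  refine ENNReal.tsum_le_tsum fun g => ?_
  refine (measure_iUnion_le _).trans (ENNReal.tsum_le_tsum fun s => ?_)
  rw [tokMeasure_apply μ _ (h _)]
  refine (measure_iUnion_le _).trans (le_of_eq ?_)
  rw [tsum_fintype]

end Project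

theorem amalgam_core (habs : AmalgamAbs) {G X T : Type} [Group G] [Countable G]
    [MeasurableSpace X] [StandardBorelSpace X] (μ : Measure X) [IsFiniteMeasure μ]
    [MulAction G X] [MeasurableConstSMul G X] [SMulInvariantMeasure G X μ]
    (hfree : ∀ (g : G) (x : X), g • x = x → g = 1)
    [Group T] [Fintype T] [MeasurableSpace T] [DiscreteMeasurableSpace T]
    (A B : Subgroup G) (hnf : NormalForm A B)
    (D : G → Set X) (hD : ∀ g, MeasurableSet (D g))
    (hgen : ∀ (x : X) (g : G), Conn (fun h => full X B h ∪ D h) x (g • x))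
    (N : ℕ) (F : Finset G) (hF : ∀ g, (D g).Nonempty → g ∈ F) (P : G → ℕ → G)
    (hP0 : ∀ g, P g 0 = 1) (hPN : ∀ g ∈ F, P g (N + 1) = g)
    (hPs : ∀ g i, P g (i + 1) * (P g i)⁻¹ ∈ A ∨ P g (i + 1) * (P g i)⁻¹ ∈ B)
    (e : Option (F × Fin N) ≃ T)
    (η : ℝ≥0∞) (hη : 0 < η) :
    ∃ D' : G → Set X, (∀ g, MeasurableSet (D' g)) ∧ (∀ g, (D' g).Nonempty → g ∈ A) ∧
      (∀ (x : X), ∀ a ∈ A, Conn (fun h => full X (A ⊓ B) h ∪ D' h) x (a • x)) ∧
      dcost μ D' ≤ dcost μ D + η := by
  classical
  have hcost : dcost μ D = ∑ g ∈ F, μ (D g) := by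
    unfold dcost
    refine tsum_eq_sum fun g hg => ?_
    have : D g = ∅ := by
      rw [← Set.not_nonempty_iff_eq_empty]
      exact fun h => hg (hF g h)
    rw [this, measure_empty]
  have hcfin : dcost μ D ≠ ⊤ := by
    rw [hcost]
    exact (ENNReal.sum_lt_top.2 fun g _ => measure_lt_top _ _).ne
  have hKL := dcost_lks_le (D := D) (P := P) (e := e) μ (stepA A P) (fun k => ¬ stepA A P k)
    (fun k hk h => h hk)
  rw [← hcost] at hKL
  have hfin : dcost (tokMeasure μ) (lks D P e (stepA A P)) +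
      dcost (tokMeasure μ) (lks D P e (fun k => ¬ stepA A P k)) ≠ ⊤ := by
    refine (hKL.trans_lt ?_).ne
    exact ENNReal.mul_lt_top (by
      have : ((N : ℝ≥0∞) + 1) = ((N + 1 : ℕ) : ℝ≥0∞) := by push_cast; rfl
      rw [this]
      exact ENNReal.natCast_lt_top _) (lt_top_iff_ne_top.2 hcfin)
  obtain ⟨D', h1, h2, h3, h4, h5⟩ := habs (G × T) (Tok X T) (tokMeasure μ)
    (by
      intro γ y h
      have h1 : γ.1 • y.1 = y.1 := congrArg Prod.fst h
      have h2 : γ.2 * y.2 = y.2 := congrArg Prod.snd h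
      exact Prod.ext (hfree _ _ h1) (by simpa using h2))
    (A.prod ⊤) (B.prod ⊤) hnf.prodTop (grd D P e) (measurable_grd hD)
    (by
      intro y
      refine ⟨(1, e none * y.2⁻¹), ⟨A.one_mem, trivial⟩, ⟨B.one_mem, trivial⟩, ?_⟩
      show tok ((1 : G) • y.1) (e none * y.2⁻¹ * y.2) ∈ grd D P e
      rw [inv_mul_cancel_right]
      exact ground_mem _)
    (lks D P e (stepA A P)) (lks D P e (fun k => ¬ stepA A P k))
    (measurable_lks hD _) (measurable_lks hD _)
    (by
      rintro γ ⟨y, hy⟩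
      obtain ⟨k, ⟨hk, rfl⟩, -⟩ := mem_lks.1 hy
      exact ⟨hk, trivial⟩)
    (by
      rintro γ ⟨y, hy⟩
      obtain ⟨k, ⟨hk, rfl⟩, -⟩ := mem_lks.1 hy
      exact ⟨(hPs k.1 k.2).resolve_left hk, trivial⟩)
    (conn_whole hP0 hPN hF hgen) hfin η hη
  refine ⟨proj D', measurable_proj h1, ?_, ?_, ?_⟩
  · rintro g ⟨x, hx⟩
    obtain ⟨s, t, hx⟩ := Set.mem_iUnion₂.1 hx
    exact (h2 (g, s) ⟨_, hx⟩).1
  · intro x a ha
    have h6 := h4 (tok x (e none)) (ground_mem x) (a, 1) ⟨ha, trivial⟩ (by
      rw [tok_smul_mk, one_mul]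
      exact ground_mem _)
    have h7 : (A.prod (⊤ : Subgroup T)) ⊓ (B.prod ⊤) = (A ⊓ B).prod ⊤ := by
      ext γ
      simp only [Subgroup.mem_inf, Subgroup.mem_prod, Subgroup.mem_top, and_true]
    rw [h7] at h6
    exact conn_proj h6
  · refine (dcost_proj μ h1).trans ?_
    rw [measure_compl_grd μ hD, ← hcost] at h5
    have h6 : dcost (tokMeasure μ) D' + (N : ℝ≥0∞) * dcost μ D ≤
        (dcost μ D + η) + (N : ℝ≥0∞) * dcost μ D := by
      refine h5.trans ((add_le_add hKL le_rfl).trans (le_of_eq ?_))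
      ring
    exact (ENNReal.add_le_add_iff_right
      (ENNReal.mul_ne_top (ENNReal.natCast_ne_top _) hcfin)).1 h6

theorem amalgam_of_abs (habs : AmalgamAbs) {G X : Type} [Group G] [Countable G]
    [MeasurableSpace X] [StandardBorelSpace X] (μ : Measure X) [IsProbabilityMeasure μ]
    [MulAction G X] [MeasurableConstSMul G X] [SMulInvariantMeasure G X μ]
    (hfree : ∀ (g : G) (x : X), g • x = x → g = 1)
    (A B : Subgroup G) (hnf : NormalForm A B) (hAB : A ⊔ B = ⊤)
    (D : G → Set X) (hD : ∀ g, MeasurableSet (D g)) (hfin : {g | (D g).Nonempty}.Finite)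
    (hgen : ∀ (x : X) (g : G), Conn (fun h => full X B h ∪ D h) x (g • x))
    (η : ℝ≥0∞) (hη : 0 < η) :
    ∃ D' : G → Set X, (∀ g, MeasurableSet (D' g)) ∧ (∀ g, (D' g).Nonempty → g ∈ A) ∧
      (∀ (x : X), ∀ a ∈ A, Conn (fun h => full X (A ⊓ B) h ∪ D' h) x (a • x)) ∧
      dcost μ D' ≤ dcost μ D + η := by
  classical
  choose n P hP0 hPn hPs using exists_path A B hAB
  let F : Finset G := hfin.toFinset
  let N : ℕ := F.sup n
  have hPN : ∀ g ∈ F, P g (N + 1) = g := fun g hg =>
    hPn g _ ((Finset.le_sup (f := n) hg).trans (Nat.le_succ _))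
  obtain ⟨T, _, _, ⟨e⟩⟩ := exists_group_equiv (Option (F × Fin N))
  let _ : MeasurableSpace T := ⊤
  have : DiscreteMeasurableSpace T := ⟨fun _ => trivial⟩
  exact amalgam_core habs μ hfree A B hnf D hD hgen N F
    (fun g hg => hfin.mem_toFinset.2 hg) P hP0 hPN hPs e η hη

end Vale.Agent.P189
end
end

section

section

set_option autoImplicit false

open MeasureTheory
open scoped ENNReal

namespace Vale.Agent.P189

theorem amalgamAbs : AmalgamAbs := by
  intro Γ Y _ _ _ _ ν _ _ _ _ hfree A B hnf E hE hground K L hK hL hKA hLB hgen _ η hη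
  exact amalgam_abs ν hfree A B hnf hE
    (fun y => by
      obtain ⟨c, h1, h2, h3⟩ := hground y
      exact ⟨c, Subgroup.mem_inf.2 ⟨h1, h2⟩, h3⟩) hK hL hKA hLB hgen hη

/-- The amalgam lemma. -/
theorem amalgam {G X : Type} [Group G] [Countable G]
    [MeasurableSpace X] [StandardBorelSpace X] (μ : Measure X) [IsProbabilityMeasure μ]
    [MulAction G X] [MeasurableConstSMul G X] [SMulInvariantMeasure G X μ]
    (hfree : ∀ (g : G) (x : X), g • x = x → g = 1)
    (A B : Subgroup G) (hnf : NormalForm A B) (hAB : A ⊔ B = ⊤)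
    (D : G → Set X) (hD : ∀ g, MeasurableSet (D g)) (hfin : {g | (D g).Nonempty}.Finite)
    (hgen : ∀ (x : X) (g : G), Conn (fun h => full X B h ∪ D h) x (g • x))
    (η : ℝ≥0∞) (hη : 0 < η) :
    ∃ D' : G → Set X, (∀ g, MeasurableSet (D' g)) ∧ (∀ g, (D' g).Nonempty → g ∈ A) ∧
      (∀ (x : X), ∀ a ∈ A, Conn (fun h => full X (A ⊓ B) h ∪ D' h) x (a • x)) ∧
      dcost μ D' ≤ dcost μ D + η :=
  amalgam_of_abs amalgamAbs μ hfree A B hnf hAB D hD hfin hgen η hη

end Vale.Agent.P189
end
end

section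

section

set_option autoImplicit false

open MeasureTheory

namespace Vale.Agent.P189.Bar

/-- The invariant of the folding process. `J` is the type of token types, `b0`, `b1` the two
base tokens. -/
structure Inv {G X J : Type} [Group G] [MulAction G X] [MeasurableSpace X] (p q : G) (b0 b1 : J)
    (K L E : Setoid (X × J)) : Prop where
  mK : MRel G K
  mL : MRel G L
  mE : MRel G E
  wK : Within (Subgroup.zpowers p) K
  wL : Within (Subgroup.zpowers q) L
  sE : ∀ u v, E u v → v.1 = u.1
  EK : E ≤ K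
  EL : E ≤ L
  base0 : ∀ y, K (y, b0) (p • y, b0)
  base1 : ∀ y, K (y, b1) (p • y, b1)
  baseL : ∀ y, L (y, b1) (q • y, b0)
  twoK : ∀ u, ∃ v, K u v ∧ u.1 ≠ v.1
  twoL : ∀ u, ∃ v, L u v ∧ u.1 ≠ v.1

/-- The (orbit normalized, tripled) Euler characteristic. -/
noncomputable def chi {G X J : Type} [Group G] [MulAction G X] [MeasurableSpace X]
    (μ : Measure X) (p q : G) (K L E : Setoid (X × J)) : ℝ :=
  ∫ x, (N p K x : ℝ) ∂μ + ∫ x, (N q L x : ℝ) ∂μ - 3 * ∫ x, (N1 E x : ℝ) ∂μ

end Vale.Agent.P189.Bar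
end
end

section

section

set_option autoImplicit false

open MeasureTheory
open scoped symmDiff

namespace Vale.Agent.P189.Bar

theorem smul3 {G X : Type} [Group G] [MulAction G X] {q : G} (hq : q ^ 3 = 1) (x : X) :
    q • q • q • x = x := by
  rw [smul_smul, smul_smul, mul_assoc, ← pow_three, hq, one_smul]

section Upper

variable {G X J : Type} [Group G] [MulAction G X] [MeasurableSpace X] [Finite J]
  [MeasurableConstSMul G X]

/-- Positions where the two base tokens are related. -/
def Q (R : Setoid (X × J)) (b0 b1 : J) : Set X := {y | R (y, b0) (y, b1)}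

omit [Finite J] [MeasurableConstSMul G X] in
theorem measurableSet_Q {R : Setoid (X × J)} (hR : MRel G R) (b0 b1 : J) :
    MeasurableSet (Q R b0 b1) := by
  have := hR 1 b0 b1
  simp only [one_smul] at this
  exact this

omit [MeasurableSpace X] in
/-- At one position: more `E`-classes than `R`-classes. -/
theorem N1_ge {E R : Setoid (X × J)} (h : E ≤ R) (b0 b1 : J) (y : X) :
    (N1 R y : ℝ) + Set.indicator (Q R b0 b1 \ Q E b0 b1) 1 y ≤ N1 E y := by
  classical
  have hle : Setoid.comap (fun j => (y, j)) E ≤ Setoid.comap (fun j => (y, j)) R :=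
    fun a b hab => h hab
  by_cases hy : y ∈ Q R b0 b1 \ Q E b0 b1
  · rw [Set.indicator_of_mem hy]
    have := nc_lt hle hy.1 hy.2
    simp only [Pi.one_apply]
    unfold N1
    exact_mod_cast this
  · rw [Set.indicator_of_notMem hy, add_zero]
    exact_mod_cast nc_anti hle

omit [MeasurableSpace X] [MeasurableConstSMul G X] in
/-- Counting on one orbit with a set of full classes. -/
theorem count_orbit {s : G} (hs : s ^ 3 = 1) {R : Setoid (X × J)}
    (hW : Within (Subgroup.zpowers s) R) (h2 : ∀ u, ∃ v, R u v ∧ u.1 ≠ v.1) (x : X)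
    (𝒞 : Finset (Quotient (Setoid.comap (loc s x) R)))
    (h𝒞 : ∀ C ∈ 𝒞, ∀ k, ∃ j, (Quotient.mk (Setoid.comap (loc s x) R) (k, j)) = C) :
    (2 : ℝ) * N s R x + 𝒞.card ≤ ∑ k : Fin 3, (N1 R (s ^ (k : ℕ) • x) : ℝ) := by
  have h := count_classes (Setoid.comap (loc s x) R) ?_ 𝒞 h𝒞
  · exact_mod_cast h
  · intro a
    obtain ⟨v, hv, hne⟩ := h2 (loc s x a)
    obtain ⟨g, hg, h1⟩ := hW _ _ hv
    obtain ⟨g', hg', h3⟩ := loc_within (s := s) x a
    obtain ⟨b, rfl⟩ := loc_surj hs (x := x) (u := v)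
      ⟨g * g', Subgroup.mul_mem _ hg hg', by rw [h1, h3, mul_smul]⟩
    refine ⟨b, hv, fun hab => hne ?_⟩
    show s ^ (a.1 : ℕ) • x = s ^ (b.1 : ℕ) • x
    rw [hab]

variable {p q : G} {b0 b1 : J} {K L E : Setoid (X × J)}

omit [MeasurableConstSMul G X] [Finite J] in
theorem Inv.base_pow (hI : Inv p q b0 b1 K L E) (y : X) (k : ℕ) :
    K (y, b0) (p ^ k • y, b0) ∧ K (y, b1) (p ^ k • y, b1) := by
  induction k with
  | zero => simp only [pow_zero, one_smul]; exact ⟨K.refl _, K.refl _⟩
  | succ k ih =>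
    rw [pow_succ', mul_smul]
    exact ⟨K.trans ih.1 (hI.base0 _), K.trans ih.2 (hI.base1 _)⟩

omit [MeasurableConstSMul G X] in
theorem boundK (hp : p ^ 3 = 1) (hI : Inv p q b0 b1 K L E) (x : X) :
    (2 : ℝ) * N p K x + (2 - Set.indicator (Q K b0 b1) 1 x) +
      ∑ k : Fin 3, Set.indicator (Q K b0 b1 \ Q E b0 b1) 1 (p ^ (k : ℕ) • x) ≤
      ∑ k : Fin 3, (N1 E (p ^ (k : ℕ) • x) : ℝ) := by
  classical
  have h1 : ∀ k : Fin 3, (N1 K (p ^ (k : ℕ) • x) : ℝ) +
      Set.indicator (Q K b0 b1 \ Q E b0 b1) 1 (p ^ (k : ℕ) • x) ≤ N1 E (p ^ (k : ℕ) • x) :=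
    fun k => N1_ge hI.EK b0 b1 _
  have h2 := Finset.sum_le_sum fun k (_ : k ∈ (Finset.univ : Finset (Fin 3))) => h1 k
  rw [Finset.sum_add_distrib] at h2
  let r := Setoid.comap (loc p x) K
  let c0 : Quotient r := Quotient.mk r ((0 : Fin 3), b0)
  let c1 : Quotient r := Quotient.mk r ((0 : Fin 3), b1)
  have h3 := count_orbit hp hI.wK hI.twoK x {c0, c1} ?_
  · have h4 : (2 : ℝ) - Set.indicator (Q K b0 b1) 1 x ≤ (({c0, c1} : Finset (Quotient r)).card : ℝ) := by
      by_cases hx : x ∈ Q K b0 b1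
      · rw [Set.indicator_of_mem hx]
        have : 0 < ({c0, c1} : Finset (Quotient r)).card := Finset.card_pos.2 ⟨c0, by simp⟩
        have h5 : (1 : ℝ) ≤ ({c0, c1} : Finset (Quotient r)).card := by exact_mod_cast this
        simp only [Pi.one_apply]
        linarith
      · rw [Set.indicator_of_notMem hx, Finset.card_pair]
        · norm_num
        · intro h
          have h5 : r ((0 : Fin 3), b0) ((0 : Fin 3), b1) := Quotient.exact h
          have h6 : K (p ^ 0 • x, b0) (p ^ 0 • x, b1) := h5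
          simp only [pow_zero, one_smul] at h6
          exact hx h6
    linarith
  · intro C hC k
    rw [Finset.mem_insert, Finset.mem_singleton] at hC
    rcases hC with rfl | rfl
    · refine ⟨b0, Quotient.sound ?_⟩
      show K (p ^ (k : ℕ) • x, b0) (p ^ 0 • x, b0)
      simp only [pow_zero, one_smul]
      exact K.symm (hI.base_pow x k).1
    · refine ⟨b1, Quotient.sound ?_⟩
      show K (p ^ (k : ℕ) • x, b1) (p ^ 0 • x, b1)
      simp only [pow_zero, one_smul]
      exact K.symm (hI.base_pow x k).2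

omit [MeasurableConstSMul G X] [Finite J] in
theorem two_of_three (hq : q ^ 3 = 1) (hI : Inv p q b0 b1 K L E) {y : X}
    (h1 : y ∈ Q L b0 b1) (h2 : q • y ∈ Q L b0 b1) : q • q • y ∈ Q L b0 b1 := by
  have h3 : L (q • q • y, b1) (y, b0) := by
    have := hI.baseL (q • q • y)
    rwa [smul3 hq] at this
  exact L.trans (L.symm (hI.baseL (q • y))) (L.trans (L.symm h2)
    (L.trans (L.symm (hI.baseL y)) (L.trans (L.symm h1) (L.symm h3))))

/-- Positions where membership in `Q L` changes along `q`. -/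
def T (q : G) (L : Setoid (X × J)) (b0 b1 : J) : Set X :=
  {y | ¬ (y ∈ Q L b0 b1 ↔ q • y ∈ Q L b0 b1)}

omit [MeasurableConstSMul G X] in
theorem boundL (hq : q ^ 3 = 1) (hI : Inv p q b0 b1 K L E) (x : X) :
    (2 : ℝ) * N q L x +
      ∑ k : Fin 3, (Set.indicator (Q L b0 b1 \ Q E b0 b1) 1 (q ^ (k : ℕ) • x) +
        (1 / 3) * Set.indicator (Q L b0 b1) 1 (q ^ (k : ℕ) • x) +
        (1 / 3) * Set.indicator (T q L b0 b1) 1 (q ^ (k : ℕ) • x)) ≤
      ∑ k : Fin 3, (N1 E (q ^ (k : ℕ) • x) : ℝ) := by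
  classical
  have h1 : ∀ k : Fin 3, (N1 L (q ^ (k : ℕ) • x) : ℝ) +
      Set.indicator (Q L b0 b1 \ Q E b0 b1) 1 (q ^ (k : ℕ) • x) ≤ N1 E (q ^ (k : ℕ) • x) :=
    fun k => N1_ge hI.EL b0 b1 _
  have h2 := Finset.sum_le_sum fun k (_ : k ∈ (Finset.univ : Finset (Fin 3))) => h1 k
  rw [Finset.sum_add_distrib] at h2
  have hq0 : ∀ m : ℕ, q ^ m = q ^ (m % 3) := by
    intro m
    conv_lhs => rw [← Nat.mod_add_div m 3]
    rw [pow_add, pow_mul, hq, one_pow, mul_one]
  by_cases hex : ∃ k : Fin 3, q ^ (k : ℕ) • x ∈ Q L b0 b1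
  · obtain ⟨k, hk⟩ := hex
    let r := Setoid.comap (loc q x) L
    have h3 := count_orbit hq hI.wL hI.twoL x {Quotient.mk r (k, b0)} ?_
    · have e0 : x ∈ Q L b0 b1 → q • x ∈ Q L b0 b1 → q • q • x ∈ Q L b0 b1 :=
        two_of_three hq hI
      have e1 : q • x ∈ Q L b0 b1 → q • q • x ∈ Q L b0 b1 → x ∈ Q L b0 b1 := by
        intro h4 h5
        have := two_of_three hq hI h4 h5
        have h6 : q • q • q • x = x := smul3 hq x
        rwa [h6] at this
      have e2 : q • q • x ∈ Q L b0 b1 → x ∈ Q L b0 b1 → q • x ∈ Q L b0 b1 := by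
        intro h4 h5
        have h6 : q • q • q • x = x := smul3 hq x
        have := two_of_three hq hI h4 (by rw [h6]; exact h5)
        rwa [h6] at this
      have h6 : q • q • q • x = x := smul3 hq x
      have h4 : ∑ k : Fin 3, ((1 / 3) * Set.indicator (Q L b0 b1) (1 : X → ℝ) (q ^ (k : ℕ) • x) +
        (1 / 3) * Set.indicator (T q L b0 b1) 1 (q ^ (k : ℕ) • x)) ≤ 1 := by
        rw [Fin.sum_univ_three]
        simp only [Fin.val_zero, Fin.val_one, Fin.val_two, pow_zero, one_smul, pow_one, pow_two,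
          mul_smul, Set.indicator_apply, T, Set.mem_ofPred_eq, h6, Pi.one_apply]
        by_cases a0 : x ∈ Q L b0 b1 <;> by_cases a1 : q • x ∈ Q L b0 b1 <;>
          by_cases a2 : q • q • x ∈ Q L b0 b1 <;> simp only [a0, a1, a2, if_true, if_false,
          iff_self, not_true_eq_false, iff_true, iff_false, not_false_eq_true, false_iff,
          true_iff] <;> first | (norm_num; done) | (exfalso; tauto)
      simp only [Finset.card_singleton, Nat.cast_one] at h3
      simp only [Finset.sum_add_distrib] at h4 h2 ⊢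
      linarith
    · intro C hC m
      rw [Finset.mem_singleton] at hC
      subst hC
      set y := q ^ (k : ℕ) • x with hy
      have hmk : q ^ (m : ℕ) • x = q ^ (((m : ℕ) + 3 - k) % 3) • y := by
        rw [hy, smul_smul, ← pow_add, hq0 ((((m : ℕ) + 3 - k) % 3) + k), hq0 m]
        congr 2
        omega
      have key : ∀ n : ℕ, n < 3 → ∃ j, L (q ^ n • y, j) (y, b0) := by
        intro n hn
        interval_cases n
        · exact ⟨b0, by simp only [pow_zero, one_smul]; exact L.refl _⟩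
        · refine ⟨b0, ?_⟩
          rw [pow_one]
          exact L.symm (L.trans hk (hI.baseL y))
        · refine ⟨b1, ?_⟩
          have := hI.baseL (q ^ 2 • y)
          have h7 : q • q ^ 2 • y = y := by rw [pow_two, mul_smul]; exact smul3 hq y
          rwa [h7] at this
      obtain ⟨j, hj⟩ := key (((m : ℕ) + 3 - k) % 3) (Nat.mod_lt _ (by norm_num))
      refine ⟨j, Quotient.sound ?_⟩
      show L (q ^ (m : ℕ) • x, j) (q ^ (k : ℕ) • x, b0)
      rw [hmk]
      exact hj
  · have h3 := count_orbit hq hI.wL hI.twoL x ∅ (by simp)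
    have hno : ∀ k : Fin 3, q ^ (k : ℕ) • x ∉ Q L b0 b1 := fun k hk => hex ⟨k, hk⟩
    have h4 : ∀ k : Fin 3, Set.indicator (Q L b0 b1) (1 : X → ℝ) (q ^ (k : ℕ) • x) = 0 :=
      fun k => Set.indicator_of_notMem (hno k) _
    have h6 : q • q • q • x = x := smul3 hq x
    have h5 : ∀ k : Fin 3, Set.indicator (T q L b0 b1) (1 : X → ℝ) (q ^ (k : ℕ) • x) = 0 := by
      intro k
      refine Set.indicator_of_notMem ?_ _
      have hk1 : q • q ^ (k : ℕ) • x ∉ Q L b0 b1 := by
        rw [smul_smul, ← pow_succ', hq0]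
        exact hno ⟨((k : ℕ) + 1) % 3, Nat.mod_lt _ (by norm_num)⟩
      intro h
      exact h ⟨fun h' => absurd h' (hno k), fun h' => absurd h' hk1⟩
    simp only [h4, h5, mul_zero, add_zero]
    simp only [Finset.card_empty, Nat.cast_zero, add_zero] at h3
    linarith

end Upper

end Vale.Agent.P189.Bar
end
end

section

section

set_option autoImplicit false

open MeasureTheory
open scoped symmDiff

namespace Vale.Agent.P189.Bar

section Chi

variable {G X J : Type} [Group G] [MulAction G X] [MeasurableSpace X] [Finite J]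
  [MeasurableConstSMul G X] (μ : Measure X) [IsProbabilityMeasure μ] [SMulInvariantMeasure G X μ]
  {p q : G} {b0 b1 : J} {K L E : Setoid (X × J)}

omit [Finite J] [SMulInvariantMeasure G X μ] [IsProbabilityMeasure μ] in
theorem measurableSet_T {L : Setoid (X × J)} (hL : MRel G L) (q : G) (b0 b1 : J) :
    MeasurableSet (T q L b0 b1) := by
  have h1 := measurableSet_Q hL b0 b1
  have h2 : MeasurableSet ((q • ·) ⁻¹' (Q L b0 b1)) := measurable_const_smul q h1
  have h3 : T q L b0 b1 = symmDiff (Q L b0 b1) ((q • ·) ⁻¹' (Q L b0 b1)) := by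
    ext y
    simp only [T, Set.mem_ofPred_eq, Set.mem_symmDiff, Set.mem_preimage]
    tauto
  rw [h3]
  exact h1.symmDiff h2

omit [Finite J] [SMulInvariantMeasure G X μ] [MeasurableConstSMul G X] in
theorem integrable_ind {A : Set X} (hA : MeasurableSet A) :
    Integrable (A.indicator (1 : X → ℝ)) μ :=
  (integrable_const (1 : ℝ)).indicator hA

/-- Upper bound for the Euler characteristic. -/
theorem chi_le (hp : p ^ 3 = 1) (hq : q ^ 3 = 1) (hI : Inv p q b0 b1 K L E) :
    chi μ p q K L E ≤ -1 - μ.real (Q K b0 b1 \ Q E b0 b1) -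
      2 * μ.real (Q L b0 b1 \ Q E b0 b1) - μ.real (T q L b0 b1) / 2 := by
  have mQK := measurableSet_Q hI.mK b0 b1
  have mQL := measurableSet_Q hI.mL b0 b1
  have mQE := measurableSet_Q hI.mE b0 b1
  have mT := measurableSet_T hI.mL q b0 b1
  have iE := integrable_N1 μ hI.mE
  have iK := integrable_N (s := p) μ hI.mK
  have iL := integrable_N (s := q) μ hI.mL
  have iA := integrable_ind μ (mQK.diff mQE)
  have iB := integrable_ind μ (mQL.diff mQE)
  have iQK := integrable_ind μ mQK
  have iQL := integrable_ind μ mQL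
  have iT := integrable_ind μ mT
  have e1 := integral_sum_orbit (s := p) μ iE
  have e2 := integral_sum_orbit (s := p) μ iA
  have e3 := integral_sum_orbit (s := q) μ iE
  have isum : ∀ (s : G) (f : X → ℝ), Integrable f μ →
      Integrable (fun x => ∑ k : Fin 3, f (s ^ (k : ℕ) • x)) μ := by
    intro s f hf
    refine integrable_finsetSum _ fun k _ => ?_
    have := (measurePreserving_smul (s ^ (k : ℕ)) μ).integrable_comp hf.aestronglyMeasurable
    exact this.2 hf
  have j1 : Integrable (fun x => (2 : ℝ) * N p K x) μ := iK.const_mul 2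
  have j2 : Integrable (fun x => (2 : ℝ) - Set.indicator (Q K b0 b1) 1 x) μ :=
    (integrable_const 2).sub iQK
  have j12 : Integrable (fun x => (2 : ℝ) * N p K x + (2 - Set.indicator (Q K b0 b1) 1 x)) μ :=
    j1.add j2
  have j3 : Integrable (fun x => ∑ k : Fin 3,
    Set.indicator (Q K b0 b1 \ Q E b0 b1) (1 : X → ℝ) (p ^ (k : ℕ) • x)) μ := isum p _ iA
  have h1 : 2 * ∫ x, (N p K x : ℝ) ∂μ + (2 - μ.real (Q K b0 b1)) +
      3 * μ.real (Q K b0 b1 \ Q E b0 b1) ≤ 3 * ∫ x, (N1 E x : ℝ) ∂μ := by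
    rw [← e1]
    have hm := integral_mono (μ := μ)
      (f := fun x => (2 : ℝ) * N p K x + (2 - Set.indicator (Q K b0 b1) 1 x) +
        ∑ k : Fin 3, Set.indicator (Q K b0 b1 \ Q E b0 b1) 1 (p ^ (k : ℕ) • x))
      (j12.add j3) (isum p _ iE) (fun x => boundK hp hI x)
    refine le_trans (le_of_eq ?_) hm
    rw [integral_add j12 j3, integral_add j1 j2,
      integral_sub (integrable_const 2) iQK, e2, integral_const_mul,
      integral_indicator_one mQK, integral_indicator_one (mQK.diff mQE)]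
    simp
  have k1 : Integrable (fun x => (2 : ℝ) * N q L x) μ := iL.const_mul 2
  have k2 : Integrable (fun x => (1 / 3 : ℝ) * Set.indicator (Q L b0 b1) 1 x) μ :=
    iQL.const_mul (1 / 3)
  have k3 : Integrable (fun x => (1 / 3 : ℝ) * Set.indicator (T q L b0 b1) 1 x) μ :=
    iT.const_mul (1 / 3)
  have k4 : Integrable (fun x => Set.indicator (Q L b0 b1 \ Q E b0 b1) (1 : X → ℝ) x +
      (1 / 3 : ℝ) * Set.indicator (Q L b0 b1) 1 x) μ := iB.add k2
  have k5 : Integrable (fun x => Set.indicator (Q L b0 b1 \ Q E b0 b1) (1 : X → ℝ) x +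
      (1 / 3 : ℝ) * Set.indicator (Q L b0 b1) 1 x +
      (1 / 3 : ℝ) * Set.indicator (T q L b0 b1) 1 x) μ := k4.add k3
  have k6 : Integrable (fun x => ∑ k : Fin 3,
      (Set.indicator (Q L b0 b1 \ Q E b0 b1) (1 : X → ℝ) (q ^ (k : ℕ) • x) +
      (1 / 3 : ℝ) * Set.indicator (Q L b0 b1) 1 (q ^ (k : ℕ) • x) +
      (1 / 3 : ℝ) * Set.indicator (T q L b0 b1) 1 (q ^ (k : ℕ) • x))) μ := isum q _ k5
  have e4 : ∫ x, ∑ k : Fin 3,
      (Set.indicator (Q L b0 b1 \ Q E b0 b1) (1 : X → ℝ) (q ^ (k : ℕ) • x) +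
      (1 / 3 : ℝ) * Set.indicator (Q L b0 b1) 1 (q ^ (k : ℕ) • x) +
      (1 / 3 : ℝ) * Set.indicator (T q L b0 b1) 1 (q ^ (k : ℕ) • x)) ∂μ =
      3 * ∫ x, (Set.indicator (Q L b0 b1 \ Q E b0 b1) (1 : X → ℝ) x +
      (1 / 3 : ℝ) * Set.indicator (Q L b0 b1) 1 x +
      (1 / 3 : ℝ) * Set.indicator (T q L b0 b1) 1 x) ∂μ := integral_sum_orbit (s := q) μ k5
  have h2 : 2 * ∫ x, (N q L x : ℝ) ∂μ + 3 * μ.real (Q L b0 b1 \ Q E b0 b1) +
      μ.real (Q L b0 b1) + μ.real (T q L b0 b1) ≤ 3 * ∫ x, (N1 E x : ℝ) ∂μ := by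
    rw [← e3]
    have hm := integral_mono (μ := μ)
      (f := fun x => (2 : ℝ) * N q L x +
      ∑ k : Fin 3, (Set.indicator (Q L b0 b1 \ Q E b0 b1) 1 (q ^ (k : ℕ) • x) +
        (1 / 3) * Set.indicator (Q L b0 b1) 1 (q ^ (k : ℕ) • x) +
        (1 / 3) * Set.indicator (T q L b0 b1) 1 (q ^ (k : ℕ) • x)))
      (k1.add k6) (isum q _ iE) (fun x => boundL hq hI x)
    refine le_trans (le_of_eq ?_) hm
    rw [integral_add k1 k6, e4, integral_add k4 k3, integral_add iB k2, integral_const_mul,
      integral_const_mul, integral_const_mul, integral_indicator_one mQL,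
      integral_indicator_one mT, integral_indicator_one (mQL.diff mQE)]
    ring
  have s1 : Q E b0 b1 ⊆ Q K b0 b1 := fun y hy => hI.EK hy
  have s2 : Q E b0 b1 ⊆ Q L b0 b1 := fun y hy => hI.EL hy
  have h3 := measureReal_sdiff_add_inter (μ := μ) (s := Q K b0 b1) mQE
  have h4 := measureReal_sdiff_add_inter (μ := μ) (s := Q L b0 b1) mQE
  rw [Set.inter_eq_self_of_subset_right s1] at h3
  rw [Set.inter_eq_self_of_subset_right s2] at h4
  unfold chi
  linarith

end Chi

section Step

variable {G X J : Type} [Group G] [MulAction G X] [MeasurableSpace X] [Finite J]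
  [MeasurableConstSMul G X] (μ : Measure X) [IsProbabilityMeasure μ] [SMulInvariantMeasure G X μ]

theorem step_mono (hfree : ∀ (g : G) (x : X), g • x = x → g = 1) {s : G} (hs : s ^ 3 = 1)
    (hs1 : s ≠ 1) {R E E' : Setoid (X × J)} (hR : MRel G R) (hE : MRel G E) (hE' : MRel G E')
    (hRE : MRel G (R ⊔ E' : Setoid (X × J)))
    (wR : Within (Subgroup.zpowers s) R) (h1 : E ≤ R) (h2 : E ≤ E')
    (sE' : ∀ u v, E' u v → v.1 = u.1) :
    ∫ x, (N s R x : ℝ) ∂μ - 3 * ∫ x, (N1 E x : ℝ) ∂μ ≤
      ∫ x, (N s (R ⊔ E') x : ℝ) ∂μ - 3 * ∫ x, (N1 E' x : ℝ) ∂μ := by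
  have wE' : Within (Subgroup.zpowers s) E' := fun u v huv =>
    ⟨1, Subgroup.one_mem _, by rw [one_smul]; exact sE' u v huv⟩
  have hpt : ∀ x, (N s R x : ℝ) + ∑ k : Fin 3, (N1 E' (s ^ (k : ℕ) • x) : ℝ) ≤
      N s (R ⊔ E') x + ∑ k : Fin 3, (N1 E (s ^ (k : ℕ) • x) : ℝ) := by
    intro x
    have h := nc_submod (E := Setoid.comap (loc s x) E) (L := Setoid.comap (loc s x) R)
      (E' := Setoid.comap (loc s x) E') (fun a b hab => h1 hab) (fun a b hab => h2 hab)
    rw [← comap_sup hfree hs hs1 x wR wE'] at h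
    have e1 := N_eq_sum hfree hs hs1 (fun u v huv => sE' u v (h2 huv)) x
    have e2 := N_eq_sum hfree hs hs1 sE' x
    have h' : N s R x + N s E' x ≤ N s (R ⊔ E') x + N s E x := h
    rw [e1, e2] at h'
    exact_mod_cast h'
  have iR := integrable_N (s := s) μ hR
  have iRE := integrable_N (s := s) μ hRE
  have iE := integrable_N1 μ hE
  have iE' := integrable_N1 μ hE'
  have isum : ∀ (f : X → ℝ), Integrable f μ →
      Integrable (fun x => ∑ k : Fin 3, f (s ^ (k : ℕ) • x)) μ := by
    intro f hf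
    refine integrable_finsetSum _ fun k _ => ?_
    have := (measurePreserving_smul (s ^ (k : ℕ)) μ).integrable_comp hf.aestronglyMeasurable
    exact this.2 hf
  have hm := integral_mono (iR.add (isum _ iE')) (iRE.add (isum _ iE)) hpt
  have e1 : ∫ x, ((N s R x : ℝ) + ∑ k : Fin 3, (N1 E' (s ^ (k : ℕ) • x) : ℝ)) ∂μ =
      ∫ x, (N s R x : ℝ) ∂μ + 3 * ∫ x, (N1 E' x : ℝ) ∂μ := by
    rw [integral_add iR (isum _ iE'), integral_sum_orbit (s := s) μ iE']
  have e2 : ∫ x, ((N s (R ⊔ E') x : ℝ) + ∑ k : Fin 3, (N1 E (s ^ (k : ℕ) • x) : ℝ)) ∂μ =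
      ∫ x, (N s (R ⊔ E') x : ℝ) ∂μ + 3 * ∫ x, (N1 E x : ℝ) ∂μ := by
    rw [integral_add iRE (isum _ iE), integral_sum_orbit (s := s) μ iE]
  have hm' : ∫ x, ((N s R x : ℝ) + ∑ k : Fin 3, (N1 E' (s ^ (k : ℕ) • x) : ℝ)) ∂μ ≤
      ∫ x, ((N s (R ⊔ E') x : ℝ) + ∑ k : Fin 3, (N1 E (s ^ (k : ℕ) • x) : ℝ)) ∂μ := hm
  rw [e1, e2] at hm'
  linarith

omit [MeasurableSpace X] [Finite J] in
theorem sup_pos {E F : Setoid (X × J)} (hE : ∀ u v, E u v → v.1 = u.1)
    (hF : ∀ u v, F u v → v.1 = u.1) : ∀ u v, (E ⊔ F) u v → v.1 = u.1 := by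
  let P : Setoid (X × J) := Setoid.ker Prod.fst
  have h1 : E ⊔ F ≤ P := sup_le (fun u v h => (hE u v h).symm) (fun u v h => (hF u v h).symm)
  exact fun u v h => (h1 h).symm

omit [MeasurableSpace X] [Finite J] [MeasurableConstSMul G X] in
theorem within_of_pos {H : Subgroup G} {E : Setoid (X × J)} (hE : ∀ u v, E u v → v.1 = u.1) :
    Within H E := fun u v huv => ⟨1, H.one_mem, by rw [one_smul]; exact hE u v huv⟩

variable {p q : G} {b0 b1 : J} {K L E : Setoid (X × J)}

/-- Step transferring the coincidences of `K` over `A` to `L`. -/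
theorem inv_stepL [Countable G] (hfree : ∀ (g : G) (x : X), g • x = x → g = 1)
    (hI : Inv p q b0 b1 K L E) {A : Set X} (hA : MeasurableSet A) :
    Inv p q b0 b1 K (L ⊔ (E ⊔ atPos K A)) (E ⊔ atPos K A) := by
  have sA : ∀ u v, atPos K A u v → v.1 = u.1 := fun u v h => atPos_pos h
  have sE' := sup_pos hI.sE sA
  have mE' : MRel G (E ⊔ atPos K A : Setoid (X × J)) :=
    hI.mE.sup hfree (hI.mK.atPos hfree hA) (within_of_pos hI.sE) (within_of_pos sA)
  exact
    { mK := hI.mK
      mL := hI.mL.sup hfree mE' (hI.wL.mono le_top) (within_of_pos sE')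
      mE := mE'
      wK := hI.wK
      wL := hI.wL.sup (within_of_pos sE')
      sE := sE'
      EK := sup_le hI.EK (atPos_le K A)
      EL := le_sup_right
      base0 := hI.base0
      base1 := hI.base1
      baseL := fun y => (le_sup_left : L ≤ L ⊔ (E ⊔ atPos K A)) (hI.baseL y)
      twoK := hI.twoK
      twoL := fun u => by
        obtain ⟨v, h1, h2⟩ := hI.twoL u
        exact ⟨v, (le_sup_left : L ≤ L ⊔ (E ⊔ atPos K A)) h1, h2⟩ }

/-- Step transferring the coincidences of `L` over `A` to `K`. -/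
theorem inv_stepK [Countable G] (hfree : ∀ (g : G) (x : X), g • x = x → g = 1)
    (hI : Inv p q b0 b1 K L E) {A : Set X} (hA : MeasurableSet A) :
    Inv p q b0 b1 (K ⊔ (E ⊔ atPos L A)) L (E ⊔ atPos L A) := by
  have sA : ∀ u v, atPos L A u v → v.1 = u.1 := fun u v h => atPos_pos h
  have sE' := sup_pos hI.sE sA
  have mE' : MRel G (E ⊔ atPos L A : Setoid (X × J)) :=
    hI.mE.sup hfree (hI.mL.atPos hfree hA) (within_of_pos hI.sE) (within_of_pos sA)
  exact
    { mK := hI.mK.sup hfree mE' (hI.wK.mono le_top) (within_of_pos sE')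
      mL := hI.mL
      mE := mE'
      wK := hI.wK.sup (within_of_pos sE')
      wL := hI.wL
      sE := sE'
      EK := le_sup_right
      EL := sup_le hI.EL (atPos_le L A)
      base0 := fun y => (le_sup_left : K ≤ K ⊔ (E ⊔ atPos L A)) (hI.base0 y)
      base1 := fun y => (le_sup_left : K ≤ K ⊔ (E ⊔ atPos L A)) (hI.base1 y)
      baseL := hI.baseL
      twoK := fun u => by
        obtain ⟨v, h1, h2⟩ := hI.twoK u
        exact ⟨v, (le_sup_left : K ≤ K ⊔ (E ⊔ atPos L A)) h1, h2⟩
      twoL := hI.twoL }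

theorem chi_stepL [Countable G] (hfree : ∀ (g : G) (x : X), g • x = x → g = 1)
    (hq : q ^ 3 = 1) (hq1 : q ≠ 1)
    (hI : Inv p q b0 b1 K L E) {A : Set X} (hA : MeasurableSet A) :
    chi μ p q K L E ≤ chi μ p q K (L ⊔ (E ⊔ atPos K A)) (E ⊔ atPos K A) := by
  have hI' := inv_stepL hfree hI hA
  have := step_mono μ hfree hq hq1 hI.mL hI.mE hI'.mE hI'.mL hI.wL hI.EL le_sup_left hI'.sE
  unfold chi
  linarith

theorem chi_stepK [Countable G] (hfree : ∀ (g : G) (x : X), g • x = x → g = 1)
    (hp : p ^ 3 = 1) (hp1 : p ≠ 1)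
    (hI : Inv p q b0 b1 K L E) {A : Set X} (hA : MeasurableSet A) :
    chi μ p q K L E ≤ chi μ p q (K ⊔ (E ⊔ atPos L A)) L (E ⊔ atPos L A) := by
  have hI' := inv_stepK hfree hI hA
  have := step_mono μ hfree hp hp1 hI.mK hI.mE hI'.mE hI'.mK hI.wK hI.EK le_sup_left hI'.sE
  unfold chi
  linarith

/-- Growth of the set of coincidences in a `K`-step. -/
theorem growth (hp : p ^ 3 = 1) (hI : Inv p q b0 b1 K L E) {A : Set X} (hA : MeasurableSet A) :
    μ.real (Q (K ⊔ (E ⊔ atPos L A)) b0 b1) ≤ μ.real (Q K b0 b1) + 3 * μ.real A := by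
  let K' : Setoid (X × J) :=
    { r := fun u v => K u v ∨ ((∃ a ∈ Subgroup.zpowers p, v.1 = a • u.1) ∧
        (∃ b ∈ Subgroup.zpowers p, b • u.1 ∈ A))
      iseqv := by
        constructor
        · exact fun u => Or.inl (K.refl _)
        · rintro u v (h | ⟨⟨a, ha, h1⟩, b, hb, h2⟩)
          · exact Or.inl (K.symm h)
          · refine Or.inr ⟨⟨a⁻¹, inv_mem ha, by rw [h1, inv_smul_smul]⟩, b * a⁻¹,
              mul_mem hb (inv_mem ha), ?_⟩
            rw [h1, mul_smul, inv_smul_smul]
            exact h2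
        · rintro u v w (h | ⟨⟨a, ha, h1⟩, b, hb, h2⟩) (h' | ⟨⟨a', ha', h1'⟩, b', hb', h2'⟩)
          · exact Or.inl (K.trans h h')
          · obtain ⟨c, hc, h3⟩ := hI.wK _ _ h
            refine Or.inr ⟨⟨a' * c, mul_mem ha' hc, by rw [h1', h3, mul_smul]⟩, b' * c,
              mul_mem hb' hc, ?_⟩
            rw [mul_smul, ← h3]
            exact h2'
          · obtain ⟨c, hc, h3⟩ := hI.wK _ _ h'
            exact Or.inr ⟨⟨c * a, mul_mem hc ha, by rw [h3, h1, mul_smul]⟩, b, hb, h2⟩
          · exact Or.inr ⟨⟨a' * a, mul_mem ha' ha, by rw [h1', h1, mul_smul]⟩, b, hb, h2⟩ }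
  have h1 : K ⊔ (E ⊔ atPos L A) ≤ K' := by
    refine sup_le (fun u v h => Or.inl h) (sup_le (fun u v h => Or.inl (hI.EK h)) ?_)
    rintro u v (h | ⟨h1, h2, _⟩)
    · rw [h]
    · exact Or.inr ⟨⟨1, one_mem _, by rw [one_smul, h1]⟩, 1, one_mem _, by rwa [one_smul]⟩
  have h2 : Q (K ⊔ (E ⊔ atPos L A)) b0 b1 ⊆
      Q K b0 b1 ∪ ⋃ k : Fin 3, (p ^ (k : ℕ) • ·) ⁻¹' A := by
    intro y hy
    rcases h1 hy with h | ⟨_, b, hb, h⟩
    · exact Or.inl h
    · obtain ⟨k, rfl⟩ := exists_pow3 hp hb
      exact Or.inr (Set.mem_iUnion.2 ⟨k, h⟩)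
  refine (measureReal_mono h2).trans ((measureReal_union_le _ _).trans ?_)
  have h3 : μ.real (⋃ k : Fin 3, (p ^ (k : ℕ) • ·) ⁻¹' A) ≤
      ∑ k : Fin 3, μ.real ((p ^ (k : ℕ) • ·) ⁻¹' A) := measureReal_iUnion_fintype_le _
  have h4 : ∀ k : Fin 3, μ.real ((p ^ (k : ℕ) • ·) ⁻¹' A) = μ.real A := by
    intro k
    unfold Measure.real
    rw [measure_preimage_smul]
  simp only [h4, Finset.sum_const, Finset.card_univ, Fintype.card_fin, nsmul_eq_mul] at h3
  push_cast at h3
  linarith

end Step

end Vale.Agent.P189.Bar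
end
end

section

section

set_option autoImplicit false

open MeasureTheory
open scoped symmDiff

namespace Vale.Agent.P189.Bar

/-- One full step of the folding process over `A`. -/
def step {X J : Type} (A : Set X) (S : Setoid (X × J) × Setoid (X × J) × Setoid (X × J)) :
    Setoid (X × J) × Setoid (X × J) × Setoid (X × J) :=
  let E1 := S.2.2 ⊔ atPos S.1 A
  let L1 := S.2.1 ⊔ E1
  let E2 := E1 ⊔ atPos L1 A
  (S.1 ⊔ E2, L1, E2)

/-- The folding process. -/
def seqS {X J : Type} (A : ℕ → Set X)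
    (S : Setoid (X × J) × Setoid (X × J) × Setoid (X × J)) :
    ℕ → Setoid (X × J) × Setoid (X × J) × Setoid (X × J)
  | 0 => S
  | n + 1 => step (A n) (seqS A S n)

section

variable {X J : Type} (A : ℕ → Set X)
    (S : Setoid (X × J) × Setoid (X × J) × Setoid (X × J))

theorem seqK_mono_succ (n : ℕ) : (seqS A S n).1 ≤ (seqS A S (n + 1)).1 := le_sup_left

theorem seqL_mono_succ (n : ℕ) : (seqS A S n).2.1 ≤ (seqS A S (n + 1)).2.1 := le_sup_left

theorem seqK_mono : Monotone fun n => (seqS A S n).1 :=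
  monotone_nat_of_le_succ (seqK_mono_succ A S)

theorem seqL_mono : Monotone fun n => (seqS A S n).2.1 :=
  monotone_nat_of_le_succ (seqL_mono_succ A S)

theorem seq_KL {n : ℕ} {y : X} (hy : y ∈ A n) {i j : J} (h : (seqS A S n).1 (y, i) (y, j)) :
    (seqS A S (n + 1)).2.1 (y, i) (y, j) := by
  show ((seqS A S n).2.1 ⊔ ((seqS A S n).2.2 ⊔ atPos (seqS A S n).1 (A n))) (y, i) (y, j)
  refine (le_sup_right.trans le_sup_right : atPos (seqS A S n).1 (A n) ≤ _) ?_
  exact Or.inr ⟨rfl, hy, h⟩

theorem seq_LK {n : ℕ} {y : X} (hy : y ∈ A n) {i j : J} (h : (seqS A S n).2.1 (y, i) (y, j)) :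
    (seqS A S (n + 1)).1 (y, i) (y, j) := by
  have h1 : (seqS A S (n + 1)).2.1 (y, i) (y, j) := seqL_mono_succ A S n h
  show ((seqS A S n).1 ⊔ (((seqS A S n).2.2 ⊔ atPos (seqS A S n).1 (A n)) ⊔
    atPos (seqS A S (n + 1)).2.1 (A n))) (y, i) (y, j)
  refine (le_sup_right.trans le_sup_right : atPos (seqS A S (n + 1)).2.1 (A n) ≤ _) ?_
  exact Or.inr ⟨rfl, hy, h1⟩

/-- Union of an increasing sequence of equivalence relations. -/
def lim {Ω : Type} (R : ℕ → Setoid Ω) (hR : Monotone R) : Setoid Ω where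
  r u v := ∃ n, R n u v
  iseqv := by
    constructor
    · exact fun u => ⟨0, (R 0).refl _⟩
    · rintro u v ⟨n, h⟩
      exact ⟨n, (R n).symm h⟩
    · rintro u v w ⟨n, h⟩ ⟨m, h'⟩
      exact ⟨max n m, (R _).trans (hR (le_max_left n m) h) (hR (le_max_right n m) h')⟩

end

section Core

variable {G X J : Type} [Group G] [Countable G] [MulAction G X] [MeasurableSpace X] [Finite J]
  [MeasurableConstSMul G X] (μ : Measure X) [IsProbabilityMeasure μ] [SMulInvariantMeasure G X μ]
  {p q : G} {b0 b1 : J} {K L E : Setoid (X × J)}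

theorem inv_seq (hfree : ∀ (g : G) (x : X), g • x = x → g = 1)
    (hp : p ^ 3 = 1) (hq : q ^ 3 = 1) (hp1 : p ≠ 1) (hq1 : q ≠ 1)
    (hI : Inv p q b0 b1 K L E) {A : ℕ → Set X} (hA : ∀ n, MeasurableSet (A n)) (n : ℕ) :
    Inv p q b0 b1 (seqS A (K, L, E) n).1 (seqS A (K, L, E) n).2.1 (seqS A (K, L, E) n).2.2 ∧
      chi μ p q K L E ≤ chi μ p q (seqS A (K, L, E) n).1 (seqS A (K, L, E) n).2.1
        (seqS A (K, L, E) n).2.2 := by
  induction n with
  | zero => exact ⟨hI, le_rfl⟩
  | succ n ih =>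
    obtain ⟨h1, h2⟩ := ih
    have h3 := inv_stepL hfree h1 (hA n)
    have h4 := chi_stepL μ hfree hq hq1 h1 (hA n)
    have h5 := inv_stepK hfree h3 (hA n)
    have h6 := chi_stepK μ hfree hp hp1 h3 (hA n)
    exact ⟨h5, h2.trans (h4.trans h6)⟩

theorem growth_seq (hfree : ∀ (g : G) (x : X), g • x = x → g = 1)
    (hp : p ^ 3 = 1) (hq : q ^ 3 = 1) (hp1 : p ≠ 1) (hq1 : q ≠ 1)
    (hI : Inv p q b0 b1 K L E) {A : ℕ → Set X} (hA : ∀ n, MeasurableSet (A n)) (n : ℕ) :
    μ.real (Q (seqS A (K, L, E) (n + 1)).1 b0 b1) ≤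
      μ.real (Q (seqS A (K, L, E) n).1 b0 b1) + 3 * μ.real (A n) := by
  obtain ⟨h1, _⟩ := inv_seq μ hfree hp hq hp1 hq1 hI hA n
  have h3 := inv_stepL hfree h1 (hA n)
  exact growth μ hp h3 (hA n)

include μ in
/-- In the limit all base tokens coincide. -/
theorem exists_coincide (hfree : ∀ (g : G) (x : X), g • x = x → g = 1)
    (hp : p ^ 3 = 1) (hq : q ^ 3 = 1) (hp1 : p ≠ 1) (hq1 : q ≠ 1)
    (hnf : NormalForm (Subgroup.zpowers p) (Subgroup.zpowers q))
    (hinf : Subgroup.zpowers p ⊓ Subgroup.zpowers q = ⊥)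
    (hI : Inv p q b0 b1 K L E) (hKL : ∀ y, (K ⊔ L) (y, b0) (y, b1))
    {A : ℕ → Set X} (hA : ∀ n, MeasurableSet (A n)) (hA' : ∀ n y, ∃ m, n ≤ m ∧ y ∈ A m) (y : X) :
    ∃ n, y ∈ Q (seqS A (K, L, E) n).1 b0 b1 := by
  set S : Setoid (X × J) × Setoid (X × J) × Setoid (X × J) := (K, L, E)
  let k := lim (fun n => (seqS A S n).1) (seqK_mono A S)
  let l := lim (fun n => (seqS A S n).2.1) (seqL_mono A S)
  have hk0 : K ≤ k := fun u v h => ⟨0, h⟩
  have hl0 : L ≤ l := fun u v h => ⟨0, h⟩
  have h1 : (k ⊔ l) (y, b0) (y, b1) := (sup_le_sup hk0 hl0) (hKL y)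
  have key := nf_lemma hfree (Subgroup.zpowers p) (Subgroup.zpowers q) hnf
    (pos := (Prod.fst : X × J → X)) k l ?_ ?_ ?_ h1 ⟨1, one_mem _, by rw [one_smul]⟩
  · exact key
  · rintro w w' ⟨n, h⟩
    exact (inv_seq μ hfree hp hq hp1 hq1 hI hA n).1.wK w w' h
  · rintro w w' ⟨n, h⟩
    exact (inv_seq μ hfree hp hq hp1 hq1 hI hA n).1.wL w w' h
  · rintro ⟨w, i⟩ ⟨w', j⟩ ⟨c, hc1, hc2, hc⟩
    have hc0 : c = 1 := by
      have : c ∈ Subgroup.zpowers p ⊓ Subgroup.zpowers q := ⟨hc1, hc2⟩
      rw [hinf] at this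
      exact Subgroup.mem_bot.1 this
    subst hc0
    simp only [one_smul] at hc
    subst hc
    constructor
    · rintro ⟨n, h⟩
      obtain ⟨m, hm, hy⟩ := hA' n w'
      exact ⟨m + 1, seq_KL A S hy (seqK_mono A S hm h)⟩
    · rintro ⟨n, h⟩
      obtain ⟨m, hm, hy⟩ := hA' n w'
      exact ⟨m + 1, seq_LK A S hy (seqL_mono A S hm h)⟩

omit [Countable G] in
/-- The defect of invariance of `Q K` is small. -/
theorem defect_le (hp : p ^ 3 = 1) (hq : q ^ 3 = 1) (hI : Inv p q b0 b1 K L E) {e : ℝ}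
    (he : -1 - 3 * e ≤ chi μ p q K L E) :
    μ.real (symmDiff (Q K b0 b1) ((fun x => q • x) ⁻¹' (Q K b0 b1))) ≤ 6 * e := by
  have h0 := chi_le μ hp hq hI
  have s1 : Q E b0 b1 ⊆ Q K b0 b1 := fun y hy => hI.EK hy
  have s2 : Q E b0 b1 ⊆ Q L b0 b1 := fun y hy => hI.EL hy
  set a := μ.real (Q K b0 b1 \ Q E b0 b1)
  set b := μ.real (Q L b0 b1 \ Q E b0 b1)
  have h1 : μ.real (symmDiff (Q K b0 b1) (Q L b0 b1)) ≤ a + b := by
    refine (measureReal_mono ?_).trans (measureReal_union_le _ _)
    rintro y (⟨h, h'⟩ | ⟨h, h'⟩)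
    · exact Or.inl ⟨h, fun h'' => h' (s2 h'')⟩
    · exact Or.inr ⟨h, fun h'' => h' (s1 h'')⟩
  have h2 : μ.real ((fun x => q • x) ⁻¹' (symmDiff (Q K b0 b1) (Q L b0 b1))) =
      μ.real (symmDiff (Q K b0 b1) (Q L b0 b1)) := by
    unfold Measure.real
    rw [measure_preimage_smul]
  have h3 : symmDiff (Q K b0 b1) ((fun x => q • x) ⁻¹' (Q K b0 b1)) ⊆
      symmDiff (Q K b0 b1) (Q L b0 b1) ∪ (T q L b0 b1 ∪
        (fun x => q • x) ⁻¹' (symmDiff (Q K b0 b1) (Q L b0 b1))) := by
    intro y hy
    simp only [Set.mem_symmDiff, Set.mem_preimage, Set.mem_union, T, Set.mem_ofPred_eq] at hy ⊢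
    tauto
  have h4 := (measureReal_mono (μ := μ) h3).trans ((measureReal_union_le _ _).trans
    (add_le_add le_rfl (measureReal_union_le _ _)))
  rw [h2] at h4
  have ha : 0 ≤ a := measureReal_nonneg
  have hb : 0 ≤ b := measureReal_nonneg
  have hT : 0 ≤ μ.real (T q L b0 b1) := measureReal_nonneg
  linarith

theorem core (hfree : ∀ (g : G) (x : X), g • x = x → g = 1)
    (hp : p ^ 3 = 1) (hq : q ^ 3 = 1) (hp1 : p ≠ 1) (hq1 : q ≠ 1)
    (hnf : NormalForm (Subgroup.zpowers p) (Subgroup.zpowers q))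
    (hinf : Subgroup.zpowers p ⊓ Subgroup.zpowers q = ⊥)
    (hI : Inv p q b0 b1 K L E) (h0 : ∀ y, ¬ K (y, b0) (y, b1))
    (hKL : ∀ y, (K ⊔ L) (y, b0) (y, b1)) {e : ℝ} (he0 : 0 ≤ e)
    (he : -1 - 3 * e ≤ chi μ p q K L E) (c : ℝ)
    (hgap : ∀ W : Set X, MeasurableSet W → (∀ x, p • x ∈ W ↔ x ∈ W) →
      c * (μ.real W * μ.real Wᶜ) ≤ μ.real (symmDiff W ((fun x => q • x) ⁻¹' W)))
    (hsmall : ∃ (m : ℕ) (A : Fin m → Set X), (∀ i, MeasurableSet (A i)) ∧
      (⋃ i, A i = Set.univ) ∧ ∀ i, μ.real (A i) ≤ 1 / 9) :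
    c ≤ 27 * e := by
  obtain ⟨m, B, hB, hBU, hBm⟩ := hsmall
  have hX : Nonempty X := by
    by_contra h
    rw [not_nonempty_iff] at h
    have : μ Set.univ = 1 := measure_univ
    rw [Set.univ_eq_empty_iff.2 h, measure_empty] at this
    exact zero_ne_one this
  have hm : 0 < m := by
    obtain ⟨x⟩ := hX
    have : x ∈ ⋃ i, B i := by rw [hBU]; trivial
    obtain ⟨i, _⟩ := Set.mem_iUnion.1 this
    exact Fin.pos i
  let A : ℕ → Set X := fun n => B ⟨n % m, Nat.mod_lt _ hm⟩
  have hA : ∀ n, MeasurableSet (A n) := fun n => hB _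
  have hAm : ∀ n, μ.real (A n) ≤ 1 / 9 := fun n => hBm _
  have hA' : ∀ n y, ∃ k, n ≤ k ∧ y ∈ A k := by
    intro n y
    have : y ∈ ⋃ i, B i := by rw [hBU]; trivial
    obtain ⟨i, hi⟩ := Set.mem_iUnion.1 this
    refine ⟨m * n + i, by nlinarith [i.2], ?_⟩
    have : (⟨(m * n + i) % m, Nat.mod_lt _ hm⟩ : Fin m) = i := by
      apply Fin.ext
      simp [Nat.mod_eq_of_lt i.2]
    show y ∈ B ⟨(m * n + i) % m, Nat.mod_lt _ hm⟩
    rw [this]
    exact hi
  set S : Setoid (X × J) × Setoid (X × J) × Setoid (X × J) := (K, L, E)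
  let QQ : ℕ → Set X := fun n => Q (seqS A S n).1 b0 b1
  have hmono : Monotone QQ := fun n k hnk y hy => seqK_mono A S hnk hy
  have hU : ⋃ n, QQ n = Set.univ := by
    rw [Set.eq_univ_iff_forall]
    intro y
    obtain ⟨n, hn⟩ := exists_coincide μ hfree hp hq hp1 hq1 hnf hinf hI hKL hA hA' y
    exact Set.mem_iUnion.2 ⟨n, hn⟩
  have hlim : Filter.Tendsto (fun n => μ.real (QQ n)) Filter.atTop (nhds 1) := by
    have h1 := tendsto_measure_iUnion_atTop (μ := μ) hmono
    rw [hU, measure_univ] at h1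
    have h2 := (ENNReal.tendsto_toReal ENNReal.one_ne_top).comp h1
    rw [ENNReal.toReal_one] at h2
    exact h2
  have hex : ∃ n, 1 / 3 ≤ μ.real (QQ n) := by
    have h1 : ∀ᶠ n in Filter.atTop, (1 / 3 : ℝ) < μ.real (QQ n) :=
      hlim.eventually_const_lt (by norm_num)
    obtain ⟨n, hn⟩ := h1.exists
    exact ⟨n, hn.le⟩
  classical
  have hn := Nat.find_spec hex
  have hn' := fun k hk => Nat.find_min hex (m := k) hk
  set n := Nat.find hex
  have hup : μ.real (QQ n) ≤ 2 / 3 := by
    rcases hn0 : n with _ | k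
    · have : QQ 0 = ∅ := by
        rw [Set.eq_empty_iff_forall_notMem]
        exact fun y hy => h0 y hy
      rw [this]
      simp only [measureReal_empty]
      norm_num
    · have h1 := growth_seq μ hfree hp hq hp1 hq1 hI hA k
      have h2 := hn' k (by omega)
      have h3 := hAm k
      have h4 : μ.real (QQ k) < 1 / 3 := not_le.1 h2
      have h5 : μ.real (QQ (k + 1)) ≤ μ.real (QQ k) + 3 * μ.real (A k) := h1
      linarith
  obtain ⟨hIn, hchi⟩ := inv_seq μ hfree hp hq hp1 hq1 hI hA n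
  have hdef := defect_le μ hp hq hIn (he.trans hchi)
  have hQm : MeasurableSet (QQ n) := measurableSet_Q hIn.mK b0 b1
  have hg := hgap (QQ n) hQm (fun x => by
    constructor
    · intro h
      exact (seqS A S n).1.trans (hIn.base0 x) ((seqS A S n).1.trans h
        ((seqS A S n).1.symm (hIn.base1 x)))
    · intro h
      exact (seqS A S n).1.trans ((seqS A S n).1.symm (hIn.base0 x))
        ((seqS A S n).1.trans h (hIn.base1 x)))
  have hcompl : μ.real (QQ n)ᶜ = 1 - μ.real (QQ n) := by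
    rw [measureReal_compl hQm]
    simp
  rw [hcompl] at hg
  have h6 : c * (μ.real (QQ n) * (1 - μ.real (QQ n))) ≤ 6 * e := hg.trans hdef
  have h7 : 2 / 9 ≤ μ.real (QQ n) * (1 - μ.real (QQ n)) := by nlinarith
  rcases le_or_gt c 0 with hc | hc
  · linarith
  · have : c * (2 / 9) ≤ 6 * e := (mul_le_mul_of_nonneg_left h7 hc.le).trans h6
    linarith

end Core

end Vale.Agent.P189.Bar
end
end

section

section

set_option autoImplicit false

open MeasureTheory

namespace Vale.Agent.P189.Bar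

section Edge

variable {G X J ι : Type} [Group G] [MulAction G X]

/-- The relation given by labelled edges. -/
def ER (s : G) (src tgt : ι → J) (sh : ι → Fin 3) (A : ι → Set X) (u v : X × J) : Prop :=
  ∃ e, u.2 = src e ∧ v.2 = tgt e ∧ v.1 = s ^ (sh e : ℕ) • u.1 ∧ u.1 ∈ A e

theorem ER_within (s : G) (src tgt : ι → J) (sh : ι → Fin 3) (A : ι → Set X) :
    Within (Subgroup.zpowers s) (ER s src tgt sh A) := by
  rintro u v ⟨e, _, _, h, _⟩
  exact ⟨_, Subgroup.npow_mem_zpowers s _, h⟩

theorem ER_mrel [MeasurableSpace X] [Countable ι]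
    (hfree : ∀ (g : G) (x : X), g • x = x → g = 1) (s : G) (src tgt : ι → J) (sh : ι → Fin 3)
    (A : ι → Set X) (hA : ∀ e, MeasurableSet (A e)) : MRel G (ER s src tgt sh A) := by
  intro g i j
  have h1 : {x : X | ER s src tgt sh A (x, i) (g • x, j)} =
      ⋃ e, {x | (i = src e ∧ j = tgt e ∧ g = s ^ (sh e : ℕ)) ∧ x ∈ A e} := by
    ext x
    simp only [Set.mem_ofPred_eq, Set.mem_iUnion, ER]
    constructor
    · rintro ⟨e, h1, h2, h3, h4⟩
      refine ⟨e, ⟨h1, h2, ?_⟩, h4⟩
      have h5 : ((s ^ (sh e : ℕ))⁻¹ * g) • x = x := by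
        rw [mul_smul, h3, inv_smul_smul]
      exact (inv_mul_eq_one.1 (hfree _ _ h5)).symm
    · rintro ⟨e, ⟨h1, h2, h3⟩, h4⟩
      exact ⟨e, h1, h2, by rw [h3], h4⟩
  rw [h1]
  exact MeasurableSet.iUnion fun e => (MeasurableSet.const _).inter (hA e)

theorem pow_fin3_add {s : G} (hs : s ^ 3 = 1) (a b : Fin 3) :
    s ^ ((a + b : Fin 3) : ℕ) = s ^ (b : ℕ) * s ^ (a : ℕ) := by
  rw [Fin.val_add, ← pow_add, add_comm (b : ℕ) (a : ℕ)]
  exact (pow_eq_pow_mod _ hs).symm

/-- Number of classes for a relation given by finitely many labelled edges. -/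
theorem N_ge (hfree : ∀ (g : G) (x : X), g • x = x → g = 1) {s : G} (hs : s ^ 3 = 1)
    (hs1 : s ≠ 1) [Finite J] [Fintype ι] (src tgt : ι → J) (sh : ι → Fin 3) (A : ι → Set X)
    (Exc : Finset ι) (hExc : ∀ e ∈ Exc, (∀ y, y ∈ A e) ∧ src e = tgt e ∧ sh e = 1) (x : X) :
    (3 * Nat.card J : ℝ) + Exc.card -
      ∑ k : Fin 3, ∑ e, Set.indicator (A e) (fun _ => (1 : ℝ)) (s ^ (k : ℕ) • x) ≤
      (N s (Relation.EqvGen.setoid (ER s src tgt sh A)) x : ℝ) := by
  classical
  let P' : Finset (Fin 3 × ι) := Finset.univ.filter (fun z => s ^ (z.1 : ℕ) • x ∈ A z.2)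
  let Z : Finset (Fin 3 × ι) := ({2} : Finset (Fin 3)) ×ˢ Exc
  let P : Finset (Fin 3 × ι) := P' \ Z
  let φ : Fin 3 × ι → (Fin 3 × J) × (Fin 3 × J) :=
    fun z => ((z.1, src z.2), (z.1 + sh z.2, tgt z.2))
  let S := P.image φ
  have hSmem : ∀ (k : Fin 3) (e : ι), s ^ (k : ℕ) • x ∈ A e → ¬ (k = 2 ∧ e ∈ Exc) →
      Relation.EqvGen (fun a b => (a, b) ∈ S) (k, src e) (k + sh e, tgt e) := by
    intro k e h1 h2
    refine Relation.EqvGen.rel _ _ (Finset.mem_image.2 ⟨(k, e), ?_, rfl⟩)
    refine Finset.mem_sdiff.2 ⟨Finset.mem_filter.2 ⟨Finset.mem_univ _, h1⟩, ?_⟩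
    intro h3
    obtain ⟨h4, h5⟩ := Finset.mem_product.1 h3
    exact h2 ⟨Finset.mem_singleton.1 h4, h5⟩
  have hle : Setoid.comap (loc s x) (Relation.EqvGen.setoid (ER s src tgt sh A)) ≤
      Relation.EqvGen.setoid fun a b => (a, b) ∈ S := by
    rw [comap_eqvGen hfree hs hs1 x (ER_within s src tgt sh A)]
    intro a b hab
    have hab' : Relation.EqvGen (fun a b => ER s src tgt sh A (loc s x a) (loc s x b)) a b := hab
    show Relation.EqvGen (fun a b => (a, b) ∈ S) a b
    clear hab
    induction hab' with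
    | rel a b h =>
      obtain ⟨e, h1, h2, h3, h4⟩ := h
      have h1' : a.2 = src e := h1
      have h2' : b.2 = tgt e := h2
      have h4' : s ^ (a.1 : ℕ) • x ∈ A e := h4
      have h5 : b.1 = a.1 + sh e := by
        have h6 : (loc s x (b.1, src e) : X × J) = loc s x (a.1 + sh e, src e) := by
          refine Prod.ext ?_ rfl
          show s ^ (b.1 : ℕ) • x = s ^ ((a.1 + sh e : Fin 3) : ℕ) • x
          rw [pow_fin3_add hs, mul_smul]
          exact h3
        exact congrArg Prod.fst (loc_inj hfree hs hs1 x h6)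
      have ha : a = (a.1, src e) := Prod.ext rfl h1'
      have hb : b = (a.1 + sh e, tgt e) := Prod.ext h5 h2'
      by_cases hex : a.1 = 2 ∧ e ∈ Exc
      · obtain ⟨hA, hst, hsh⟩ := hExc e hex.2
        have e0 := hSmem 0 e (hA _) (by intro h; exact absurd h.1 (by decide))
        have e1 := hSmem 1 e (hA _) (by intro h; exact absurd h.1 (by decide))
        rw [ha, hb, hex.1, hsh, ← hst]
        rw [hsh, ← hst] at e0 e1
        exact (Relation.EqvGen.trans _ _ _ e0 e1).symm
      · rw [ha, hb]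
        exact hSmem _ _ h4' hex
    | refl a => exact Relation.EqvGen.refl _
    | symm a b _ ih => exact ih.symm
    | trans a b c _ _ ih1 ih2 => exact ih1.trans _ _ _ ih2
  have h1 : nc (Relation.EqvGen.setoid fun a b => (a, b) ∈ S) ≤
      N s (Relation.EqvGen.setoid (ER s src tgt sh A)) x := nc_anti hle
  have h2 := card_le_nc_add S
  have h3 : S.card ≤ P.card := Finset.card_image_le
  have hZ : Z ⊆ P' := by
    intro z hz
    obtain ⟨h4, h5⟩ := Finset.mem_product.1 hz
    exact Finset.mem_filter.2 ⟨Finset.mem_univ _, (hExc _ h5).1 _⟩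
  have h4 : P.card + Exc.card = P'.card := by
    have h5 : Z.card = Exc.card := by simp [Z]
    rw [← h5]
    exact Finset.card_sdiff_add_card_eq_card hZ
  have h5 : (P'.card : ℝ) =
      ∑ k : Fin 3, ∑ e, Set.indicator (A e) (fun _ => (1 : ℝ)) (s ^ (k : ℕ) • x) := by
    rw [← Finset.sum_product', Finset.univ_product_univ]
    simp only [P', Set.indicator_apply]
    rw [Finset.card_filter]
    push_cast
    rfl
  have h6 : Nat.card (Fin 3 × J) = 3 * Nat.card J := by
    rw [Nat.card_prod]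
    simp
  rw [h6] at h2
  have h7 : (3 * Nat.card J : ℝ) ≤
      (N s (Relation.EqvGen.setoid (ER s src tgt sh A)) x : ℝ) + P.card := by
    have : 3 * Nat.card J ≤ N s (Relation.EqvGen.setoid (ER s src tgt sh A)) x + P.card := by
      omega
    exact_mod_cast this
  have h8 : (P.card : ℝ) + Exc.card = P'.card := by exact_mod_cast h4
  rw [← h5]
  linarith

theorem integral_N_ge [Countable G] [MeasurableSpace X] [MeasurableConstSMul G X]
    (μ : Measure X) [IsProbabilityMeasure μ] [SMulInvariantMeasure G X μ]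
    (hfree : ∀ (g : G) (x : X), g • x = x → g = 1) {s : G} (hs : s ^ 3 = 1)
    (hs1 : s ≠ 1) [Finite J] [Fintype ι] (src tgt : ι → J) (sh : ι → Fin 3) (A : ι → Set X)
    (hA : ∀ e, MeasurableSet (A e))
    (Exc : Finset ι) (hExc : ∀ e ∈ Exc, (∀ y, y ∈ A e) ∧ src e = tgt e ∧ sh e = 1) :
    (3 * Nat.card J : ℝ) + Exc.card - 3 * ∑ e, μ.real (A e) ≤
      ∫ x, (N s (Relation.EqvGen.setoid (ER s src tgt sh A)) x : ℝ) ∂μ := by
  have hm : MRel G (Relation.EqvGen.setoid (ER s src tgt sh A)) :=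
    MRel.eqvGen hfree (ER_mrel hfree s src tgt sh A hA)
      ((ER_within s src tgt sh A).mono le_top)
  have hint : Integrable (fun x => ∑ e, Set.indicator (A e) (fun _ => (1 : ℝ)) x) μ :=
    integrable_finsetSum _ fun e _ => (integrable_const _).indicator (hA e)
  have hint2 : Integrable (fun x => ∑ k : Fin 3, ∑ e,
      Set.indicator (A e) (fun _ => (1 : ℝ)) (s ^ (k : ℕ) • x)) μ := by
    refine integrable_finsetSum _ fun k _ => ?_
    exact ((measurePreserving_smul (s ^ (k : ℕ)) μ).integrable_comp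
      hint.aestronglyMeasurable).2 hint
  have h1 : ∫ x, ((3 * Nat.card J : ℝ) + Exc.card - ∑ k : Fin 3, ∑ e,
      Set.indicator (A e) (fun _ => (1 : ℝ)) (s ^ (k : ℕ) • x)) ∂μ ≤
      ∫ x, (N s (Relation.EqvGen.setoid (ER s src tgt sh A)) x : ℝ) ∂μ := by
    refine integral_mono ((integrable_const _).sub hint2) (integrable_N μ hm) ?_
    exact fun x => N_ge hfree hs hs1 src tgt sh A Exc hExc x
  refine le_trans (le_of_eq ?_) h1
  rw [integral_sub (integrable_const _) hint2, integral_sum_orbit μ hint,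
    integral_finsetSum _ fun e _ => (integrable_const _).indicator (hA e)]
  have h2 : ∀ e, ∫ x, Set.indicator (A e) (fun _ => (1 : ℝ)) x ∂μ = μ.real (A e) := by
    intro e
    rw [integral_indicator_const _ (hA e)]
    simp
  simp only [h2]
  simp

end Edge

end Vale.Agent.P189.Bar
end
end

section

section

set_option autoImplicit false

open MeasureTheory

namespace Vale.Agent.P189.Bar

section Words

variable {G : Type} [Group G]

/-- The two cyclic subgroups. -/
def HH (p q : G) : Bool → Subgroup G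
  | true => Subgroup.zpowers p
  | false => Subgroup.zpowers q

/-- Type of the `i`-th syllable. -/
def typ (c : Bool) (i : ℕ) : Bool := xor c (decide (i % 2 = 1))

theorem typ_succ (c : Bool) (i : ℕ) : typ c (i + 1) = !typ c i := by
  unfold typ
  rcases Nat.mod_two_eq_zero_or_one i with h | h
  · have h1 : (i + 1) % 2 = 1 := by omega
    simp [h, h1]
  · have h1 : (i + 1) % 2 = 0 := by omega
    simp [h, h1]

/-- `u 0 = 1, ..., u k = g` is a path with alternating syllables. -/
def IsWord (p q : G) (k : ℕ) (c : Bool) (u : ℕ → G) (g : G) : Prop :=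
  u 0 = 1 ∧ u k = g ∧ ∀ i < k, u (i + 1) * (u i)⁻¹ ≠ 1 ∧ u (i + 1) * (u i)⁻¹ ∈ HH p q (typ c i)

theorem IsWord.mul {p q : G} {k : ℕ} {c : Bool} {u : ℕ → G} {g : G} (h : IsWord p q k c u g)
    {a : G} {d : Bool} (ha : a ∈ HH p q d) :
    ∃ (k' : ℕ) (c' : Bool) (u' : ℕ → G), IsWord p q k' c' u' (a * g) := by
  classical
  obtain ⟨h0, hk, hl⟩ := h
  by_cases ha1 : a = 1
  · exact ⟨k, c, u, h0, by rw [hk, ha1, one_mul], hl⟩
  cases k with
  | zero =>
    have hg : g = 1 := by rw [← hk, h0]
    refine ⟨1, d, fun i => if i = 0 then 1 else a, by simp, by simp [hg], ?_⟩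
    intro i hi
    have : i = 0 := by omega
    subst this
    simp only [typ]
    simpa using ⟨ha1, ha⟩
  | succ k =>
    by_cases hd : typ c k = d
    · by_cases hone : a * g * (u k)⁻¹ = 1
      · exact ⟨k, c, u, h0, (mul_inv_eq_one.1 hone).symm, fun i hi => hl i (by omega)⟩
      · refine ⟨k + 1, c, Function.update u (k + 1) (a * g), ?_, ?_, ?_⟩
        · rw [Function.update_of_ne (by omega), h0]
        · rw [Function.update_self]
        · intro i hi
          rcases Nat.lt_or_ge i k with h1 | h1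
          · rw [Function.update_of_ne (by omega), Function.update_of_ne (by omega)]
            exact hl i (by omega)
          · have : i = k := by omega
            subst this
            rw [Function.update_self, Function.update_of_ne (by omega)]
            refine ⟨hone, ?_⟩
            have h2 := (hl i (by omega)).2
            rw [hk, hd] at h2
            rw [hd, mul_assoc]
            exact Subgroup.mul_mem _ ha h2
    · refine ⟨k + 2, c, Function.update u (k + 2) (a * g), ?_, ?_, ?_⟩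
      · rw [Function.update_of_ne (by omega), h0]
      · rw [Function.update_self]
      · intro i hi
        rcases Nat.lt_or_ge i (k + 1) with h1 | h1
        · rw [Function.update_of_ne (by omega), Function.update_of_ne (by omega)]
          exact hl i h1
        · have : i = k + 1 := by omega
          subst this
          rw [Function.update_self, Function.update_of_ne (by omega), hk, mul_inv_cancel_right]
          refine ⟨ha1, ?_⟩
          have h2 : typ c (k + 1) = d := by
            rw [typ_succ]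
            cases h3 : typ c k <;> cases h4 : d <;> simp_all
          rw [h2]
          exact ha

theorem exists_word (p q : G) {g : G} (hg : g ∈ Subgroup.closure {p, q}) :
    ∃ (k : ℕ) (c : Bool) (u : ℕ → G), IsWord p q k c u g := by
  induction hg using Subgroup.closure_induction_left with
  | one => exact ⟨0, true, fun _ => 1, rfl, rfl, fun i hi => absurd hi (by omega)⟩
  | mul_left x hx y hy ih =>
    obtain ⟨k, c, u, h⟩ := ih
    rcases hx with rfl | hx
    · exact h.mul (d := true) (Subgroup.mem_zpowers _)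
    · have hx' : x = q := hx
      subst hx'
      exact h.mul (d := false) (Subgroup.mem_zpowers _)
  | inv_mul_cancel x hx y hy ih =>
    obtain ⟨k, c, u, h⟩ := ih
    rcases hx with rfl | hx
    · exact h.mul (d := true) (Subgroup.inv_mem _ (Subgroup.mem_zpowers _))
    · have hx' : x = q := hx
      subst hx'
      exact h.mul (d := false) (Subgroup.inv_mem _ (Subgroup.mem_zpowers _))

end Words

section Tokens

variable {G X F B : Type} [Group G] [MulAction G X] (n : ℕ) (K : F → ℕ) (C : F → Bool)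
  (U : F → ℕ → G) (Dm : F → Set X)

/-- The positions where the token `t` exists. -/
def act (t : F × Fin n) : Set X :=
  {y | (0 < (t.2 : ℕ) ∧ (t.2 : ℕ) < K t.1) ∧ (U t.1 t.2)⁻¹ • y ∈ Dm t.1}

/-- The domain of the link starting at the token `t`. -/
def lnk (b : Bool) (t : F × Fin n) : Set X :=
  {y | ((t.2 : ℕ) < K t.1 ∧ typ (C t.1) t.2 = b) ∧ (U t.1 t.2)⁻¹ • y ∈ Dm t.1}

/-- The token with label `f` and number `i`. -/
def tok (f : F) (i : ℕ) : Bool ⊕ (F × Fin n) :=
  if h : i < n then (if 0 < i ∧ i < K f then Sum.inr (f, ⟨i, h⟩) else Sum.inl false)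
  else Sum.inl false

/-- Sources of the edges. -/
def src (bs : B → Bool) : B ⊕ ((F × Fin n) ⊕ (F × Fin n)) → Bool ⊕ (F × Fin n)
  | Sum.inl b => Sum.inl (bs b)
  | Sum.inr (Sum.inl t) => Sum.inr t
  | Sum.inr (Sum.inr t) => tok n K t.1 t.2

/-- Targets of the edges. -/
def tgt (bt : B → Bool) : B ⊕ ((F × Fin n) ⊕ (F × Fin n)) → Bool ⊕ (F × Fin n)
  | Sum.inl b => Sum.inl (bt b)
  | Sum.inr (Sum.inl _) => Sum.inl false
  | Sum.inr (Sum.inr t) => tok n K t.1 (t.2 + 1)

/-- Shifts of the edges. -/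
def shf (sh : F × Fin n → Fin 3) : B ⊕ ((F × Fin n) ⊕ (F × Fin n)) → Fin 3
  | Sum.inl _ => 1
  | Sum.inr (Sum.inl _) => 0
  | Sum.inr (Sum.inr t) => sh t

/-- Domains of the edges. -/
def dom (b : Bool) : B ⊕ ((F × Fin n) ⊕ (F × Fin n)) → Set X
  | Sum.inl _ => Set.univ
  | Sum.inr (Sum.inl t) => (act n K U Dm t)ᶜ
  | Sum.inr (Sum.inr t) => lnk n K C U Dm b t

/-- The relation generated by the edges of one kind. -/
def RR (s : G) (bs bt : B → Bool) (sh : F × Fin n → Fin 3) (b : Bool) :
    Setoid (X × (Bool ⊕ (F × Fin n))) :=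
  Relation.EqvGen.setoid (ER s (src n K bs) (tgt n K bt) (shf n sh) (dom n K C U Dm b))

variable {n K C U Dm}

theorem tok_zero (f : F) : tok n K f 0 = Sum.inl false := by
  unfold tok
  split_ifs with h1 h2
  · exact absurd h2.1 (by omega)
  · rfl
  · rfl

theorem tok_end (f : F) : tok n K f (K f) = Sum.inl false := by
  unfold tok
  split_ifs with h1 h2
  · exact absurd h2.2 (by omega)
  · rfl
  · rfl

theorem tok_ne (f : F) (i : ℕ) : tok n K f i ≠ Sum.inl true := by
  unfold tok
  split_ifs <;> simp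

theorem tok_of (t : F × Fin n) (h : 0 < (t.2 : ℕ) ∧ (t.2 : ℕ) < K t.1) :
    tok n K t.1 t.2 = Sum.inr t := by
  unfold tok
  rw [dif_pos t.2.2, if_pos h]

theorem measurableSet_act [MeasurableSpace X] [MeasurableConstSMul G X]
    (hDm : ∀ f, MeasurableSet (Dm f)) (t : F × Fin n) : MeasurableSet (act n K U Dm t) :=
  (MeasurableSet.const _).inter ((hDm _).preimage (measurable_const_smul _))

theorem measurableSet_lnk [MeasurableSpace X] [MeasurableConstSMul G X]
    (hDm : ∀ f, MeasurableSet (Dm f)) (b : Bool) (t : F × Fin n) :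
    MeasurableSet (lnk n K C U Dm b t) :=
  (MeasurableSet.const _).inter ((hDm _).preimage (measurable_const_smul _))

theorem measurableSet_dom [MeasurableSpace X] [MeasurableConstSMul G X]
    (hDm : ∀ f, MeasurableSet (Dm f)) (b : Bool) (e : B ⊕ ((F × Fin n) ⊕ (F × Fin n))) :
    MeasurableSet (dom n K C U Dm b e) := by
  rcases e with e | e | e
  · exact MeasurableSet.univ
  · exact (measurableSet_act hDm e).compl
  · exact measurableSet_lnk hDm b e

variable {s : G} {bs bt : B → Bool} {sh : F × Fin n → Fin 3} {b : Bool}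

theorem RR_base (e : B) (y : X) :
    RR n K C U Dm s bs bt sh b (y, Sum.inl (bs e)) (s • y, Sum.inl (bt e)) := by
  refine Relation.EqvGen.rel _ _ ⟨Sum.inl e, rfl, rfl, ?_, trivial⟩
  show s • y = s ^ ((1 : Fin 3) : ℕ) • y
  simp

theorem RR_tie (t : F × Fin n) (y : X) (h : y ∉ act n K U Dm t) :
    RR n K C U Dm s bs bt sh b (y, Sum.inr t) (y, Sum.inl false) := by
  refine Relation.EqvGen.rel _ _ ⟨Sum.inr (Sum.inl t), rfl, rfl, ?_, h⟩
  show y = s ^ ((0 : Fin 3) : ℕ) • y
  simp

theorem RR_link (hsh : ∀ t : F × Fin n, (t.2 : ℕ) < K t.1 → typ (C t.1) t.2 = b →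
      U t.1 ((t.2 : ℕ) + 1) * (U t.1 t.2)⁻¹ = s ^ (sh t : ℕ))
    (t : F × Fin n) (y : X) (h : y ∈ lnk n K C U Dm b t) :
    RR n K C U Dm s bs bt sh b (y, tok n K t.1 t.2)
      ((U t.1 ((t.2 : ℕ) + 1) * (U t.1 t.2)⁻¹) • y, tok n K t.1 ((t.2 : ℕ) + 1)) := by
  refine Relation.EqvGen.rel _ _ ⟨Sum.inr (Sum.inr t), rfl, rfl, ?_, h⟩
  rw [hsh t h.1.1 h.1.2]
  rfl

theorem RR_within : Within (Subgroup.zpowers s) (RR n K C U Dm s bs bt sh b) :=
  (ER_within _ _ _ _ _).eqvGen

/-- Every token is related to a token at a different position. -/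
theorem RR_two (hfree : ∀ (g : G) (x : X), g • x = x → g = 1)
    (hsh : ∀ t : F × Fin n, (t.2 : ℕ) < K t.1 → typ (C t.1) t.2 = b →
      U t.1 ((t.2 : ℕ) + 1) * (U t.1 t.2)⁻¹ = s ^ (sh t : ℕ))
    (hU : ∀ f, ∀ i < K f, U f (i + 1) * (U f i)⁻¹ ≠ 1)
    (hbase : ∀ (c : Bool) (y : X), ∃ v, RR n K C U Dm s bs bt sh b (y, Sum.inl c) v ∧ y ≠ v.1)
    (u : X × (Bool ⊕ (F × Fin n))) : ∃ v, RR n K C U Dm s bs bt sh b u v ∧ u.1 ≠ v.1 := by
  obtain ⟨y, j⟩ := u
  rcases j with c | t
  · exact hbase c y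
  · by_cases hy : y ∈ act n K U Dm t
    · obtain ⟨hpos, hyD⟩ := hy
      have hne : ∀ i < K t.1, ∀ z : X, z ≠ (U t.1 (i + 1) * (U t.1 i)⁻¹) • z := by
        intro i hi z hz
        exact hU t.1 i hi (hfree _ _ hz.symm)
      by_cases hty : typ (C t.1) t.2 = b
      · have h1 := RR_link (Dm := Dm) (bs := bs) (bt := bt) hsh t y ⟨⟨hpos.2, hty⟩, hyD⟩
        rw [tok_of t hpos] at h1
        exact ⟨_, h1, hne _ hpos.2 y⟩
      · obtain ⟨f, i⟩ := t
        obtain ⟨i, hi⟩ := i
        cases i with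
        | zero => exact absurd hpos.1 (by simp)
        | succ i =>
          have hty' : typ (C f) i = b := by
            have h2 : typ (C f) (i + 1) ≠ b := hty
            rw [typ_succ] at h2
            cases h3 : typ (C f) i <;> cases h4 : b <;> simp_all
          have hik : i < K f := by
            have : i + 1 < K f := hpos.2
            omega
          let t' : F × Fin n := (f, ⟨i, by omega⟩)
          let y' : X := (U f (i + 1) * (U f i)⁻¹)⁻¹ • y
          have hy' : y' ∈ lnk n K C U Dm b t' := by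
            refine ⟨⟨hik, hty'⟩, ?_⟩
            show (U f i)⁻¹ • (U f (i + 1) * (U f i)⁻¹)⁻¹ • y ∈ Dm f
            rw [smul_smul, mul_inv_rev, inv_inv, inv_mul_cancel_left]
            exact hyD
          have h1 := RR_link (Dm := Dm) (bs := bs) (bt := bt) hsh t' y' hy'
          have h2 : (U f (i + 1) * (U f i)⁻¹) • y' = y := smul_inv_smul _ _
          have h3 : tok n K f (i + 1) = Sum.inr (f, ⟨i + 1, hi⟩) := tok_of (f, ⟨i + 1, hi⟩) hpos
          change RR n K C U Dm s bs bt sh b (y', tok n K f i)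
            ((U f (i + 1) * (U f i)⁻¹) • y', tok n K f (i + 1)) at h1
          rw [h3, h2] at h1
          refine ⟨_, (RR n K C U Dm s bs bt sh b).symm h1, ?_⟩
          intro h4
          apply hne i hik y'
          rw [h2]
          exact h4.symm
    · obtain ⟨v, hv, hv'⟩ := hbase false y
      exact ⟨v, (RR n K C U Dm s bs bt sh b).trans (RR_tie t y hy) hv, hv'⟩

/-- The base token `b1` is not related to other tokens by edges preserving it. -/
theorem RR_sep (hb : ∀ e, bs e = bt e) {u v : X × (Bool ⊕ (F × Fin n))}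
    (h : RR n K C U Dm s bs bt sh b u v) : u.2 = Sum.inl true ↔ v.2 = Sum.inl true := by
  have h' : Relation.EqvGen
    (ER s (src n K bs) (tgt n K bt) (shf n sh) (dom n K C U Dm b)) u v := h
  clear h
  induction h' with
  | rel u v h =>
    obtain ⟨e, h1, h2, -, -⟩ := h
    rw [h1, h2]
    rcases e with e | e | e
    · show Sum.inl (bs e) = Sum.inl true ↔ Sum.inl (bt e) = Sum.inl true
      rw [hb e]
    · show (Sum.inr e : Bool ⊕ (F × Fin n)) = Sum.inl true ↔ Sum.inl false = Sum.inl true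
      simp
    · show tok n K e.1 e.2 = Sum.inl true ↔ tok n K e.1 (e.2 + 1) = Sum.inl true
      exact ⟨fun h => absurd h (tok_ne _ _), fun h => absurd h (tok_ne _ _)⟩
  | refl u => exact Iff.rfl
  | symm u v _ ih => exact ih.symm
  | trans u v w _ _ ih1 ih2 => exact ih1.trans ih2

section EE

variable (n K U Dm)

open Classical in
/-- Projection of inactive tokens to the base token. -/
noncomputable def rho (y : X) : Bool ⊕ (F × Fin n) → Bool ⊕ (F × Fin n)
  | Sum.inl c => Sum.inl c
  | Sum.inr t => if y ∈ act n K U Dm t then Sum.inr t else Sum.inl false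

/-- The relation tying the inactive tokens to the base token. -/
noncomputable def EE : Setoid (X × (Bool ⊕ (F × Fin n))) :=
  Setoid.ker fun u : X × (Bool ⊕ (F × Fin n)) => (u.1, rho n K U Dm u.1 u.2)

variable {n K U Dm}

theorem rho_rho (y : X) (j : Bool ⊕ (F × Fin n)) :
    rho n K U Dm y (rho n K U Dm y j) = rho n K U Dm y j := by
  rcases j with c | t
  · rfl
  · by_cases h : y ∈ act n K U Dm t <;> simp [rho, h]

theorem RR_rho (y : X) (j : Bool ⊕ (F × Fin n)) :
    RR n K C U Dm s bs bt sh b (y, j) (y, rho n K U Dm y j) := by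
  rcases j with c | t
  · exact (RR n K C U Dm s bs bt sh b).refl _
  · by_cases h : y ∈ act n K U Dm t
    · simp only [rho, h, if_true]
      exact (RR n K C U Dm s bs bt sh b).refl _
    · simp only [rho, h, if_false]
      exact RR_tie t y h

theorem EE_le : EE n K U Dm ≤ RR n K C U Dm s bs bt sh b := by
  rintro ⟨y, i⟩ ⟨y', j⟩ h
  have h1 : y = y' := congrArg Prod.fst h
  have h2 : rho n K U Dm y i = rho n K U Dm y' j := congrArg Prod.snd h
  subst h1
  have h3 := RR_rho (C := C) (s := s) (bs := bs) (bt := bt) (sh := sh) (b := b)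
    (n := n) (K := K) (U := U) (Dm := Dm) y i
  rw [h2] at h3
  exact (RR n K C U Dm s bs bt sh b).trans h3
    ((RR n K C U Dm s bs bt sh b).symm (RR_rho y j))

theorem EE_pos {u v : X × (Bool ⊕ (F × Fin n))} (h : EE n K U Dm u v) : v.1 = u.1 := by
  have h' : (u.1, rho n K U Dm u.1 u.2) = (v.1, rho n K U Dm v.1 v.2) := h
  exact (congrArg Prod.fst h').symm

theorem measurableSet_rho [MeasurableSpace X] [MeasurableConstSMul G X]
    (hDm : ∀ f, MeasurableSet (Dm f)) (i j : Bool ⊕ (F × Fin n)) :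
    MeasurableSet {y : X | rho n K U Dm y i = j} := by
  rcases i with c | t
  · have h1 : {y : X | rho n K U Dm y (Sum.inl c) = j} =
        {_y | (Sum.inl c : Bool ⊕ (F × Fin n)) = j} := rfl
    rw [h1]
    exact MeasurableSet.const _
  · have h1 : {y : X | rho n K U Dm y (Sum.inr t) = j} =
        (act n K U Dm t ∩ {_y | (Sum.inr t : Bool ⊕ (F × Fin n)) = j}) ∪
        ((act n K U Dm t)ᶜ ∩ {_y | (Sum.inl false : Bool ⊕ (F × Fin n)) = j}) := by
      ext y
      by_cases h : y ∈ act n K U Dm t <;> simp [rho, h]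
    rw [h1]
    exact ((measurableSet_act hDm t).inter (MeasurableSet.const _)).union
      ((measurableSet_act hDm t).compl.inter (MeasurableSet.const _))

theorem EE_mrel [MeasurableSpace X] [MeasurableConstSMul G X] [Finite F]
    (hfree : ∀ (g : G) (x : X), g • x = x → g = 1) (hDm : ∀ f, MeasurableSet (Dm f)) :
    MRel G (EE n K U Dm) := by
  intro g i j
  by_cases hg : g = 1
  · subst hg
    have h1 : {x : X | EE n K U Dm (x, i) ((1 : G) • x, j)} =
        ⋃ l, ({x | rho n K U Dm x i = l} ∩ {x | rho n K U Dm x j = l}) := by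
      ext x
      simp only [one_smul, Set.mem_ofPred_eq, Set.mem_iUnion, Set.mem_inter_iff]
      constructor
      · intro h
        have h2 : rho n K U Dm x i = rho n K U Dm x j := congrArg Prod.snd h
        exact ⟨_, h2, rfl⟩
      · rintro ⟨l, h2, h3⟩
        exact Prod.ext rfl (h2.trans h3.symm)
    rw [h1]
    exact MeasurableSet.iUnion fun l => (measurableSet_rho hDm i l).inter
      (measurableSet_rho hDm j l)
  · have h1 : {x : X | EE n K U Dm (x, i) (g • x, j)} = ∅ := by
      ext x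
      simp only [Set.mem_ofPred_eq, Set.mem_empty_iff_false, iff_false]
      intro h
      exact hg (hfree g x (EE_pos h))
    rw [h1]
    exact MeasurableSet.empty

theorem N1_EE_le [Fintype F] (y : X) :
    (N1 (EE n K U Dm) y : ℝ) ≤
      2 + ∑ t, Set.indicator (act n K U Dm t) (fun _ => (1 : ℝ)) y := by
  classical
  let S : Finset (Bool ⊕ (F × Fin n)) := Finset.univ.filter fun j => rho n K U Dm y j = j
  have h1 : N1 (EE n K U Dm) y ≤ S.card := by
    unfold N1 nc
    have h2 : Nat.card {j // j ∈ S} = S.card := by simp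
    rw [← h2]
    refine Nat.card_le_card_of_surjective
      (fun j : {j // j ∈ S} => Quotient.mk (Setoid.comap (fun j => (y, j)) (EE n K U Dm)) j.1) ?_
    intro c
    induction c using Quotient.inductionOn with
    | h j =>
      refine ⟨⟨rho n K U Dm y j, Finset.mem_filter.2 ⟨Finset.mem_univ _, rho_rho y j⟩⟩, ?_⟩
      refine Quotient.sound ?_
      show (y, rho n K U Dm y (rho n K U Dm y j)) = (y, rho n K U Dm y j)
      rw [rho_rho]
  have h2 : (S.card : ℝ) = 2 + ∑ t, Set.indicator (act n K U Dm t) (fun _ => (1 : ℝ)) y := by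
    simp only [S]
    rw [Finset.card_filter]
    push_cast
    rw [Fintype.sum_sum_type]
    congr 1
    · simp [rho]
    · refine Finset.sum_congr rfl fun t _ => ?_
      by_cases h : y ∈ act n K U Dm t <;> simp [rho, h]
  rw [← h2]
  exact_mod_cast h1

end EE

section Final

theorem chi_ge [Fintype F] [Countable G] [MeasurableSpace X] [MeasurableConstSMul G X]
    (μ : Measure X) [IsProbabilityMeasure μ] [SMulInvariantMeasure G X μ]
    (hfree : ∀ (g : G) (x : X), g • x = x → g = 1) {p q : G} (hp : p ^ 3 = 1) (hq : q ^ 3 = 1)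
    (hp1 : p ≠ 1) (hq1 : q ≠ 1) (hDm : ∀ f, MeasurableSet (Dm f))
    (shp shq : F × Fin n → Fin 3) :
    -1 - 3 * ∑ f, μ.real (Dm f) ≤
      chi μ p q (RR n K C U Dm p (fun c : Bool => c) (fun c => c) shp true)
        (RR n K C U Dm q (fun _ : Unit => true) (fun _ => false) shq false) (EE n K U Dm) := by
  classical
  have hK := integral_N_ge μ hfree hp hp1 (src n K (fun c : Bool => c)) (tgt n K (fun c => c))
    (shf n shp) (dom n K C U Dm true) (measurableSet_dom hDm true)
    (Finset.univ.map ⟨Sum.inl, Sum.inl_injective⟩) (by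
      intro e he
      obtain ⟨c, -, rfl⟩ := Finset.mem_map.1 he
      exact ⟨fun y => trivial, rfl, rfl⟩)
  have hL := integral_N_ge μ hfree hq hq1 (src n K (fun _ : Unit => true))
    (tgt n K (fun _ => false)) (shf n shq) (dom n K C U Dm false) (measurableSet_dom hDm false)
    ∅ (by simp)
  have hcard : (Nat.card (Bool ⊕ (F × Fin n)) : ℝ) = 2 + Fintype.card (F × Fin n) := by
    rw [Nat.card_eq_fintype_card, Fintype.card_sum, Fintype.card_bool]
    push_cast
    rfl
  have hsum : ∀ (B : Type) [Fintype B] (b : Bool),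
      ∑ e : B ⊕ ((F × Fin n) ⊕ (F × Fin n)), μ.real (dom n K C U Dm b e) =
      Fintype.card B + ((Fintype.card (F × Fin n) : ℝ) - ∑ t, μ.real (act n K U Dm t) +
        ∑ t, μ.real (lnk n K C U Dm b t)) := by
    intro B _ b
    rw [Fintype.sum_sum_type, Fintype.sum_sum_type]
    congr 1
    · simp [dom]
    · congr 1
      have : ∀ t : F × Fin n, μ.real (dom n K C U Dm b (Sum.inr (Sum.inl t) :
          B ⊕ ((F × Fin n) ⊕ (F × Fin n)))) = 1 - μ.real (act n K U Dm t) := by
        intro t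
        exact probReal_compl_eq_one_sub (measurableSet_act hDm t)
      simp only [this, Finset.sum_sub_distrib]
      simp
  have hE : ∫ x, (N1 (EE n K U Dm) x : ℝ) ∂μ ≤ 2 + ∑ t, μ.real (act n K U Dm t) := by
    have hint : ∀ t, Integrable (Set.indicator (act n K U Dm t) (fun _ => (1 : ℝ))) μ := fun t =>
      (integrable_const _).indicator (measurableSet_act hDm t)
    have h1 : ∫ x, (N1 (EE n K U Dm) x : ℝ) ∂μ ≤
        ∫ x, (2 + ∑ t, Set.indicator (act n K U Dm t) (fun _ => (1 : ℝ)) x) ∂μ := by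
      refine integral_mono (integrable_N1 μ (EE_mrel hfree hDm)) ?_ fun x => N1_EE_le x
      exact (integrable_const _).add (integrable_finsetSum _ fun t _ => hint t)
    refine h1.trans (le_of_eq ?_)
    rw [integral_add (integrable_const _) (integrable_finsetSum _ fun t _ => hint t),
      integral_finsetSum _ fun t _ => hint t]
    congr 1
    · simp
    · refine Finset.sum_congr rfl fun t _ => ?_
      rw [integral_indicator_const _ (measurableSet_act hDm t)]
      simp
  have hDmr : ∀ (g : G) (S : Set X), μ.real ((fun y => g • y) ⁻¹' S) = μ.real S := by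
    intro g S
    simp only [measureReal_def, measure_preimage_smul]
  have ht : ∀ t : F × Fin n, μ.real (lnk n K C U Dm true t) + μ.real (lnk n K C U Dm false t) ≤
      μ.real (act n K U Dm t) + if (t.2 : ℕ) = 0 then μ.real (Dm t.1) else 0 := by
    intro t
    have h1 : ∀ b : Bool, μ.real (lnk n K C U Dm b t) =
        if (t.2 : ℕ) < K t.1 ∧ typ (C t.1) t.2 = b then μ.real (Dm t.1) else 0 := by
      intro b
      by_cases h : (t.2 : ℕ) < K t.1 ∧ typ (C t.1) t.2 = b
      · rw [if_pos h, ← hDmr (U t.1 t.2)⁻¹ (Dm t.1)]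
        congr 1
        ext y
        exact ⟨fun hy => hy.2, fun hy => ⟨h, hy⟩⟩
      · rw [if_neg h]
        have : lnk n K C U Dm b t = ∅ := by
          ext y
          exact ⟨fun hy => absurd hy.1 h, fun hy => absurd hy (Set.notMem_empty y)⟩
        rw [this, measureReal_empty]
    have h2 : μ.real (act n K U Dm t) =
        if 0 < (t.2 : ℕ) ∧ (t.2 : ℕ) < K t.1 then μ.real (Dm t.1) else 0 := by
      by_cases h : 0 < (t.2 : ℕ) ∧ (t.2 : ℕ) < K t.1
      · rw [if_pos h, ← hDmr (U t.1 t.2)⁻¹ (Dm t.1)]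
        congr 1
        ext y
        exact ⟨fun hy => hy.2, fun hy => ⟨h, hy⟩⟩
      · rw [if_neg h]
        have : act n K U Dm t = ∅ := by
          ext y
          exact ⟨fun hy => absurd hy.1 h, fun hy => absurd hy (Set.notMem_empty y)⟩
        rw [this, measureReal_empty]
    rw [h1 true, h1 false, h2]
    have h3 : 0 ≤ μ.real (Dm t.1) := measureReal_nonneg
    by_cases hk : (t.2 : ℕ) < K t.1
    · by_cases h0 : (t.2 : ℕ) = 0
      · have hk0 : 0 < K t.1 := by omega
        rw [h0]
        cases htyp : typ (C t.1) 0 <;> simp [hk0]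
      · have h0' : 0 < (t.2 : ℕ) := Nat.pos_of_ne_zero h0
        cases htyp : typ (C t.1) t.2 <;> simp [hk, h0, h0']
    · simp only [hk, false_and, and_false, if_false]
      split_ifs <;> linarith
  have hsum2 : ∑ t, μ.real (lnk n K C U Dm true t) + ∑ t, μ.real (lnk n K C U Dm false t) ≤
      ∑ t, μ.real (act n K U Dm t) + ∑ f, μ.real (Dm f) := by
    rw [← Finset.sum_add_distrib]
    refine (Finset.sum_le_sum fun t _ => ht t).trans ?_
    rw [Finset.sum_add_distrib]
    gcongr
    rw [Fintype.sum_prod_type]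
    refine Finset.sum_le_sum fun f _ => ?_
    have h3 : 0 ≤ μ.real (Dm f) := measureReal_nonneg
    rcases Nat.eq_zero_or_pos n with hn | hn
    · subst hn
      simp [h3]
    · have : ∀ i : Fin n, (if ((f, i).2 : ℕ) = 0 then μ.real (Dm (f, i).1) else 0) =
          if i = ⟨0, hn⟩ then μ.real (Dm f) else 0 := by
        intro i
        by_cases hi : (i : ℕ) = 0
        · rw [if_pos hi, if_pos (Fin.ext hi)]
        · rw [if_neg hi, if_neg (fun h => hi (congrArg Fin.val h))]
      simp only [this]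
      simp
  rw [hcard, hsum Bool true] at hK
  rw [hcard, hsum Unit false] at hL
  simp only [Finset.card_map, Finset.card_univ, Fintype.card_bool, Finset.card_empty,
    Fintype.card_unit, Nat.cast_ofNat, Nat.cast_one, Nat.cast_zero] at hK hL
  have hchi : chi μ p q (RR n K C U Dm p (fun c : Bool => c) (fun c => c) shp true)
        (RR n K C U Dm q (fun _ : Unit => true) (fun _ => false) shq false) (EE n K U Dm) =
      ∫ x, (N p (Relation.EqvGen.setoid (ER p (src n K (fun c : Bool => c))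
        (tgt n K (fun c => c)) (shf n shp) (dom n K C U Dm true))) x : ℝ) ∂μ +
      ∫ x, (N q (Relation.EqvGen.setoid (ER q (src n K (fun _ : Unit => true))
        (tgt n K (fun _ => false)) (shf n shq) (dom n K C U Dm false))) x : ℝ) ∂μ -
      3 * ∫ x, (N1 (EE n K U Dm) x : ℝ) ∂μ := rfl
  rw [hchi]
  linarith

end Final

end Tokens

open Classical in
theorem init {G X : Type} [Group G] [Countable G] [MeasurableSpace X] (μ : Measure X)
    [IsProbabilityMeasure μ] [MulAction G X] [MeasurableConstSMul G X]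
    [SMulInvariantMeasure G X μ] (hfree : ∀ (g : G) (x : X), g • x = x → g = 1) (p q : G)
    (hp : p ^ 3 = 1) (hq : q ^ 3 = 1) (hp1 : p ≠ 1) (hq1 : q ≠ 1)
    (hinf : Subgroup.zpowers p ⊓ Subgroup.zpowers q = ⊥) (D : G → Set X)
    (hD : ∀ g, MeasurableSet (D g)) (hfin : {g | (D g).Nonempty}.Finite)
    (hA : ∀ g, (D g).Nonempty → g ∈ Subgroup.closure {p, q})
    (hgen : ∀ x : X, Conn (fun h => full X (Subgroup.closure {p, q * p * q⁻¹}) h ∪ D h)
      x (q • x)) :
    ∃ (J : Type) (_ : Finite J) (b0 b1 : J) (K L E : Setoid (X × J)), Inv p q b0 b1 K L E ∧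
      (∀ y, ¬ K (y, b0) (y, b1)) ∧ (∀ y, (K ⊔ L) (y, b0) (y, b1)) ∧
      -1 - 3 * (dcost μ D).toReal ≤ chi μ p q K L E := by
  let F := {g // g ∈ hfin.toFinset}
  have hF : ∀ f : F, (D f.1).Nonempty := fun f => by
    have := f.2
    rwa [Set.Finite.mem_toFinset] at this
  have hw : ∀ f : F, ∃ (k : ℕ) (c : Bool) (u : ℕ → G), IsWord p q k c u f.1 := fun f =>
    exists_word p q (hA f.1 (hF f))
  choose K C U hW using hw
  let n : ℕ := Finset.univ.sup K
  have hKn : ∀ f, K f ≤ n := fun f => Finset.le_sup (f := K) (Finset.mem_univ f)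
  let Dm : F → Set X := fun f => D f.1
  have hDm : ∀ f, MeasurableSet (Dm f) := fun f => hD f.1
  have hshp : ∀ t : F × Fin n, ∃ k : Fin 3, (t.2 : ℕ) < K t.1 → typ (C t.1) t.2 = true →
      U t.1 ((t.2 : ℕ) + 1) * (U t.1 t.2)⁻¹ = p ^ (k : ℕ) := by
    intro t
    by_cases h : (t.2 : ℕ) < K t.1 ∧ typ (C t.1) t.2 = true
    · have h1 := ((hW t.1).2.2 t.2 h.1).2
      rw [h.2] at h1
      obtain ⟨k, hk⟩ := exists_pow3 hp h1
      exact ⟨k, fun _ _ => hk⟩
    · exact ⟨0, fun h1 h2 => absurd ⟨h1, h2⟩ h⟩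
  have hshq : ∀ t : F × Fin n, ∃ k : Fin 3, (t.2 : ℕ) < K t.1 → typ (C t.1) t.2 = false →
      U t.1 ((t.2 : ℕ) + 1) * (U t.1 t.2)⁻¹ = q ^ (k : ℕ) := by
    intro t
    by_cases h : (t.2 : ℕ) < K t.1 ∧ typ (C t.1) t.2 = false
    · have h1 := ((hW t.1).2.2 t.2 h.1).2
      rw [h.2] at h1
      obtain ⟨k, hk⟩ := exists_pow3 hq h1
      exact ⟨k, fun _ _ => hk⟩
    · exact ⟨0, fun h1 h2 => absurd ⟨h1, h2⟩ h⟩
  choose shp hshp using hshp
  choose shq hshq using hshq
  let RK := RR n K C U Dm p (fun c : Bool => c) (fun c => c) shp true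
  let RL := RR n K C U Dm q (fun _ : Unit => true) (fun _ => false) shq false
  let RE := EE n K U Dm
  have hbase0 : ∀ y, RK (y, Sum.inl false) (p • y, Sum.inl false) := fun y =>
    RR_base (bs := fun c : Bool => c) (bt := fun c => c) false y
  have hbase1 : ∀ y, RK (y, Sum.inl true) (p • y, Sum.inl true) := fun y =>
    RR_base (bs := fun c : Bool => c) (bt := fun c => c) true y
  have hbaseL : ∀ y, RL (y, Sum.inl true) (q • y, Sum.inl false) := fun y =>
    RR_base (bs := fun _ : Unit => true) (bt := fun _ => false) () y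
  have hinv : Inv p q (Sum.inl false) (Sum.inl true) RK RL RE := by
    refine ⟨?_, ?_, EE_mrel hfree hDm, RR_within, RR_within, fun u v h => EE_pos h, EE_le, EE_le,
      hbase0, hbase1, hbaseL, ?_, ?_⟩
    · exact MRel.eqvGen hfree (ER_mrel hfree _ _ _ _ _ (measurableSet_dom hDm true))
        ((ER_within _ _ _ _ _).mono le_top)
    · exact MRel.eqvGen hfree (ER_mrel hfree _ _ _ _ _ (measurableSet_dom hDm false))
        ((ER_within _ _ _ _ _).mono le_top)
    · refine RR_two hfree (hshp) (fun f i hi => ((hW f).2.2 i hi).1) ?_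
      rintro c y
      refine ⟨_, RR_base (bs := fun c : Bool => c) (bt := fun c => c) c y, ?_⟩
      intro h
      exact hp1 (hfree _ _ h.symm)
    · refine RR_two hfree (hshq) (fun f i hi => ((hW f).2.2 i hi).1) ?_
      rintro c y
      cases c with
      | false =>
        have h1 := hbaseL (q⁻¹ • y)
        rw [smul_inv_smul] at h1
        refine ⟨_, RL.symm h1, ?_⟩
        intro h
        have h2 : q⁻¹ = 1 := hfree _ _ h.symm
        exact hq1 (inv_eq_one.1 h2)
      | true =>
        refine ⟨_, hbaseL y, ?_⟩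
        intro h
        exact hq1 (hfree _ _ h.symm)
  refine ⟨Bool ⊕ (F × Fin n), inferInstance, Sum.inl false, Sum.inl true, RK, RL, RE, hinv,
    ?_, ?_, ?_⟩
  · intro y h
    have h1 := (RR_sep (fun _ => rfl) h).2 rfl
    exact absurd h1 (by simp)
  · let M : Setoid (X × (Bool ⊕ (F × Fin n))) := RK ⊔ RL
    have hKM : ∀ {u v}, RK u v → M u v := fun {u v} h => (le_sup_left : RK ≤ M) h
    have hLM : ∀ {u v}, RL u v → M u v := fun {u v} h => (le_sup_right : RL ≤ M) h
    have hCl : ∀ g ∈ Subgroup.closure {p, q * p * q⁻¹}, ∀ y : X,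
        M (y, Sum.inl false) (g • y, Sum.inl false) := by
      intro g hg
      induction hg using Subgroup.closure_induction with
      | mem g hg =>
        intro y
        rcases hg with rfl | hg
        · exact hKM (hbase0 y)
        · have hg' : g = q * p * q⁻¹ := hg
          subst hg'
          have h1 := hbaseL (q⁻¹ • y)
          rw [smul_inv_smul] at h1
          have h2 := hbase1 (q⁻¹ • y)
          have h3 := hbaseL (p • q⁻¹ • y)
          have h4 := M.trans (M.symm (hLM h1)) (M.trans (hKM h2) (hLM h3))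
          rwa [smul_smul, smul_smul] at h4
      | one =>
        intro y
        rw [one_smul]
      | mul a b _ _ iha ihb =>
        intro y
        rw [mul_smul]
        exact M.trans (ihb y) (iha _)
      | inv a _ iha =>
        intro y
        have h1 := iha (a⁻¹ • y)
        rw [smul_inv_smul] at h1
        exact M.symm h1
    have hlink : ∀ (f : F) (x : X), x ∈ Dm f → ∀ i ≤ K f,
        M (x, Sum.inl false) (U f i • x, tok n K f i) := by
      intro f x hx i
      induction i with
      | zero =>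
        intro _
        rw [(hW f).1, one_smul, tok_zero]
      | succ i ih =>
        intro hi
        have h1 := ih (by omega)
        refine M.trans h1 ?_
        let t : F × Fin n := (f, ⟨i, by have := hKn f; omega⟩)
        have h2 : U f i • x ∈ (fun y => (U f i)⁻¹ • y) ⁻¹' Dm f := by
          show (U f i)⁻¹ • U f i • x ∈ Dm f
          rwa [inv_smul_smul]
        cases htyp : typ (C f) i with
        | true =>
          have h3 := RR_link (n := n) (K := K) (C := C) (U := U) (Dm := Dm)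
            (bs := fun c : Bool => c) (bt := fun c => c) hshp t (U f i • x)
            ⟨⟨by show i < K f; omega, htyp⟩, h2⟩
          have h4 : RK (U f i • x, tok n K f i)
            ((U f (i + 1) * (U f i)⁻¹) • U f i • x, tok n K f (i + 1)) := h3
          rw [smul_smul, inv_mul_cancel_right] at h4
          exact hKM h4
        | false =>
          have h3 := RR_link (n := n) (K := K) (C := C) (U := U) (Dm := Dm)
            (bs := fun _ : Unit => true) (bt := fun _ => false) hshq t (U f i • x)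
            ⟨⟨by show i < K f; omega, htyp⟩, h2⟩
          have h4 : RL (U f i • x, tok n K f i)
            ((U f (i + 1) * (U f i)⁻¹) • U f i • x, tok n K f (i + 1)) := h3
          rw [smul_smul, inv_mul_cancel_right] at h4
          exact hLM h4
    have hconn : ∀ x y : X, Conn (fun h => full X (Subgroup.closure {p, q * p * q⁻¹}) h ∪ D h)
        x y → M (x, Sum.inl false) (y, Sum.inl false) := by
      intro x y h
      induction h with
      | rel x y h =>
        obtain ⟨g, hg, rfl⟩ := h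
        rcases hg with hg | hg
        · exact hCl g hg x
        · let f : F := ⟨g, by
            rw [Set.Finite.mem_toFinset]
            exact ⟨x, hg⟩⟩
          have h1 := hlink f x hg (K f) le_rfl
          rw [tok_end, (hW f).2.1] at h1
          exact h1
      | refl x => exact M.refl _
      | symm x y _ ih => exact M.symm ih
      | trans x y z _ _ ih1 ih2 => exact M.trans ih1 ih2
    intro y
    have h1 := hconn y (q • y) (hgen y)
    exact M.trans h1 (M.symm (hLM (hbaseL y)))
  · refine le_trans ?_ (chi_ge (C := C) (n := n) (K := K) (U := U) (Dm := Dm) μ hfree hp hq hp1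
      hq1 hDm shp shq)
    have h1 : ∑ f : F, μ.real (Dm f) = (dcost μ D).toReal := by
      have h2 : dcost μ D = ∑ g ∈ hfin.toFinset, μ (D g) := by
        unfold dcost
        refine tsum_eq_sum fun g hg => ?_
        rw [Set.Finite.mem_toFinset] at hg
        have h3 : D g = ∅ := Set.not_nonempty_iff_eq_empty.1 hg
        rw [h3, measure_empty]
      rw [h2, ENNReal.toReal_sum fun g _ => measure_ne_top _ _]
      exact Finset.sum_coe_sort hfin.toFinset (fun g => μ.real (D g))
    rw [h1]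

end Vale.Agent.P189.Bar
end
end

section

section

set_option autoImplicit false

open MeasureTheory
open scoped ENNReal symmDiff

namespace Vale.Agent.P189

/-- The barrier: an expanding action cannot percolate cheaply. -/
theorem barrier {G X : Type} [Group G] [Countable G] [MeasurableSpace X]
    [StandardBorelSpace X] (μ : Measure X) [IsProbabilityMeasure μ] [MulAction G X]
    [MeasurableConstSMul G X] [SMulInvariantMeasure G X μ]
    (hfree : ∀ (g : G) (x : X), g • x = x → g = 1)
    (p q : G) (hp : p ^ 3 = 1) (hq : q ^ 3 = 1) (hp1 : p ≠ 1) (hq1 : q ≠ 1)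
    (hnf : NormalForm (Subgroup.zpowers p) (Subgroup.zpowers q))
    (hinf : Subgroup.zpowers p ⊓ Subgroup.zpowers q = ⊥)
    (c : ℝ)
    (hgap : ∀ W : Set X, MeasurableSet W → (∀ x, p • x ∈ W ↔ x ∈ W) →
      c * (μ.real W * μ.real Wᶜ) ≤ μ.real (symmDiff W ((fun x => q • x) ⁻¹' W)))
    (hsmall : ∃ (m : ℕ) (A : Fin m → Set X), (∀ i, MeasurableSet (A i)) ∧
      (⋃ i, A i = Set.univ) ∧ ∀ i, μ.real (A i) ≤ 1 / 9)
    (D : G → Set X) (hD : ∀ g, MeasurableSet (D g)) (hfin : {g | (D g).Nonempty}.Finite)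
    (hA : ∀ g, (D g).Nonempty → g ∈ Subgroup.closure {p, q})
    (hgen : ∀ x : X, Conn (fun h => full X (Subgroup.closure {p, q * p * q⁻¹}) h ∪ D h)
      x (q • x)) :
    c ≤ 27 * (dcost μ D).toReal := by
  obtain ⟨J, hJ, b0, b1, K, L, E, hI, h0, hKL, he⟩ :=
    Bar.init μ hfree p q hp hq hp1 hq1 hinf D hD hfin hA hgen
  exact Bar.core μ hfree hp hq hp1 hq1 hnf hinf hI h0 hKL ENNReal.toReal_nonneg he c hgap hsmall

end Vale.Agent.P189
end
end

section

section

set_option autoImplicit false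

open MeasureTheory
open scoped ENNReal Pointwise symmDiff

namespace Vale.Agent.P189


/-- The lower bound for everywhere free actions with a gap and everywhere generating graphs. -/
theorem lower_free {G X : Type} [Group G] [Countable G] [MeasurableSpace X]
    [StandardBorelSpace X] (μ : Measure X) [IsProbabilityMeasure μ] [MulAction G X]
    [MeasurableConstSMul G X] [SMulInvariantMeasure G X μ]
    (hfree : ∀ (g : G) (x : X), g • x = x → g = 1)
    (p q t : G) (hG : GroupData G p q t)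
    (hgap : ∀ W : Set X, MeasurableSet W → (∀ x, p • x ∈ W ↔ x ∈ W) →
      (1 / 3 : ℝ) * (μ.real W * μ.real Wᶜ) ≤ μ.real (symmDiff W ((fun x => q • x) ⁻¹' W)))
    (hsmall : ∃ (m : ℕ) (A : Fin m → Set X), (∀ i, MeasurableSet (A i)) ∧
      (⋃ i, A i = Set.univ) ∧ ∀ i, μ.real (A i) ≤ 1 / 9)
    (D : G → Set X) (hD : ∀ g, MeasurableSet (D g))
    (hgen : ∀ (x : X) (g : G), Conn D x (g • x)) :
    1 + ENNReal.ofReal (1 / 81) ≤ dcost μ D := by
  set A := Subgroup.closure {p, q} with hAdef
  set B := Subgroup.closure {p, q * p * q⁻¹, t} with hBdef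
  set C := Subgroup.closure {p, q * p * q⁻¹} with hCdef
  have hpA : p ∈ A := Subgroup.subset_closure (by simp)
  have hqA : q ∈ A := Subgroup.subset_closure (by simp)
  have hpB : p ∈ B := Subgroup.subset_closure (by simp)
  have htB : t ∈ B := Subgroup.subset_closure (by simp)
  have : Infinite B := by
    refine Infinite.of_injective (fun n : ℕ => (⟨t ^ n, B.pow_mem htB n⟩ : B)) ?_
    intro m n hmn
    have h1 : t ^ m = t ^ n := congrArg Subtype.val hmn
    rcases le_total m n with h | h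
    · have h2 : t ^ (n - m) = 1 := by
        have h3 : t ^ m * t ^ (n - m) = t ^ m * 1 := by
          rw [← pow_add, Nat.add_sub_cancel' h, mul_one, h1]
        exact mul_left_cancel h3
      have := hG.tinf _ h2
      omega
    · have h2 : t ^ (m - n) = 1 := by
        have h3 : t ^ n * t ^ (m - n) = t ^ n * 1 := by
          rw [← pow_add, Nat.add_sub_cancel' h, mul_one, h1]
        exact mul_left_cancel h3
      have := hG.tinf _ h2
      omega
  have hBq : B ⊔ Subgroup.zpowers q = ⊤ := by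
    rw [eq_top_iff, ← hG.gen, Subgroup.closure_le]
    rintro g (rfl | rfl | rfl)
    · exact Subgroup.mem_sup_left hpB
    · exact Subgroup.mem_sup_right (Subgroup.mem_zpowers _)
    · exact Subgroup.mem_sup_left htB
  have hAB : A ⊔ B = ⊤ := by
    rw [eq_top_iff, ← hG.gen, Subgroup.closure_le]
    rintro g (rfl | rfl | rfl)
    · exact Subgroup.mem_sup_left hpA
    · exact Subgroup.mem_sup_left hqA
    · exact Subgroup.mem_sup_right htB
  refine ENNReal.le_of_forall_pos_le_add fun ε hε _ => ?_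
  have hη : (0 : ℝ≥0∞) < (ε : ℝ≥0∞) / 3 := ENNReal.div_pos (by simpa using hε.ne') (by simp)
  set η := (ε : ℝ≥0∞) / 3 with hηdef
  obtain ⟨D1, hD1, hD1f, hD1c, hD1cost⟩ := Vale.Agent.P189.relcost_add_one_le μ hfree B q hBq D hD
    hgen η hη
  obtain ⟨D2, hD2, hD2A, hD2c, hD2cost⟩ := amalgam μ hfree A B hG.nf hAB D1 hD1 hD1f hD1c η hη
  rw [hG.inf] at hD2c
  obtain ⟨D3, hD3, hD3f, hD3A, hD3c, hD3cost⟩ := Vale.Agent.P189.truncate μ hfree C q D2 hD2
    (fun x => hD2c x q hqA) η hη
  have hbar := barrier μ hfree p q hG.p3 hG.q3 hG.p1 hG.q1 hG.nf0 hG.inf0 (1 / 3) hgap hsmall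
    D3 hD3 hD3f (by
      intro g hg
      rcases hD3A g hg with h | h
      · exact hD2A g h
      · rw [h]; exact hqA) hD3c
  have h81 : (1 / 81 : ℝ) ≤ (dcost μ D3).toReal := by linarith
  have h81' : ENNReal.ofReal (1 / 81) ≤ dcost μ D3 := ENNReal.ofReal_le_of_le_toReal h81
  calc 1 + ENNReal.ofReal (1 / 81) ≤ 1 + dcost μ D3 := by gcongr
    _ ≤ 1 + ((dcost μ D1 + η) + η) := by
      gcongr
      exact hD3cost.trans (by gcongr)
    _ = (dcost μ D1 + 1) + η + η := by ring
    _ ≤ (dcost μ D + η) + η + η := by gcongr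
    _ = dcost μ D + (η + η + η) := by ring
    _ = dcost μ D + ε := by rw [hηdef, ENNReal.add_thirds]

section Restrict

variable {G X : Type} [Group G] [MulAction G X]

/-- The restriction of a labelled graph to an invariant set. -/
def subD (S : SubMulAction G X) (D : G → Set X) (g : G) : Set S := {x | (x : X) ∈ D g}

theorem conn_subD (S : SubMulAction G X) (D : G → Set X) {x y : X} (h : Conn D x y) :
    (∀ hx : x ∈ S, ∃ hy : y ∈ S, Conn (subD S D) ⟨x, hx⟩ ⟨y, hy⟩) ∧
    (∀ hy : y ∈ S, ∃ hx : x ∈ S, Conn (subD S D) ⟨x, hx⟩ ⟨y, hy⟩) := by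
  induction h with
  | rel x y h =>
    obtain ⟨g, hg, rfl⟩ := h
    constructor
    · intro hx
      exact ⟨S.smul_mem g hx, Conn.of_mem (D := subD S D) (x := ⟨x, hx⟩) hg⟩
    · intro hy
      have hx : x ∈ S := by simpa using S.smul_mem g⁻¹ hy
      exact ⟨hx, Conn.of_mem (D := subD S D) (x := ⟨x, hx⟩) hg⟩
  | refl x => exact ⟨fun hx => ⟨hx, Conn.refl _ _⟩, fun hx => ⟨hx, Conn.refl _ _⟩⟩
  | symm x y _ ih =>
    constructor
    · intro hx
      obtain ⟨hy, h⟩ := ih.2 hx
      exact ⟨hy, h.symm⟩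
    · intro hx
      obtain ⟨hy, h⟩ := ih.1 hx
      exact ⟨hy, h.symm⟩
  | trans x y z _ _ ih1 ih2 =>
    constructor
    · intro hx
      obtain ⟨hy, h⟩ := ih1.1 hx
      obtain ⟨hz, h'⟩ := ih2.1 hy
      exact ⟨hz, h.trans h'⟩
    · intro hz
      obtain ⟨hy, h'⟩ := ih2.2 hz
      obtain ⟨hx, h⟩ := ih1.2 hy
      exact ⟨hx, h.trans h'⟩

end Restrict

/-- The lower bound for the Bernoulli action. -/
theorem lower (G : Type) [Group G] [Countable G] (p q t : G) (hG : GroupData G p q t)
    (D : G → Set (Bern G)) (hD : ∀ g, MeasurableSet (D g)) (hgen : Gen (bernMeasure G) D) :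
    1 + ENNReal.ofReal (1 / 81) ≤ dcost (bernMeasure G) D := by
  classical
  set μ := bernMeasure G with hμ
  have hfree := bern_free G
  -- the bad null set
  let N0 : Set (Bern G) := {x | ¬ ∀ g : G, Conn D x (g • x)} ∪
    ⋃ g : G, ⋃ _ : g ≠ 1, {x | g • x = x}
  have hN0 : μ N0 = 0 := by
    refine measure_union_null hgen ?_
    exact measure_iUnion_null fun g => measure_iUnion_null fun hg => hfree g hg
  let N : Set (Bern G) := toMeasurable μ N0
  have hN : MeasurableSet N := measurableSet_toMeasurable _ _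
  have hN' : μ N = 0 := by rw [measure_toMeasurable, hN0]
  let S : SubMulAction G (Bern G) :=
    { carrier := {x | ∀ g : G, g • x ∉ N}
      smul_mem' := by
        intro h x hx g
        rw [← mul_smul]
        exact hx _ }
  have hSm : MeasurableSet (S : Set (Bern G)) := by
    have : (S : Set (Bern G)) = ⋂ g : G, (fun x => g • x) ⁻¹' Nᶜ := by
      ext x
      rw [Set.mem_iInter]
      exact Iff.rfl
    rw [this]
    exact MeasurableSet.iInter fun g => hN.compl.preimage (measurable_const_smul g)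
  have hSc : μ (S : Set (Bern G))ᶜ = 0 := by
    have : (S : Set (Bern G))ᶜ = ⋃ g : G, (fun x => g • x) ⁻¹' N := by
      ext x
      rw [Set.mem_iUnion]
      have h1 : x ∈ (S : Set (Bern G))ᶜ ↔ ¬ ∀ g : G, g • x ∉ N := Iff.rfl
      rw [h1]
      push Not
      exact Iff.rfl
    rw [this]
    refine measure_iUnion_null fun g => ?_
    rw [measure_preimage_smul]
    exact hN'
  have hSN0 : ∀ x ∈ S, x ∉ N0 := by
    intro x hx hx0
    have h1 := hx 1
    rw [one_smul] at h1
    exact h1 (subset_toMeasurable _ _ hx0)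
  have hSconn : ∀ x ∈ S, ∀ g : G, Conn D x (g • x) := by
    intro x hx
    by_contra h
    exact hSN0 x hx (Or.inl h)
  have hSfree : ∀ x ∈ S, ∀ g : G, g • x = x → g = 1 := by
    intro x hx g hg
    by_contra h
    exact hSN0 x hx (Or.inr (Set.mem_iUnion.2 ⟨g, Set.mem_iUnion.2 ⟨h, hg⟩⟩))
  -- the measure on the subtype
  have : StandardBorelSpace S := hSm.standardBorel
  let ν : Measure S := μ.comap Subtype.val
  have hemb : MeasurableEmbedding (Subtype.val : S → Bern G) := MeasurableEmbedding.subtype_coe hSm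
  have hν : ∀ T : Set S, ν T = μ (Subtype.val '' T) := fun T => hemb.comap_apply _ _
  have hνp : ∀ T : Set (Bern G), ν (Subtype.val ⁻¹' T) = μ T := by
    intro T
    rw [hν]
    have h0 : (Subtype.val : S → Bern G) '' (Subtype.val ⁻¹' T) = (S : Set (Bern G)) ∩ T :=
      Subtype.image_preimage_coe (S : Set (Bern G)) T
    rw [h0]
    refine le_antisymm (measure_mono Set.inter_subset_right) ?_
    calc μ T ≤ μ (((S : Set (Bern G)) ∩ T) ∪ (S : Set (Bern G))ᶜ) := by
          refine measure_mono fun x hx => ?_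
          by_cases h : x ∈ (S : Set (Bern G))
          · exact Or.inl ⟨h, hx⟩
          · exact Or.inr h
      _ ≤ μ ((S : Set (Bern G)) ∩ T) + μ (S : Set (Bern G))ᶜ := measure_union_le _ _
      _ = _ := by rw [hSc, add_zero]
  have hνr : ∀ T : Set (Bern G), ν.real (Subtype.val ⁻¹' T) = μ.real T := fun T => by
    simp only [measureReal_def, hνp]
  have : IsProbabilityMeasure ν := by
    constructor
    have := hνp Set.univ
    rw [Set.preimage_univ] at this
    rw [this, measure_univ]
  have hmeas : MeasurableConstSMul G S := by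
    constructor
    intro g
    exact ((measurable_const_smul g).comp measurable_subtype_coe).subtype_mk
  have hinv : SMulInvariantMeasure G S ν := by
    constructor
    intro g T hT
    obtain ⟨T', hT', rfl⟩ := hT
    have h1 : (fun x : S => g • x) ⁻¹' (Subtype.val ⁻¹' T') =
        Subtype.val ⁻¹' ((fun x : Bern G => g • x) ⁻¹' T') := rfl
    rw [h1, hνp, hνp, measure_preimage_smul]
  obtain ⟨TP, TN, hdisj, hTP, hTN⟩ := hG.color
  have hgap : ∀ W : Set S, MeasurableSet W → (∀ x, p • x ∈ W ↔ x ∈ W) →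
      (1 / 3 : ℝ) * (ν.real W * ν.real Wᶜ) ≤
        ν.real (symmDiff W ((fun x => q • x) ⁻¹' W)) := by
    intro W hW hpW
    let W' : Set (Bern G) := Subtype.val '' W
    have hW' : MeasurableSet W' := hemb.measurableSet_image.2 hW
    have hWW' : W = Subtype.val ⁻¹' W' := (Set.preimage_image_eq W Subtype.val_injective).symm
    have hpW' : ∀ x, p • x ∈ W' ↔ x ∈ W' := by
      intro x
      constructor
      · rintro ⟨y, hy, hyx⟩
        refine ⟨p⁻¹ • y, ?_, ?_⟩
        · rw [← hpW, smul_inv_smul]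
          exact hy
        · show p⁻¹ • (y : Bern G) = x
          rw [hyx, inv_smul_smul]
      · rintro ⟨y, hy, rfl⟩
        exact ⟨p • y, (hpW y).2 hy, rfl⟩
    have h := bern_gap p q hG.p3 hG.q3 TP TN hdisj hTP hTN W' hW' hpW'
    have h1 : ν.real W = μ.real W' := by
      conv_lhs => rw [hWW']
      exact hνr _
    have h2 : ν.real Wᶜ = μ.real W'ᶜ := by
      conv_lhs => rw [hWW', ← Set.preimage_compl]
      exact hνr _
    have h3 : ν.real (symmDiff W ((fun x => q • x) ⁻¹' W)) =
        μ.real (symmDiff W' ((fun x => q • x) ⁻¹' W')) := by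
      have h4 : symmDiff W ((fun x => q • x) ⁻¹' W) =
          Subtype.val ⁻¹' (symmDiff W' ((fun x => q • x) ⁻¹' W')) := by
        conv_lhs => rw [hWW']
        rfl
      rw [h4]
      exact hνr _
    rw [h1, h2, h3]
    exact h
  have hsmall : ∃ (m : ℕ) (A : Fin m → Set S), (∀ i, MeasurableSet (A i)) ∧
      (⋃ i, A i = Set.univ) ∧ ∀ i, ν.real (A i) ≤ 1 / 9 := by
    obtain ⟨m, A, h1, h2, h3⟩ := Vale.Agent.P189.bern_small G 8
    refine ⟨m, fun i => Subtype.val ⁻¹' A i, fun i => (h1 i).preimage measurable_subtype_coe,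
      ?_, fun i => ?_⟩
    · rw [← Set.preimage_iUnion, h2, Set.preimage_univ]
    · rw [hνr]
      refine (h3 i).trans ?_
      norm_num
  have key := lower_free (G := G) (X := S) ν
    (fun g x hx => hSfree x x.2 g (congrArg Subtype.val hx)) p q t hG hgap hsmall
    (subD S D) (fun g => (hD g).preimage measurable_subtype_coe) (by
      intro x g
      obtain ⟨hy, h⟩ := (conn_subD S D (hSconn x x.2 g)).1 x.2
      exact h)
  refine key.trans (le_of_eq ?_)
  refine tsum_congr fun g => ?_
  exact hνp (D g)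

end Vale.Agent.P189
end
end

section

section

set_option autoImplicit false

open MeasureTheory
open scoped ENNReal Pointwise

namespace Vale.Agent.P189

namespace UpperAux

theorem dcost_union_le {Γ X : Type} [MeasurableSpace X] (μ : Measure X) (D D' : Γ → Set X) :
    dcost μ (fun g => D g ∪ D' g) ≤ dcost μ D + dcost μ D' := by
  unfold dcost
  rw [← ENNReal.tsum_add]
  exact ENNReal.tsum_le_tsum fun g => measure_union_le _ _

section Single

variable {Γ X : Type} [MeasurableSpace X]

/-- The labelled graph with the single label `a`, on the set `B`. -/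
def single (a : Γ) (B : Set X) (g : Γ) : Set X := {x | g = a ∧ x ∈ B}

theorem measurableSet_single (a : Γ) {B : Set X} (hB : MeasurableSet B) (g : Γ) :
    MeasurableSet (single a B g) := (MeasurableSet.const _).inter hB

theorem dcost_single (μ : Measure X) (a : Γ) (B : Set X) : dcost μ (single a B) = μ B := by
  unfold dcost
  rw [tsum_eq_single a]
  · congr 1
    ext x
    simp [single]
  · intro g hg
    have : single a B g = ∅ := by
      ext x
      simp [single, hg]
    rw [this, measure_empty]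

end Single

section Upper

variable {G X V : Type} [Group G] [MulAction G X] [MulAction G V]

/-- The labelled graph of the upper bound. -/
def upD (p q t : G) (E : Set X) (S : Set V) (g : G) : Set (X × V) :=
  single t Set.univ g ∪ (single p (E ×ˢ Set.univ) g ∪
    (single (q * p * q⁻¹) (E ×ˢ Set.univ) g ∪ single q (Set.univ ×ˢ S) g))

theorem upD_t (p q t : G) (E : Set X) (S : Set V) (y : X × V) :
    Conn (upD p q t E S) y (t • y) :=
  Conn.of_mem (Or.inl ⟨rfl, trivial⟩)

theorem upD_zpowers (p q t : G) (E : Set X) (S : Set V) (g : G)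
    (hg : g ∈ Subgroup.zpowers t) (y : X × V) : Conn (upD p q t E S) y (g • y) := by
  rw [Subgroup.zpowers_eq_closure] at hg
  induction hg using Subgroup.closure_induction generalizing y with
  | mem g hg => rw [Set.mem_singleton_iff.1 hg]; exact upD_t p q t E S y
  | one => rw [one_smul]; exact Conn.refl _ _
  | mul a b _ _ iha ihb =>
    rw [mul_smul]
    exact (ihb y).trans (iha _)
  | inv a _ iha =>
    have := (iha (a⁻¹ • y)).symm
    rwa [smul_inv_smul] at this

theorem upD_comm (p q t r : G) (E : Set X) (S : Set V) (hr : t * r = r * t)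
    (hE : ∀ x : X, ∃ g ∈ Subgroup.zpowers t, g • x ∈ E)
    (hsub : ∀ y : X × V, y.1 ∈ E → y ∈ upD p q t E S r) (y : X × V) :
    Conn (upD p q t E S) y (r • y) := by
  obtain ⟨g, hg, hgE⟩ := hE y.1
  have hcomm : g * r = r * g := by
    obtain ⟨k, rfl⟩ := Subgroup.mem_zpowers_iff.1 hg
    exact (Commute.zpow_left (show Commute t r from hr) k).eq
  have h1 := upD_zpowers p q t E S g hg y
  have h2 : Conn (upD p q t E S) (g • y) (r • g • y) := Conn.of_mem (hsub _ hgE)
  have h3 := upD_zpowers p q t E S g hg (r • y)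
  rw [smul_smul, hcomm, mul_smul] at h3
  exact (h1.trans h2).trans h3.symm

theorem upD_gen (p q t : G) (hp : p ^ 3 = 1) (hq : q ^ 3 = 1)
    (htp : t * p = p * t) (htr : t * (q * p * q⁻¹) = (q * p * q⁻¹) * t)
    (hgen : Subgroup.closure {p, q, t} = ⊤) (E : Set X) (S : Set V)
    (hE : ∀ x : X, ∃ g ∈ Subgroup.zpowers t, g • x ∈ E)
    (hperc : ∀ Q : Set V, S ⊆ Q → (∀ v ∈ Q, p • v ∈ Q) →
      (∀ v, v ∈ Q → q • v ∈ Q → q • q • v ∈ Q) → Q = Set.univ) (y : X × V) (g : G) :
    Conn (upD p q t E S) y (g • y) := by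
  have hpc : ∀ y : X × V, Conn (upD p q t E S) y (p • y) := fun y =>
    upD_comm p q t p E S htp hE (fun y hy => Or.inr (Or.inl ⟨rfl, hy, trivial⟩)) y
  have hrc : ∀ y : X × V, Conn (upD p q t E S) y ((q * p * q⁻¹) • y) := fun y =>
    upD_comm p q t (q * p * q⁻¹) E S htr hE
      (fun y hy => Or.inr (Or.inr (Or.inl ⟨rfl, hy, trivial⟩))) y
  -- the percolating set
  have hQ : {v : V | ∀ x : X, Conn (upD p q t E S) (x, v) (q • (x, v))} = Set.univ := by
    refine hperc _ ?_ ?_ ?_
    · intro v hv x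
      exact Conn.of_mem (Or.inr (Or.inr (Or.inr ⟨rfl, trivial, hv⟩)))
    · intro v hv x
      have h0 : (x, p • v) = p • ((p⁻¹ • x, v) : X × V) := by
        rw [Prod.smul_mk, smul_inv_smul]
      rw [h0]
      -- y = (p⁻¹ x, v), show `p y ~ q p y`
      have h1 := hpc (p⁻¹ • x, v)
      have h2 := hv (p⁻¹ • x)
      have h3 := hrc (q • (p⁻¹ • x, v))
      rw [smul_smul, inv_mul_cancel_right, mul_smul] at h3
      exact (h1.symm.trans h2).trans h3
    · intro v hv hqv x
      have h0 : (x, q • q • v) = q • q • ((q⁻¹ • q⁻¹ • x, v) : X × V) := by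
        rw [Prod.smul_mk, Prod.smul_mk, smul_inv_smul, smul_inv_smul]
      rw [h0]
      have h1 := hv (q⁻¹ • q⁻¹ • x)
      have h2 := hqv (q⁻¹ • x)
      have h3 : ((q⁻¹ • x, q • v) : X × V) = q • (q⁻¹ • q⁻¹ • x, v) := by
        rw [Prod.smul_mk, smul_inv_smul]
      rw [h3] at h2
      have h4 : q • q • q • ((q⁻¹ • q⁻¹ • x, v) : X × V) = (q⁻¹ • q⁻¹ • x, v) := by
        rw [smul_smul, smul_smul]
        have : q * q * q = 1 := by rw [← hq, pow_succ, pow_two]
        rw [this, one_smul]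
      rw [h4]
      exact (h1.trans h2).symm
  have hqc : ∀ y : X × V, Conn (upD p q t E S) y (q • y) := by
    rintro ⟨x, v⟩
    have : v ∈ {v : V | ∀ x : X, Conn (upD p q t E S) (x, v) (q • (x, v))} := by
      rw [hQ]; trivial
    exact this x
  have hg : g ∈ Subgroup.closure {p, q, t} := by rw [hgen]; trivial
  induction hg using Subgroup.closure_induction generalizing y with
  | mem g hg =>
    rcases hg with rfl | rfl | hg
    · exact hpc y
    · exact hqc y
    · rw [Set.mem_singleton_iff.1 hg]; exact upD_t p q t E S y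
  | one => rw [one_smul]; exact Conn.refl _ _
  | mul a b _ _ iha ihb =>
    rw [mul_smul]
    exact (ihb y).trans (iha _)
  | inv a _ iha =>
    have := (iha (a⁻¹ • y)).symm
    rwa [smul_inv_smul] at this

end Upper

end UpperAux

open UpperAux

section Product

variable {G X V : Type} [Group G] [MeasurableSpace X] [MulAction G X]
  [MulAction G V] [MeasurableSpace V]

/-- The diagonal action on the product with a discrete `G`-set is measurable. -/
theorem prod_measurableConstSMul [MeasurableConstSMul G X] [DiscreteMeasurableSpace V] :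
    MeasurableConstSMul G (X × V) where
  measurable_const_smul g := by
    have h1 : Measurable fun x : X => g • x := measurable_const_smul g
    have h2 : Measurable fun v : V => g • v := Measurable.of_discrete
    exact (h1.comp measurable_fst).prodMk (h2.comp measurable_snd)

/-- The diagonal action on the product preserves the product measure. -/
theorem prod_smulInvariant (μ : Measure X) [SFinite μ]
    [MeasurableConstSMul G X] [SMulInvariantMeasure G X μ] [DiscreteMeasurableSpace V]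
    (ν : Measure V) [SFinite ν] [SMulInvariantMeasure G V ν] :
    SMulInvariantMeasure G (X × V) (μ.prod ν) := by
  have hV : MeasurableConstSMul G V := ⟨fun g => Measurable.of_discrete⟩
  have hXV : MeasurableConstSMul G (X × V) := prod_measurableConstSMul
  constructor
  intro g s hs
  have h1 := (measurePreserving_smul g μ).prod (measurePreserving_smul g ν)
  exact h1.measure_preimage hs.nullMeasurableSet

/-- The product with a `G`-set is essentially free. -/
theorem prod_essentiallyFree (μ : Measure X) (ν : Measure V) [SFinite ν]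
    (hfree : EssentiallyFree G X μ) : EssentiallyFree G (X × V) (μ.prod ν) := by
  intro g hg
  refine measure_mono_null (t := {x : X | g • x = x} ×ˢ Set.univ) ?_ ?_
  · rintro ⟨x, v⟩ h
    exact ⟨(Prod.ext_iff.1 h).1, trivial⟩
  · rw [Measure.prod_prod, hfree g hg, zero_mul]

/-- (S5) Upper bound for the cost of the product with a finite `G`-set having a small
percolating set. -/
theorem upper [Countable G] [StandardBorelSpace X] (μ : Measure X) [IsProbabilityMeasure μ]
    [MeasurableConstSMul G X] [SMulInvariantMeasure G X μ] (hfree : EssentiallyFree G X μ)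
    [DiscreteMeasurableSpace V]
    (ν : Measure V) [IsProbabilityMeasure ν] [SMulInvariantMeasure G V ν]
    (p q t : G) (hp : p ^ 3 = 1) (hq : q ^ 3 = 1) (ht : ∀ n : ℕ, t ^ n = 1 → n = 0)
    (htp : t * p = p * t) (htr : t * (q * p * q⁻¹) = (q * p * q⁻¹) * t)
    (hgen : Subgroup.closure {p, q, t} = ⊤)
    (S : Set V)
    (hperc : ∀ Q : Set V, S ⊆ Q → (∀ v ∈ Q, p • v ∈ Q) →
      (∀ v, v ∈ Q → q • v ∈ Q → q • q • v ∈ Q) → Q = Set.univ) :
    actionCost G (X × V) (μ.prod ν) ≤ 1 + ν S := by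
  have hXV : MeasurableConstSMul G (X × V) := prod_measurableConstSMul
  have hinv : SMulInvariantMeasure G (X × V) (μ.prod ν) := prod_smulInvariant μ ν
  have hinf : Infinite (Subgroup.zpowers t) := by
    refine Infinite.of_injective (fun n : ℕ => (⟨t ^ n, Subgroup.npow_mem_zpowers t n⟩ :
      Subgroup.zpowers t)) ?_
    intro m n h
    have h' : t ^ m = t ^ n := congrArg Subtype.val h
    rcases le_total m n with hmn | hmn
    · have : t ^ (n - m) = 1 := by
        rw [pow_sub t hmn, ← h', mul_inv_cancel]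
      have := ht _ this
      omega
    · have : t ^ (m - n) = 1 := by
        rw [pow_sub t hmn, ← h', mul_inv_cancel]
      have := ht _ this
      omega
  refine ENNReal.le_of_forall_pos_le_add fun ε hε _ => ?_
  have hε2 : (0 : ℝ≥0∞) < (ε : ℝ≥0∞) / 2 := ENNReal.half_pos (by simpa using hε.ne')
  obtain ⟨E, hE, hμE, hEc⟩ := exists_small_section (Γ := Subgroup.zpowers t) μ
    (hfree.subgroup _) hε2
  have hEc' : ∀ x : X, ∃ g ∈ Subgroup.zpowers t, g • x ∈ E := fun x => by
    obtain ⟨g, hg⟩ := hEc x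
    exact ⟨g, g.2, hg⟩
  have hm1 : MeasurableSet (E ×ˢ (Set.univ : Set V)) := hE.prod MeasurableSet.univ
  have hm2 : MeasurableSet ((Set.univ : Set X) ×ˢ S) := MeasurableSet.univ.prod
    (MeasurableSet.of_discrete)
  have hmeas : ∀ g, MeasurableSet (upD p q t E S g) := fun g =>
    (measurableSet_single t MeasurableSet.univ g).union
      ((measurableSet_single p hm1 g).union
        ((measurableSet_single _ hm1 g).union (measurableSet_single q hm2 g)))
  have hgen' : Gen (μ.prod ν) (upD p q t E S) :=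
    Filter.Eventually.of_forall fun y g =>
      upD_gen p q t hp hq htp htr hgen E S hEc' hperc y g
  calc actionCost G (X × V) (μ.prod ν) ≤ dcost (μ.prod ν) (upD p q t E S) :=
        actionCost_le_dcost (μ.prod ν) _ hmeas hgen'
    _ ≤ (μ.prod ν) Set.univ + ((μ.prod ν) (E ×ˢ Set.univ) + ((μ.prod ν) (E ×ˢ Set.univ) +
          (μ.prod ν) (Set.univ ×ˢ S))) := by
        refine (dcost_union_le _ (single t Set.univ) _).trans ?_
        rw [dcost_single]
        refine add_le_add le_rfl ?_
        refine (dcost_union_le _ (single p (E ×ˢ Set.univ)) _).trans ?_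
        rw [dcost_single]
        refine add_le_add le_rfl ?_
        refine (dcost_union_le _ (single (q * p * q⁻¹) (E ×ˢ Set.univ)) _).trans ?_
        rw [dcost_single, dcost_single]
    _ = 1 + (μ E + (μ E + ν S)) := by
        rw [Measure.prod_prod, Measure.prod_prod, measure_univ, measure_univ, measure_univ]
        simp
    _ ≤ 1 + ((ε : ℝ≥0∞) / 2 + ((ε : ℝ≥0∞) / 2 + ν S)) := by gcongr
    _ = 1 + ν S + ((ε : ℝ≥0∞) / 2 + (ε : ℝ≥0∞) / 2) := by ring
    _ = 1 + ν S + ε := by rw [ENNReal.add_halves]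

end Product

section Torus

/-- The torus. -/
def torusP (n : ℕ) (v : ZMod n × ZMod n × Fin 3) : ZMod n × ZMod n × Fin 3 :=
  match v with
  | (i, j, 0) => (i - 1, j, 1)
  | (i, j, 1) => (i + 1, j - 1, 2)
  | (i, j, 2) => (i, j + 1, 0)

def torusQ (n : ℕ) (v : ZMod n × ZMod n × Fin 3) : ZMod n × ZMod n × Fin 3 :=
  (v.1, v.2.1, v.2.2 + 1)

theorem torus_perc (n : ℕ) [NeZero n] (Q : Set (ZMod n × ZMod n × Fin 3))
    (hS : ∀ i, (i, -i, (0 : Fin 3)) ∈ Q) (hp : ∀ v ∈ Q, torusP n v ∈ Q)
    (hq : ∀ v, v ∈ Q → torusQ n v ∈ Q → torusQ n (torusQ n v) ∈ Q) : Q = Set.univ := by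
  have h1 : ∀ i j : ZMod n, (i, j, (0 : Fin 3)) ∈ Q → (i - 1, j, (1 : Fin 3)) ∈ Q :=
    fun i j h => hp _ h
  have h2 : ∀ i j : ZMod n, (i, j, (0 : Fin 3)) ∈ Q → (i, j - 1, (2 : Fin 3)) ∈ Q := by
    intro i j h
    have := hp _ (h1 i j h)
    simpa [torusP] using this
  -- the diagonal induction
  have key : ∀ (s : ℕ) (i j : ZMod n), i + j + s = 0 → (i, j, (0 : Fin 3)) ∈ Q := by
    intro s
    induction s with
    | zero =>
      intro i j h
      have : j = -i := by
        have h' : i + j = 0 := by simpa using h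
        exact eq_neg_of_add_eq_zero_right h'
      rw [this]
      exact hS i
    | succ s ih =>
      intro i j h
      have ha : (i, j, (1 : Fin 3)) ∈ Q := by
        have := h1 (i + 1) j (ih (i + 1) j (by rw [← h]; push_cast; ring))
        simpa using this
      have hb : (i, j, (2 : Fin 3)) ∈ Q := by
        have := h2 i (j + 1) (ih i (j + 1) (by rw [← h]; push_cast; ring))
        simpa using this
      have e : torusQ n (torusQ n (i, j, (1 : Fin 3))) = (i, j, 0) :=
        Prod.ext rfl (Prod.ext rfl (by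
          show (1 : Fin 3) + 1 + 1 = 0
          decide))
      rw [← e]
      exact hq _ ha hb
  have hall : ∀ i j : ZMod n, (i, j, (0 : Fin 3)) ∈ Q := by
    intro i j
    refine key (ZMod.val (-(i + j))) i j ?_
    rw [ZMod.natCast_zmod_val]
    ring
  ext ⟨i, j, k⟩
  simp only [Set.mem_univ, iff_true]
  fin_cases k
  · exact hall i j
  · have := h1 (i + 1) j (hall _ _)
    simpa using this
  · have := h2 i (j + 1) (hall _ _)
    simpa using this

end Torus

end Vale.Agent.P189
end
end

section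

section

set_option autoImplicit false

open MeasureTheory
open scoped ENNReal Pointwise

namespace Vale.Agent.P189

/-- The underlying set of the finite torus. -/
abbrev Tor (n : ℕ) : Type := ZMod n × ZMod n × Fin 3

theorem torusP_cube (n : ℕ) (v : Tor n) : torusP n (torusP n (torusP n v)) = v := by
  obtain ⟨i, j, k⟩ := v
  fin_cases k <;> simp [torusP]

theorem torusQ_cube (n : ℕ) (v : Tor n) : torusQ n (torusQ n (torusQ n v)) = v := by
  obtain ⟨i, j, k⟩ := v
  refine Prod.ext rfl (Prod.ext rfl ?_)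
  show k + 1 + 1 + 1 = k
  fin_cases k <;> decide

/-- `torusP` as a permutation. -/
def torusPPerm (n : ℕ) : Equiv.Perm (Tor n) where
  toFun := torusP n
  invFun v := torusP n (torusP n v)
  left_inv := torusP_cube n
  right_inv := torusP_cube n

/-- `torusQ` as a permutation. -/
def torusQPerm (n : ℕ) : Equiv.Perm (Tor n) where
  toFun := torusQ n
  invFun v := torusQ n (torusQ n v)
  left_inv := torusQ_cube n
  right_inv := torusQ_cube n

theorem torusPPerm_cube (n : ℕ) : torusPPerm n ^ 3 = 1 := by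
  ext1 v
  exact torusP_cube n v

theorem torusQPerm_cube (n : ℕ) : torusQPerm n ^ 3 = 1 := by
  ext1 v
  exact torusQ_cube n v

/-- Uniform probability measure on a finite discrete space. -/
noncomputable def unif (V : Type) [Fintype V] [MeasurableSpace V] : Measure V :=
  ((Fintype.card V : ℝ≥0∞)⁻¹) • Measure.count

theorem unif_prob (V : Type) [Fintype V] [Nonempty V] [MeasurableSpace V] :
    IsProbabilityMeasure (unif V) := by
  constructor
  rw [unif, Measure.smul_apply, Measure.count_apply MeasurableSet.univ, smul_eq_mul]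
  simp only [Set.encard_univ, ENat.card_eq_coe_fintype_card, ENat.toENNReal_coe]
  exact ENNReal.inv_mul_cancel (by simp [Fintype.card_ne_zero]) (ENNReal.natCast_ne_top _)

theorem unif_invariant (G V : Type) [Group G] [Fintype V] [MeasurableSpace V]
    [DiscreteMeasurableSpace V] [MulAction G V] : SMulInvariantMeasure G V (unif V) := by
  constructor
  intro g s _
  rw [unif, Measure.smul_apply, Measure.smul_apply, Measure.count_apply MeasurableSet.of_discrete,
    Measure.count_apply MeasurableSet.of_discrete]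
  congr 2
  have h : (fun x : V => g • x) ⁻¹' s = (fun x : V => g⁻¹ • x) '' s := by
    ext x
    simp only [Set.mem_preimage, Set.mem_image]
    constructor
    · intro h
      exact ⟨_, h, inv_smul_smul _ _⟩
    · rintro ⟨y, hy, rfl⟩
      rwa [smul_inv_smul]
  rw [h, (MulAction.injective g⁻¹).encard_image]

/-- The percolating diagonal. -/
def diag (n : ℕ) : Set (Tor n) := Set.range fun i : ZMod n => (i, -i, (0 : Fin 3))

theorem unif_diag (n : ℕ) [NeZero n] : unif (Tor n) (diag n) = (3 * (n : ℝ≥0∞))⁻¹ := by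
  have hinj : Function.Injective fun i : ZMod n => ((i, -i, (0 : Fin 3)) : Tor n) := by
    intro i j h
    exact (Prod.ext_iff.1 h).1
  have h1 : (diag n).encard = n := by
    rw [diag, ← Set.image_univ, hinj.encard_image, Set.encard_univ,
      ENat.card_eq_coe_fintype_card, ZMod.card]
  rw [unif, Measure.smul_apply, Measure.count_apply MeasurableSet.of_discrete, h1, smul_eq_mul]
  simp only [Fintype.card_prod, ZMod.card, Fintype.card_fin, ENat.toENNReal_coe]
  have hn : (n : ℝ≥0∞) ≠ 0 := by simpa using NeZero.ne n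
  have hn' : (n : ℝ≥0∞) ≠ ⊤ := ENNReal.natCast_ne_top n
  push_cast
  rw [ENNReal.mul_inv (Or.inl hn) (Or.inl hn'), mul_comm, ← mul_assoc,
    ENNReal.mul_inv_cancel hn hn', one_mul, mul_comm]

/-- For every essentially free action there is an essentially free action (its product with a
finite torus) of cost at most `1 + 1/(3n)`. -/
theorem torus_upper {G X : Type} [Group G] [MeasurableSpace X] [MulAction G X]
    [StandardBorelSpace X] (μ : Measure X) [IsProbabilityMeasure μ]
    [MeasurableConstSMul G X] [SMulInvariantMeasure G X μ] (hfree : EssentiallyFree G X μ)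
    (p q t : G) (hG : GroupData G p q t) (n : ℕ) [NeZero n] :
    ∃ (Y : Type) (_ : MeasurableSpace Y) (_ : StandardBorelSpace Y) (ν : Measure Y)
      (_ : IsProbabilityMeasure ν) (_ : MulAction G Y) (_ : MeasurableConstSMul G Y)
      (_ : SMulInvariantMeasure G Y ν), EssentiallyFree G Y ν ∧
      actionCost G Y ν ≤ 1 + (3 * (n : ℝ≥0∞))⁻¹ := by
  have : Countable G := hG.countable
  obtain ⟨φ, hφp, hφq, hφt⟩ := hG.lift (Tor n) (torusPPerm n) (torusQPerm n)
    (torusPPerm_cube n) (torusQPerm_cube n)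
  let _ : MulAction G (Tor n) := MulAction.compHom (Tor n) φ
  have hd : DiscreteMeasurableSpace (Tor n) := inferInstance
  have hs : StandardBorelSpace (Tor n) := inferInstance
  have hprob : IsProbabilityMeasure (unif (Tor n)) := unif_prob (Tor n)
  have hinv : SMulInvariantMeasure G (Tor n) (unif (Tor n)) := unif_invariant G (Tor n)
  have hp : ∀ v : Tor n, p • v = torusP n v := by
    intro v
    show φ p v = _
    rw [hφp]; rfl
  have hq : ∀ v : Tor n, q • v = torusQ n v := by
    intro v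
    show φ q v = _
    rw [hφq]; rfl
  have hup := upper (V := Tor n) μ hfree (unif (Tor n)) p q t hG.p3 hG.q3 hG.tinf hG.tp hG.tr
    hG.gen (diag n) (by
      intro Q hS h1 h2
      refine torus_perc n Q (fun i => hS ⟨i, rfl⟩) (fun v hv => ?_) (fun v hv hv' => ?_)
      · rw [← hp]; exact h1 v hv
      · rw [← hq, ← hq]
        rw [← hq] at hv'
        exact h2 v hv hv')
  rw [unif_diag] at hup
  exact ⟨X × Tor n, inferInstance, inferInstance, μ.prod (unif (Tor n)), inferInstance,
    inferInstance, prod_measurableConstSMul, prod_smulInvariant μ _,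
    prod_essentiallyFree μ _ hfree, hup⟩

end Vale.Agent.P189
end
end

section

section

set_option autoImplicit false

open Function

namespace Vale.Agent.P189

namespace Grp

/-! ### Normal forms -/

theorem normalForm_of {Γ : Type} [Group Γ] {A B : Subgroup Γ}
    (h : ∀ s n g, Alt A B s n g → ¬ (g ∈ A ∧ g ∈ B)) : NormalForm A B := by
  intro s n g hn hg
  cases hg with
  | a => omega
  | b => omega
  | ca x y n hx hxB hy =>
    constructor
    · intro hgA
      have hyA : y ∈ A := by
        have := A.mul_mem (A.inv_mem hx) hgA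
        simpa using this
      by_cases hyB : y ∈ B
      · exact h _ _ _ hy ⟨hyA, hyB⟩
      · have h1 := Alt.ca y⁻¹ y n (A.inv_mem hyA) (fun h' => hyB (by simpa using h')) hy
        rw [inv_mul_cancel] at h1
        exact h _ _ _ h1 ⟨A.one_mem, B.one_mem⟩
    · intro hgB
      have halt := Alt.ca x y n hx hxB hy
      by_cases hgA : x * y ∈ A
      · exact h _ _ _ halt ⟨hgA, hgB⟩
      · have h1 := Alt.cb (x * y)⁻¹ (x * y) (n + 1) (B.inv_mem hgB)
          (fun h' => hgA (by simpa using A.inv_mem h')) halt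
        rw [inv_mul_cancel] at h1
        exact h _ _ _ h1 ⟨A.one_mem, B.one_mem⟩
  | cb x y n hx hxA hy =>
    constructor
    · intro hgA
      have halt := Alt.cb x y n hx hxA hy
      by_cases hgB : x * y ∈ B
      · exact h _ _ _ halt ⟨hgA, hgB⟩
      · have h1 := Alt.ca (x * y)⁻¹ (x * y) (n + 1) (A.inv_mem hgA)
          (fun h' => hgB (by simpa using B.inv_mem h')) halt
        rw [inv_mul_cancel] at h1
        exact h _ _ _ h1 ⟨A.one_mem, B.one_mem⟩
    · intro hgB
      have hyB : y ∈ B := by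
        have := B.mul_mem (B.inv_mem hx) hgB
        simpa using this
      by_cases hyA : y ∈ A
      · exact h _ _ _ hy ⟨hyA, hyB⟩
      · have h1 := Alt.cb y⁻¹ y n (B.inv_mem hyB) (fun h' => hyA (by simpa using h')) hy
        rw [inv_mul_cancel] at h1
        exact h _ _ _ h1 ⟨A.one_mem, B.one_mem⟩

/-- Transport of normal forms along an injective homomorphism. -/
theorem nf_map {Γ Γ' : Type} [Group Γ] [Group Γ'] {A B : Subgroup Γ}
    (h : NormalForm A B) (f : Γ →* Γ') (hf : Injective f) : NormalForm (A.map f) (B.map f) := by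
  have key : ∀ s n g, Alt (A.map f) (B.map f) s n g → ∃ g0, f g0 = g ∧ Alt A B s n g0 := by
    intro s n g hg
    have mA : ∀ x, f x ∈ A.map f ↔ x ∈ A := fun x => Subgroup.mem_map_iff_mem hf
    have mB : ∀ x, f x ∈ B.map f ↔ x ∈ B := fun x => Subgroup.mem_map_iff_mem hf
    induction hg with
    | a x hx hxB =>
      obtain ⟨x0, hx0, rfl⟩ := hx
      exact ⟨x0, rfl, Alt.a _ hx0 (fun h' => hxB ((mB _).2 h'))⟩
    | b x hx hxA =>
      obtain ⟨x0, hx0, rfl⟩ := hx
      exact ⟨x0, rfl, Alt.b _ hx0 (fun h' => hxA ((mA _).2 h'))⟩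
    | ca x y n hx hxB _ ih =>
      obtain ⟨x0, hx0, rfl⟩ := hx
      obtain ⟨y0, rfl, hy0⟩ := ih
      exact ⟨x0 * y0, map_mul _ _ _, Alt.ca _ _ _ hx0 (fun h' => hxB ((mB _).2 h')) hy0⟩
    | cb x y n hx hxA _ ih =>
      obtain ⟨x0, hx0, rfl⟩ := hx
      obtain ⟨y0, rfl, hy0⟩ := ih
      exact ⟨x0 * y0, map_mul _ _ _, Alt.cb _ _ _ hx0 (fun h' => hxA ((mA _).2 h')) hy0⟩
  intro s n g hn hg
  obtain ⟨g0, rfl, hg0⟩ := key s n g hg
  have := h s n g0 hn hg0
  exact ⟨fun h' => this.1 ((Subgroup.mem_map_iff_mem hf).1 h'),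
    fun h' => this.2 ((Subgroup.mem_map_iff_mem hf).1 h')⟩

theorem empty_ne {ι : Type} {G : ι → Type} [∀ i, Group (G i)] (i : ι) :
    (Monoid.CoprodI.Word.empty (M := G)).fstIdx ≠ some i := by
  simp [Monoid.CoprodI.Word.fstIdx, Monoid.CoprodI.Word.empty]

section Pushout

open Monoid

variable {ι : Type} {G : ι → Type} [∀ i, Group (G i)] {H : Type} [Group H]
  {φ : ∀ i, H →* G i}

theorem pushout_nf (hφ : ∀ i, Injective (φ i)) {i j : ι} (hij : i ≠ j) :
    NormalForm (PushoutI.of (φ := φ) i).range (PushoutI.of (φ := φ) j).range := by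
  have hb : ∀ (l : ι) (m : G l), m ∈ (φ l).range → ∀ l' : ι,
      PushoutI.of (φ := φ) l m ∈ (PushoutI.of (φ := φ) l').range := by
    rintro l m ⟨c, rfl⟩ l'
    rw [PushoutI.of_apply_eq_base φ l c]
    exact ⟨φ l' c, PushoutI.of_apply_eq_base φ l' c⟩
  have key : ∀ s n g, Alt (PushoutI.of (φ := φ) i).range (PushoutI.of (φ := φ) j).range s n g →
      ∃ w : CoprodI.Word G, PushoutI.Reduced φ w ∧ w.fstIdx = some (if s then i else j) ∧
        PushoutI.ofCoprodI w.prod = g := by
    intro s n g hg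
    induction hg with
    | a x hx hxB =>
      obtain ⟨m, rfl⟩ := hx
      have hm : m ∉ (φ i).range := fun h' => hxB (hb _ _ h' _)
      have hm1 : m ≠ 1 := fun h' => hm (h' ▸ one_mem _)
      refine ⟨CoprodI.Word.cons m CoprodI.Word.empty (empty_ne _) hm1, ?_, ?_, ?_⟩
      · intro g' hg'
        simp only [CoprodI.Word.cons, CoprodI.Word.empty, List.mem_cons, List.not_mem_nil,
          or_false] at hg'
        subst hg'
        exact hm
      · simp
      · rw [CoprodI.Word.prod_cons, CoprodI.Word.prod_empty, mul_one, PushoutI.ofCoprodI_of]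
    | b x hx hxA =>
      obtain ⟨m, rfl⟩ := hx
      have hm : m ∉ (φ j).range := fun h' => hxA (hb _ _ h' _)
      have hm1 : m ≠ 1 := fun h' => hm (h' ▸ one_mem _)
      refine ⟨CoprodI.Word.cons m CoprodI.Word.empty (empty_ne _) hm1, ?_, ?_, ?_⟩
      · intro g' hg'
        simp only [CoprodI.Word.cons, CoprodI.Word.empty, List.mem_cons, List.not_mem_nil,
          or_false] at hg'
        subst hg'
        exact hm
      · simp
      · rw [CoprodI.Word.prod_cons, CoprodI.Word.prod_empty, mul_one, PushoutI.ofCoprodI_of]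
    | ca x y n hx hxB _ ih =>
      obtain ⟨m, rfl⟩ := hx
      obtain ⟨w, hw, hw1, rfl⟩ := ih
      have hm : m ∉ (φ i).range := fun h' => hxB (hb _ _ h' _)
      have hm1 : m ≠ 1 := fun h' => hm (h' ▸ one_mem _)
      refine ⟨CoprodI.Word.cons m w (by rw [hw1]; simpa using hij.symm) hm1, ?_, by simp, ?_⟩
      · intro g' hg'
        simp only [CoprodI.Word.cons, List.mem_cons] at hg'
        rcases hg' with rfl | hg'
        · exact hm
        · exact hw _ hg'
      · simp [CoprodI.Word.prod_cons]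
    | cb x y n hx hxA _ ih =>
      obtain ⟨m, rfl⟩ := hx
      obtain ⟨w, hw, hw1, rfl⟩ := ih
      have hm : m ∉ (φ j).range := fun h' => hxA (hb _ _ h' _)
      have hm1 : m ≠ 1 := fun h' => hm (h' ▸ one_mem _)
      refine ⟨CoprodI.Word.cons m w (by rw [hw1]; simpa using hij) hm1, ?_, by simp, ?_⟩
      · intro g' hg'
        simp only [CoprodI.Word.cons, List.mem_cons] at hg'
        rcases hg' with rfl | hg'
        · exact hm
        · exact hw _ hg'
      · simp [CoprodI.Word.prod_cons]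
  refine normalForm_of ?_
  rintro s n g hg ⟨hA, hB⟩
  obtain ⟨w, hw, hw1, rfl⟩ := key s n g hg
  have hmem : PushoutI.ofCoprodI w.prod ∈ (PushoutI.base φ).range := by
    rw [← PushoutI.inf_of_range_eq_base_range hφ hij]
    exact ⟨hA, hB⟩
  have := hw.eq_empty_of_mem_range hφ hmem
  subst this
  simp [CoprodI.Word.fstIdx, CoprodI.Word.empty] at hw1

end Pushout

section Coprod

open Monoid

variable {ι : Type} [DecidableEq ι] {G : ι → Type} [∀ i, Group (G i)] [∀ i, DecidableEq (G i)]

omit [∀ i, DecidableEq (G i)] in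
theorem coprod_inf {i j : ι} (hij : i ≠ j) :
    (CoprodI.of (M := G) (i := i)).range ⊓ (CoprodI.of (M := G) (i := j)).range = ⊥ := by
  rw [eq_bot_iff]
  rintro x ⟨⟨m, rfl⟩, ⟨m', hm'⟩⟩
  have h1 := CoprodI.of_leftInverse (M := G) i m
  rw [← hm', CoprodI.lift_of, Pi.mulSingle_eq_of_ne hij.symm] at h1
  rw [Subgroup.mem_bot, ← h1]
  simp

theorem coprod_nf {i j : ι} (hij : i ≠ j) :
    NormalForm (CoprodI.of (M := G) (i := i)).range (CoprodI.of (M := G) (i := j)).range := by
  have key : ∀ s n g, Alt (CoprodI.of (M := G) (i := i)).range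
      (CoprodI.of (M := G) (i := j)).range s n g →
      ∃ w : CoprodI.Word G, w.fstIdx = some (if s then i else j) ∧ w.prod = g := by
    intro s n g hg
    induction hg with
    | a x hx hxB =>
      obtain ⟨m, rfl⟩ := hx
      have hm1 : m ≠ 1 := by
        rintro rfl
        exact hxB (by simp)
      refine ⟨CoprodI.Word.cons m CoprodI.Word.empty (empty_ne _) hm1, ?_, ?_⟩
      · simp
      · rw [CoprodI.Word.prod_cons, CoprodI.Word.prod_empty, mul_one]
    | b x hx hxA =>
      obtain ⟨m, rfl⟩ := hx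
      have hm1 : m ≠ 1 := by
        rintro rfl
        exact hxA (by simp)
      refine ⟨CoprodI.Word.cons m CoprodI.Word.empty (empty_ne _) hm1, ?_, ?_⟩
      · simp
      · rw [CoprodI.Word.prod_cons, CoprodI.Word.prod_empty, mul_one]
    | ca x y n hx hxB _ ih =>
      obtain ⟨m, rfl⟩ := hx
      obtain ⟨w, hw1, rfl⟩ := ih
      have hm1 : m ≠ 1 := by
        rintro rfl
        exact hxB (by simp)
      refine ⟨CoprodI.Word.cons m w (by rw [hw1]; simpa using hij.symm) hm1, ?_, ?_⟩
      · simp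
      · rw [CoprodI.Word.prod_cons]
    | cb x y n hx hxA _ ih =>
      obtain ⟨m, rfl⟩ := hx
      obtain ⟨w, hw1, rfl⟩ := ih
      have hm1 : m ≠ 1 := by
        rintro rfl
        exact hxA (by simp)
      refine ⟨CoprodI.Word.cons m w (by rw [hw1]; simpa using hij) hm1, ?_, ?_⟩
      · simp
      · rw [CoprodI.Word.prod_cons]
  refine normalForm_of ?_
  rintro s n g hg ⟨hA, hB⟩
  obtain ⟨w, hw1, rfl⟩ := key s n g hg
  have hmem : w.prod ∈ (⊥ : Subgroup (CoprodI G)) := by
    rw [← coprod_inf hij]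
    exact ⟨hA, hB⟩
  rw [Subgroup.mem_bot, ← CoprodI.Word.prod_empty (M := G)] at hmem
  have := CoprodI.Word.equiv.symm.injective (a₁ := w) (a₂ := CoprodI.Word.empty) hmem
  subst this
  simp [CoprodI.Word.fstIdx, CoprodI.Word.empty] at hw1

end Coprod

/-! ### The free product `Z/3 * Z/3` -/

/-- The factors. -/
abbrev F (_ : Bool) : Type := Multiplicative (ZMod 3)

/-- The free product. -/
abbrev G0 : Type := Monoid.CoprodI F

/-- The generator of `Z/3`. -/
def w3 : Multiplicative (ZMod 3) := Multiplicative.ofAdd 1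

theorem w3_cube : w3 ^ 3 = 1 := by decide

theorem w3_ne : w3 ≠ 1 := by decide

theorem w3_gen (x : Multiplicative (ZMod 3)) : x = 1 ∨ x = w3 ∨ x = w3 * w3 := by
  revert x
  decide

/-- The generators. -/
def p0 : G0 := Monoid.CoprodI.of (M := F) (i := true) w3
def q0 : G0 := Monoid.CoprodI.of (M := F) (i := false) w3

theorem range_true : (Monoid.CoprodI.of (M := F) (i := true)).range = Subgroup.zpowers p0 := by
  apply le_antisymm
  · rintro _ ⟨x, rfl⟩
    rcases w3_gen x with rfl | rfl | rfl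
    · simp
    · exact Subgroup.mem_zpowers _
    · rw [map_mul]
      exact mul_mem (Subgroup.mem_zpowers p0) (Subgroup.mem_zpowers p0)
  · rw [Subgroup.zpowers_le]
    exact ⟨w3, rfl⟩

theorem range_false : (Monoid.CoprodI.of (M := F) (i := false)).range = Subgroup.zpowers q0 := by
  apply le_antisymm
  · rintro _ ⟨x, rfl⟩
    rcases w3_gen x with rfl | rfl | rfl
    · simp
    · exact Subgroup.mem_zpowers _
    · rw [map_mul]
      exact mul_mem (Subgroup.mem_zpowers q0) (Subgroup.mem_zpowers q0)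
  · rw [Subgroup.zpowers_le]
    exact ⟨w3, rfl⟩

theorem nf_zpowers : NormalForm (Subgroup.zpowers p0) (Subgroup.zpowers q0) := by
  rw [← range_true, ← range_false]
  exact coprod_nf (by decide)

theorem inf_zpowers : Subgroup.zpowers p0 ⊓ Subgroup.zpowers q0 = ⊥ := by
  rw [← range_true, ← range_false]
  exact coprod_inf (by decide)

theorem closure_p0_q0 : Subgroup.closure {p0, q0} = ⊤ := by
  rw [eq_top_iff]
  intro x _
  induction x using Monoid.CoprodI.induction_on with
  | one => exact one_mem _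
  | of i m =>
    cases i with
    | true =>
      have h1 : Monoid.CoprodI.of (M := F) (i := true) m ∈ Subgroup.zpowers p0 := by
        rw [← range_true]
        exact ⟨m, rfl⟩
      exact (Subgroup.zpowers_le.2 (Subgroup.subset_closure (by simp))) h1
    | false =>
      have h1 : Monoid.CoprodI.of (M := F) (i := false) m ∈ Subgroup.zpowers q0 := by
        rw [← range_false]
        exact ⟨m, rfl⟩
      exact (Subgroup.zpowers_le.2 (Subgroup.subset_closure (by simp))) h1
  | mul x y hx hy => exact mul_mem (hx trivial) (hy trivial)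

/-- The first letter if it is in the factor `i`, and `1` otherwise. -/
noncomputable def hd (i : Bool) (γ : G0) : Multiplicative (ZMod 3) :=
  (Monoid.CoprodI.Word.equivPair (M := F) i (Monoid.CoprodI.Word.equiv γ)).head

theorem hd_of_mul (i : Bool) (m : Multiplicative (ZMod 3)) (γ : G0) :
    hd i (Monoid.CoprodI.of (M := F) (i := i) m * γ) = m * hd i γ := by
  unfold hd
  have h1 : Monoid.CoprodI.Word.equiv (Monoid.CoprodI.of (M := F) (i := i) m * γ) =
      Monoid.CoprodI.of (M := F) (i := i) m • Monoid.CoprodI.Word.equiv γ := by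
    show (Monoid.CoprodI.of (M := F) (i := i) m * γ) • (Monoid.CoprodI.Word.empty (M := F)) =
      Monoid.CoprodI.of (M := F) (i := i) m • (γ • (Monoid.CoprodI.Word.empty (M := F)))
    rw [mul_smul]
  rw [h1, Monoid.CoprodI.Word.equivPair_smul_same]

theorem hd_disj (γ : G0) (h1 : hd true γ ≠ 1) (h2 : hd false γ ≠ 1) : False := by
  unfold hd at h1 h2
  rw [Monoid.CoprodI.Word.equivPair_head] at h1 h2
  split_ifs at h1 with h3
  · split_ifs at h2 with h4
    · obtain ⟨h5, h6⟩ := h3
      obtain ⟨h7, h8⟩ := h4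
      rw [h6] at h8
      exact absurd h8 (by decide)
    · exact h2 rfl
  · exact h1 rfl

theorem two_of_three_w3 (x : Multiplicative (ZMod 3)) :
    (¬ (x ≠ 1) ∧ w3 * x ≠ 1 ∧ w3 * (w3 * x) ≠ 1) ∨
    (x ≠ 1 ∧ ¬ (w3 * x ≠ 1) ∧ w3 * (w3 * x) ≠ 1) ∨
    (x ≠ 1 ∧ w3 * x ≠ 1 ∧ ¬ (w3 * (w3 * x) ≠ 1)) := by
  revert x
  decide

/-! ### The amalgam -/

/-- The amalgamated subgroup. -/
abbrev Lam : Subgroup G0 := Subgroup.closure {p0, q0 * p0 * q0⁻¹}

/-- The two factors of the amalgam. -/
def Fam : Bool → Type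
  | true => G0
  | false => Lam × Multiplicative ℤ

noncomputable instance instGroupFam : ∀ i, Group (Fam i)
  | true => inferInstanceAs (Group G0)
  | false => inferInstanceAs (Group (Lam × Multiplicative ℤ))

/-- The two embeddings. -/
noncomputable def phi : ∀ i, Lam →* Fam i
  | true => Lam.subtype
  | false => MonoidHom.inl Lam (Multiplicative ℤ)

theorem phi_inj : ∀ i, Injective (phi i)
  | true => Subtype.val_injective
  | false => fun _ _ h => (Prod.ext_iff.1 h).1

/-- The group. -/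
abbrev GG : Type := Monoid.PushoutI phi

/-- The embedding of `G0`. -/
noncomputable def oA : G0 →* GG := Monoid.PushoutI.of (φ := phi) true

/-- The embedding of the second factor. -/
noncomputable def oB : (Lam × Multiplicative ℤ) →* GG := Monoid.PushoutI.of (φ := phi) false

theorem oA_inj : Injective oA := Monoid.PushoutI.of_injective phi_inj true

theorem oB_inj : Injective oB := Monoid.PushoutI.of_injective phi_inj false

theorem oA_coe (x : Lam) : oA (x : G0) = oB (x, 1) := by
  have h1 := Monoid.PushoutI.of_apply_eq_base phi true x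
  have h2 := Monoid.PushoutI.of_apply_eq_base phi false x
  exact h1.trans h2.symm

noncomputable def pp : GG := oA p0
noncomputable def qq : GG := oA q0
noncomputable def tt : GG := oB (1, Multiplicative.ofAdd 1)

theorem p0_mem : p0 ∈ Lam := Subgroup.subset_closure (by simp)
theorem r0_mem : q0 * p0 * q0⁻¹ ∈ Lam := Subgroup.subset_closure (by simp)

theorem closure_A : Subgroup.closure {pp, qq} = oA.range := by
  rw [MonoidHom.range_eq_map, ← closure_p0_q0, MonoidHom.map_closure]
  simp [pp, qq, Set.image_insert_eq]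

theorem closure_Lam : Subgroup.closure ({⟨p0, p0_mem⟩, ⟨q0 * p0 * q0⁻¹, r0_mem⟩} : Set Lam) =
    ⊤ := by
  rw [← Subgroup.closure_closure_coe_preimage (k := {p0, q0 * p0 * q0⁻¹})]
  congr 1
  ext ⟨x, hx⟩
  simp [Subtype.ext_iff]

theorem closure_B0 : Subgroup.closure ({(⟨p0, p0_mem⟩, 1), (⟨q0 * p0 * q0⁻¹, r0_mem⟩, 1),
    (1, Multiplicative.ofAdd 1)} : Set (Lam × Multiplicative ℤ)) = ⊤ := by
  rw [eq_top_iff]
  set K := Subgroup.closure ({(⟨p0, p0_mem⟩, 1), (⟨q0 * p0 * q0⁻¹, r0_mem⟩, 1),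
    (1, Multiplicative.ofAdd 1)} : Set (Lam × Multiplicative ℤ)) with hK
  have h1 : ∀ x : Lam, (x, (1 : Multiplicative ℤ)) ∈ K := by
    have h2 : Subgroup.map (MonoidHom.inl Lam (Multiplicative ℤ)) ⊤ ≤ K := by
      rw [← closure_Lam, MonoidHom.map_closure, Subgroup.closure_le]
      rintro _ ⟨x, hx, rfl⟩
      apply Subgroup.subset_closure
      simp only [Set.mem_insert_iff, Set.mem_singleton_iff] at hx
      rcases hx with rfl | rfl
      · simp [MonoidHom.inl]
      · simp [MonoidHom.inl]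
    intro x
    exact h2 ⟨x, trivial, rfl⟩
  have h3 : ∀ z : Multiplicative ℤ, ((1 : Lam), z) ∈ K := by
    intro z
    have h4 : ((1 : Lam), Multiplicative.ofAdd (1 : ℤ)) ∈ K := Subgroup.subset_closure (by simp)
    have h5 := K.zpow_mem h4 (Multiplicative.toAdd z)
    convert h5 using 1
    ext
    · simp
    · simp [← ofAdd_zsmul]
  rintro ⟨x, z⟩ _
  have := K.mul_mem (h1 x) (h3 z)
  simpa using this

theorem closure_B : Subgroup.closure {pp, qq * pp * qq⁻¹, tt} = oB.range := by
  rw [MonoidHom.range_eq_map, ← closure_B0, MonoidHom.map_closure]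
  congr 1
  have e1 : pp = oB (⟨p0, p0_mem⟩, 1) := oA_coe ⟨p0, p0_mem⟩
  have e2 : qq * pp * qq⁻¹ = oB (⟨q0 * p0 * q0⁻¹, r0_mem⟩, 1) := by
    rw [← oA_coe ⟨q0 * p0 * q0⁻¹, r0_mem⟩]
    simp [pp, qq]
  rw [Set.image_insert_eq, Set.image_insert_eq, Set.image_singleton, ← e1, ← e2]
  rfl

theorem closure_C : Subgroup.closure {pp, qq * pp * qq⁻¹} =
    (Monoid.PushoutI.base phi).range := by
  rw [MonoidHom.range_eq_map, ← closure_Lam, MonoidHom.map_closure]
  congr 1
  have e1 : pp = Monoid.PushoutI.base phi ⟨p0, p0_mem⟩ :=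
    Monoid.PushoutI.of_apply_eq_base phi true ⟨p0, p0_mem⟩
  have e2 : qq * pp * qq⁻¹ = Monoid.PushoutI.base phi ⟨q0 * p0 * q0⁻¹, r0_mem⟩ := by
    rw [← Monoid.PushoutI.of_apply_eq_base phi true ⟨q0 * p0 * q0⁻¹, r0_mem⟩]
    show qq * pp * qq⁻¹ = oA (q0 * p0 * q0⁻¹)
    simp [pp, qq]
  rw [Set.image_insert_eq, Set.image_singleton, ← e1, ← e2]

theorem closure_all : Subgroup.closure {pp, qq, tt} = ⊤ := by
  set K := Subgroup.closure {pp, qq, tt} with hK
  have hp : pp ∈ K := Subgroup.subset_closure (by simp)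
  have hq : qq ∈ K := Subgroup.subset_closure (by simp)
  have ht : tt ∈ K := Subgroup.subset_closure (by simp)
  have hA : oA.range ≤ K := by
    rw [← closure_A, Subgroup.closure_le]
    rintro x hx
    simp only [Set.mem_insert_iff, Set.mem_singleton_iff] at hx
    rcases hx with rfl | rfl <;> assumption
  have hB : oB.range ≤ K := by
    rw [← closure_B, Subgroup.closure_le]
    rintro x hx
    simp only [Set.mem_insert_iff, Set.mem_singleton_iff] at hx
    rcases hx with rfl | rfl | rfl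
    · exact hp
    · exact K.mul_mem (K.mul_mem hq hp) (K.inv_mem hq)
    · exact ht
  rw [eq_top_iff]
  intro x _
  induction x using Monoid.PushoutI.induction_on with
  | of i g =>
    cases i with
    | true => exact hA ⟨g, rfl⟩
    | false => exact hB ⟨g, rfl⟩
  | base h =>
    rw [← Monoid.PushoutI.of_apply_eq_base phi true h]
    exact hA ⟨_, rfl⟩
  | mul x y hx hy => exact K.mul_mem (hx trivial) (hy trivial)

/-! ### Homomorphisms to other groups -/

/-- The homomorphism `ℤ → K`, killed by `3`. -/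
noncomputable def zlin {K : Type} [Group K] (a : K) (ha : a ^ 3 = 1) :
    { f : ℤ →+ Additive K // f ((3 : ℕ) : ℤ) = 0 } :=
  ⟨zmultiplesHom (Additive K) (Additive.ofMul a), by
      rw [zmultiplesHom_apply]
      show Additive.ofMul (a ^ ((3 : ℕ) : ℤ)) = 0
      rw [zpow_natCast, ha]
      rfl⟩

/-- The homomorphism `Z/3 → K` given by an element of order dividing `3`. -/
noncomputable def zhom {K : Type} [Group K] (a : K) (ha : a ^ 3 = 1) :
    Multiplicative (ZMod 3) →* K :=
  AddMonoidHom.toMultiplicativeLeft (ZMod.lift 3 (zlin a ha))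

theorem zhom_w3 {K : Type} [Group K] (a : K) (ha : a ^ 3 = 1) : zhom a ha w3 = a := by
  show Additive.toMul (ZMod.lift 3 (zlin a ha) (1 : ZMod 3)) = a
  have h1 := ZMod.lift_coe 3 (zlin a ha) 1
  rw [Int.cast_one] at h1
  rw [h1]
  show a ^ (1 : ℤ) = a
  simp

/-- The homomorphism from the free product. -/
noncomputable def hom0 {K : Type} [Group K] (a b : K) (ha : a ^ 3 = 1) (hb : b ^ 3 = 1) :
    G0 →* K :=
  Monoid.CoprodI.lift (fun i : Bool => if i then zhom a ha else zhom b hb)

theorem hom0_p {K : Type} [Group K] (a b : K) (ha : a ^ 3 = 1) (hb : b ^ 3 = 1) :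
    hom0 a b ha hb p0 = a := by
  show Monoid.CoprodI.lift (fun i : Bool => if i then zhom a ha else zhom b hb)
    (Monoid.CoprodI.of (M := F) (i := true) w3) = a
  rw [Monoid.CoprodI.lift_of]
  simp [zhom_w3]

theorem hom0_q {K : Type} [Group K] (a b : K) (ha : a ^ 3 = 1) (hb : b ^ 3 = 1) :
    hom0 a b ha hb q0 = b := by
  show Monoid.CoprodI.lift (fun i : Bool => if i then zhom a ha else zhom b hb)
    (Monoid.CoprodI.of (M := F) (i := false) w3) = b
  rw [Monoid.CoprodI.lift_of]
  simp [zhom_w3]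

/-- The family of homomorphisms on the factors. -/
noncomputable def homFam {K : Type} [Group K] (f : G0 →* K) : ∀ i, Fam i →* K
  | true => f
  | false => (f.comp Lam.subtype).comp (MonoidHom.fst Lam (Multiplicative ℤ))

/-- The homomorphism from the amalgam. -/
noncomputable def homG {K : Type} [Group K] (f : G0 →* K) : GG →* K :=
  Monoid.PushoutI.lift (homFam f) (f.comp Lam.subtype) (by
    intro i
    cases i with
    | true => rfl
    | false => rfl)

theorem homG_oA {K : Type} [Group K] (f : G0 →* K) (x : G0) : homG f (oA x) = f x :=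
  Monoid.PushoutI.lift_of (φ := phi) (homFam f) (f.comp Lam.subtype) _ (i := true) x

theorem homG_tt {K : Type} [Group K] (f : G0 →* K) : homG f tt = 1 := by
  have h1 : homG f tt = homFam f false (1, Multiplicative.ofAdd 1) :=
    Monoid.PushoutI.lift_of (φ := phi) (homFam f) (f.comp Lam.subtype) _ (i := false) _
  rw [h1]
  show f (((1 : Lam) : G0)) = 1
  simp

/-! ### The colouring -/

theorem exists_color : ∃ TP TN : Set GG, Disjoint TP TN ∧ TwoOfThree pp TP ∧
    TwoOfThree qq TN := by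
  obtain ⟨S, hS, -⟩ := (oA.range).exists_isComplement_right (1 : GG)
  let e := hS.equiv
  let oe : G0 ≃* oA.range := MonoidHom.ofInjective oA_inj
  let γ : GG → G0 := fun g => oe.symm (e g).1
  have hγ : ∀ (x : G0) (g : GG), γ (oA x * g) = x * γ g := by
    intro x g
    have h1 : hS.equiv (oA x * g) = (oe x * (hS.equiv g).1, (hS.equiv g).2) :=
      hS.equiv_mul_left (oe x) g
    show oe.symm (hS.equiv (oA x * g)).1 = x * oe.symm (hS.equiv g).1
    rw [h1, map_mul, MulEquiv.symm_apply_apply]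
  refine ⟨{g | hd true (γ g) ≠ 1}, {g | hd false (γ g) ≠ 1}, ?_, ?_, ?_⟩
  · rw [Set.disjoint_left]
    intro g h1 h2
    exact hd_disj _ h1 h2
  · intro g
    have h1 : hd true (γ (pp • g)) = w3 * hd true (γ g) := by
      rw [smul_eq_mul, pp, hγ]
      exact hd_of_mul true w3 (γ g)
    have h2 : hd true (γ (pp • pp • g)) = w3 * (w3 * hd true (γ g)) := by
      rw [← h1, smul_eq_mul (a := pp) (b := pp • g), pp, hγ]
      exact hd_of_mul true w3 _
    simp only [Set.mem_ofPred_eq, h1, h2]
    exact two_of_three_w3 _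
  · intro g
    have h1 : hd false (γ (qq • g)) = w3 * hd false (γ g) := by
      rw [smul_eq_mul, qq, hγ]
      exact hd_of_mul false w3 (γ g)
    have h2 : hd false (γ (qq • qq • g)) = w3 * (w3 * hd false (γ g)) := by
      rw [← h1, smul_eq_mul (a := qq) (b := qq • g), qq, hγ]
      exact hd_of_mul false w3 _
    simp only [Set.mem_ofPred_eq, h1, h2]
    exact two_of_three_w3 _

theorem countable_of_gen {K : Type} [Group K] {a b c : K}
    (h : Subgroup.closure {a, b, c} = ⊤) : Countable K := by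
  let f : FreeGroup (Fin 3) →* K := FreeGroup.lift ![a, b, c]
  have hf : Surjective f := by
    rw [← MonoidHom.range_eq_top, eq_top_iff, ← h, Subgroup.closure_le]
    intro x hx
    simp only [Set.mem_insert_iff, Set.mem_singleton_iff] at hx
    rcases hx with rfl | rfl | rfl
    · exact ⟨FreeGroup.of 0, by simp [f]⟩
    · exact ⟨FreeGroup.of 1, by simp [f]⟩
    · exact ⟨FreeGroup.of 2, by simp [f]⟩
  exact hf.countable

theorem groupData : GroupData GG pp qq tt where
  countable := countable_of_gen closure_all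
  p3 := by
    rw [pp, ← map_pow, p0, ← map_pow, w3_cube, map_one, map_one]
  q3 := by
    rw [qq, ← map_pow, q0, ← map_pow, w3_cube, map_one, map_one]
  p1 := by
    intro h
    rw [pp, ← map_one oA] at h
    have h1 := oA_inj h
    rw [p0, ← map_one (Monoid.CoprodI.of (M := F) (i := true))] at h1
    exact w3_ne (Monoid.CoprodI.of_injective true h1)
  q1 := by
    intro h
    rw [qq, ← map_one oA] at h
    have h1 := oA_inj h
    rw [q0, ← map_one (Monoid.CoprodI.of (M := F) (i := false))] at h1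
    exact w3_ne (Monoid.CoprodI.of_injective false h1)
  tp := by
    have e1 : pp = oB (⟨p0, p0_mem⟩, 1) := oA_coe ⟨p0, p0_mem⟩
    rw [e1, tt, ← map_mul, ← map_mul]
    simp
  tr := by
    have e2 : qq * pp * qq⁻¹ = oB (⟨q0 * p0 * q0⁻¹, r0_mem⟩, 1) := by
      rw [← oA_coe ⟨q0 * p0 * q0⁻¹, r0_mem⟩]
      simp [pp, qq]
    rw [e2, tt, ← map_mul, ← map_mul]
    simp
  tinf := by
    intro n hn
    rw [tt, ← map_pow, ← map_one oB] at hn
    have h1 := oB_inj hn
    have h2 := (Prod.ext_iff.1 h1).2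
    simp only [Prod.pow_mk, one_pow] at h2
    have h3 : Multiplicative.ofAdd (1 : ℤ) ^ n = Multiplicative.ofAdd 0 := h2
    rw [← ofAdd_nsmul] at h3
    have h4 := Multiplicative.ofAdd.injective h3
    simpa using h4
  gen := closure_all
  nf := by
    rw [closure_A, closure_B]
    exact pushout_nf phi_inj (by decide)
  inf := by
    rw [closure_A, closure_B, closure_C]
    exact Monoid.PushoutI.inf_of_range_eq_base_range phi_inj (by decide)
  nf0 := by
    have := nf_map nf_zpowers oA oA_inj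
    rwa [MonoidHom.map_zpowers, MonoidHom.map_zpowers] at this
  inf0 := by
    have h1 := Subgroup.map_inf (Subgroup.zpowers p0) (Subgroup.zpowers q0) oA oA_inj
    rw [inf_zpowers, Subgroup.map_bot, MonoidHom.map_zpowers, MonoidHom.map_zpowers] at h1
    exact h1.symm
  lift := by
    intro V α β hα hβ
    refine ⟨homG (hom0 α β hα hβ), ?_, ?_, ?_⟩
    · rw [pp, homG_oA, hom0_p]
    · rw [qq, homG_oA, hom0_q]
    · exact homG_tt _
  color := exists_color

end Grp

theorem exists_groupData : ∃ (G : Type) (_ : Group G) (p q t : G), GroupData G p q t :=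
  ⟨Grp.GG, inferInstance, Grp.pp, Grp.qq, Grp.tt, Grp.groupData⟩

end Vale.Agent.P189
end
end

section

section

set_option autoImplicit false

open MeasureTheory
open scoped ENNReal

namespace Vale.Agent.P189

/-- The group `⟨p, q, t | p³, q³, [t, p], [t, q p q⁻¹]⟩` has an essentially free action of cost at
least `1 + 1/81` and essentially free actions of cost arbitrarily close to `1`. -/
theorem exists_two_costs :
    ∃ (Γ : Type) (_ : Group Γ), Countable Γ ∧ Group.FG Γ ∧
      (∃ (X : Type) (_ : MeasurableSpace X) (_ : StandardBorelSpace X) (μ : Measure X)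
        (_ : IsProbabilityMeasure μ) (_ : MulAction Γ X) (_ : MeasurableConstSMul Γ X)
        (_ : SMulInvariantMeasure Γ X μ),
        EssentiallyFree Γ X μ ∧ 1 + (81 : ℝ≥0∞)⁻¹ ≤ actionCost Γ X μ) ∧
      (∀ ε : ℝ≥0∞, 0 < ε →
        ∃ (X : Type) (_ : MeasurableSpace X) (_ : StandardBorelSpace X) (μ : Measure X)
          (_ : IsProbabilityMeasure μ) (_ : MulAction Γ X) (_ : MeasurableConstSMul Γ X)
          (_ : SMulInvariantMeasure Γ X μ),
          EssentiallyFree Γ X μ ∧ actionCost Γ X μ ≤ 1 + ε) := by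
  obtain ⟨G, _, p, q, t, hG⟩ := exists_groupData
  have : Countable G := hG.countable
  refine ⟨G, inferInstance, this, ?_, ?_, ?_⟩
  · refine ⟨⟨Set.Finite.toFinset (s := {p, q, t}) (Set.toFinite _), ?_⟩⟩
    rw [Set.Finite.coe_toFinset]
    exact hG.gen
  · refine ⟨Bern G, inferInstance, inferInstance, bernMeasure G, inferInstance, inferInstance,
      inferInstance, inferInstance, bern_free G, ?_⟩
    have h81 : ENNReal.ofReal (1 / 81) = (81 : ℝ≥0∞)⁻¹ := by
      rw [one_div, ENNReal.ofReal_inv_of_pos (by norm_num)]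
      norm_num
    rw [← h81]
    exact le_actionCost_of_forall (bernMeasure G) fun D hD hgen => lower G p q t hG D hD hgen
  · intro ε hε
    obtain ⟨n, hn⟩ := ENNReal.exists_inv_nat_lt hε.ne'
    have hn0 : n ≠ 0 := by
      rintro rfl
      simp at hn
    have : NeZero n := ⟨hn0⟩
    obtain ⟨Y, h1, h2, ν, h3, h4, h5, h6, h7, h8⟩ :=
      torus_upper (bernMeasure G) (bern_free G) p q t hG n
    refine ⟨Y, h1, h2, ν, h3, h4, h5, h6, h7, h8.trans ?_⟩
    gcongr
    refine le_trans ?_ hn.le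
    rw [ENNReal.inv_le_inv]
    calc (n : ℝ≥0∞) = 1 * n := (one_mul _).symm
      _ ≤ 3 * n := by gcongr; norm_num

/-- Not every countable group has fixed price. -/
theorem not_fixed_price :
    ¬ ∀ (Γ : Type) [Group Γ] [Countable Γ], ∃ c : ℝ≥0∞, HasFixedPrice Γ c := by
  intro h
  obtain ⟨Γ, _, hcount, hfg, ⟨X, _, _, μ, _, _, _, _, hfree, hlow⟩, hup⟩ := exists_two_costs
  obtain ⟨c, hc⟩ := h Γ
  obtain ⟨Y, _, _, ν, _, _, _, _, hfree', hup'⟩ := hup ((82 : ℝ≥0∞)⁻¹) (by simp)
  have h1 := hc X μ hfree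
  have h2 := hc Y ν hfree'
  rw [h1] at hlow
  rw [h2] at hup'
  have h3 : 1 + (81 : ℝ≥0∞)⁻¹ ≤ 1 + (82 : ℝ≥0∞)⁻¹ := hlow.trans hup'
  have h4 : (81 : ℝ≥0∞)⁻¹ ≤ (82 : ℝ≥0∞)⁻¹ := by
    exact (ENNReal.add_le_add_iff_left (by simp)).1 h3
  rw [ENNReal.inv_le_inv] at h4
  norm_num at h4

end Vale.Agent.P189
end
end
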